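import Vale.Agent.P322.Paths

/-!
The scalar comparison argument along the semigroup.
-/

namespace Vale.Agent.P322

open Real Set

/-- Antiderivative used in the barrier. -/
noncomputable def EE (s : ℝ) : ℝ := negMulLog (1 - s) / s - log s

theorem hasDerivAt_EE {s : ℝ} (h0 : 0 < s) (h1 : s < 1) :
    HasDerivAt EE (log (1 - s) / s ^ 2) s := by
  have hn := (hasDerivAt_negMulLog (show 1 - s ≠ 0 by linarith)).comp s
    ((hasDerivAt_id s).const_sub 1)
  refine ((hn.div (hasDerivAt_id s) h0.ne').sub (hasDerivAt_log h0.ne')).congr_deriv ?_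
  simp only [id, Function.comp_apply, negMulLog]
  field_simp
  ring

theorem EE_nonneg {s : ℝ} (h0 : 0 < s) (h1 : s ≤ 1) : 0 ≤ EE s := by
  have := negMulLog_nonneg (show 0 ≤ 1 - s by linarith) (by linarith)
  have := log_nonpos h0.le h1
  have := div_nonneg ‹0 ≤ negMulLog (1 - s)› h0.le
  unfold EE; linarith

theorem EE_le {s : ℝ} (h0 : 0 < s) (h1 : s ≤ 1) : EE s ≤ 1 - log s := by
  have h : negMulLog (1 - s) ≤ s := by
    rcases h1.eq_or_lt with rfl | h
    · simp
    · have := one_sub_inv_le_log_of_pos (show 0 < 1 - s by linarith)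
      have := mul_le_mul_of_nonneg_left this (show 0 ≤ 1 - s by linarith)
      rw [mul_sub, mul_inv_cancel₀ (by linarith)] at this
      rw [negMulLog]; linarith
  have := (div_le_one h0).2 h
  unfold EE; linarith

theorem EP_anti {p H₁ H₂ : ℝ} (hp : 0 < p) (h1 : 0 < H₁) (h : H₁ ≤ H₂) : EP p H₂ ≤ EP p H₁ := by
  refine csSup_le ⟨_, 0, ⟨le_rfl, zero_lt_one⟩, rfl⟩ ?_
  rintro x ⟨s, hs, rfl⟩
  have := le_EP hp h1 hs.1 hs.2
  simp only
  linarith [mul_le_mul_of_nonneg_left h (betaR_nonneg hs.1 hs.2)]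

theorem phiR_one : phiR 1 = log 2 := by simp [phiR]

theorem sq_half_le_phiR {x : ℝ} (h0 : 0 ≤ x) (h1 : x ≤ 1) : x ^ 2 / 2 ≤ phiR x := by
  have hc : ContinuousOn (fun y => phiR y - y ^ 2 / 2) (Icc (0:ℝ) 1) := by
    unfold phiR; exact ((continuous_const.sub continuous_hr).sub (by fun_prop)).continuousOn
  have hm : MonotoneOn (fun y => phiR y - y ^ 2 / 2) (Icc (0:ℝ) 1) := by
    refine monotoneOn_of_hasDerivWithinAt_nonneg (convex_Icc 0 1) hc
      (f' := fun y => Ar y - y) ?_ ?_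
    · intro y hy
      rw [interior_Icc] at hy
      exact (((hasDerivAt_phiR (by linarith [hy.1]) hy.2).sub
        ((hasDerivAt_pow 2 y).div_const 2)).congr_deriv (by push_cast; ring)).hasDerivWithinAt
    · intro y hy
      rw [interior_Icc] at hy
      linarith [le_Ar hy.1.le hy.2]
  have := hm (left_mem_Icc.2 zero_le_one) ⟨h0, h1⟩ h0
  simp at this; linarith

theorem PiR_le_log {x : ℝ} (h0 : 0 ≤ x) (h1 : x < 1) : PiR x ≤ - kap * log (1 - x ^ 2) := by
  have hd : 0 < 1 - x ^ 2 := by nlinarith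
  have h := kap_log le_rfl h0 h1
  rw [PiR_zero, sub_zero, hr_zero] at h
  have hle := log_two_mul_pA_le x (abs_le.2 ⟨by linarith, h1.le⟩)
  have hge : log 2 * (1 - x ^ 2) ≤ hr x := by
    refine le_trans (mul_le_mul_of_nonneg_left ?_ log_two_pos.le) hle
    unfold pA
    nlinarith [mul_nonneg hd.le (mul_nonneg (show 0 ≤ gam by linarith [gam_bounds.1]) (sq_nonneg x))]
  have := log_le_log (mul_pos log_two_pos hd) hge
  rw [log_mul log_two_pos.ne' hd.ne'] at this
  refine h.trans ?_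
  nlinarith [mul_le_mul_of_nonneg_left this kap_pos.le]

theorem gam_log : log 2 * (1 - gam) = 1 / 2 := by
  have := log_two_pos
  rw [gam]; field_simp; ring

theorem defect_le {c : ℝ} (h0 : 0 ≤ c) (h1 : c ≤ 1) :
    hr c - pA c * log 2 ≤ (log 2 - 1 / 2) * c ^ 4 := by
  have h := sq_half_le_phiR h0 h1
  have e : (1 - pA c) * log 2
      = c ^ 2 * (log 2 * (1 - gam)) + c ^ 4 * (log 2 - log 2 * (1 - gam)) := by
    unfold pA; ring
  rw [gam_log] at e
  rw [phiR] at h
  linarith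

theorem kap_numeric : kap * (log 2 - 1 / 2) ≤ 1 / 2 ∧
    (log 2 - 1 / 2) + kap * (log 2 - 1 / 2) / (2 * log 2) ≤ 1 / (4 * log 2) := by
  have h1 := log_two_gt_d9
  have h2 := log_two_lt_d9
  have hk : kap ≤ 0.641 := by unfold kap; nlinarith
  have hd : 0 ≤ log 2 - 1 / 2 := by linarith
  have hd2 : log 2 - 1 / 2 ≤ 0.1932 := by linarith
  constructor
  · nlinarith
  · rw [← sub_nonneg]
    have e : 1 / (4 * log 2) - ((log 2 - 1 / 2) + kap * (log 2 - 1 / 2) / (2 * log 2))
        = (1 - 4 * log 2 * (log 2 - 1 / 2) - 2 * kap * (log 2 - 1 / 2)) / (4 * log 2) := by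
      field_simp; ring
    rw [e]
    refine div_nonneg ?_ (by linarith)
    nlinarith

/-- The barrier. -/
noncomputable def UB (c x : ℝ) : ℝ :=
  hr c / log 2 * phiR x + (hr c - pA c * log 2) / log 2 * (kap / 2) * (x ^ 2 * EE (x ^ 2))

theorem UB_supersolution {c x : ℝ} (h0 : 0 ≤ c) (h1 : c < 1) (hx0 : 0 < x) (hx1 : x < 1)
    (hH : 0 < hr c - UB c x) :
    ∃ D, HasDerivAt (UB c) D x ∧ x * D ≤ 2 * UB c x + EP (pA c) (hr c - UB c x) := by
  have hk := pA_pos (show -1 < c by linarith) h1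
  have hD0 : 0 ≤ (hr c - pA c * log 2) / log 2 := by
    refine div_nonneg ?_ log_two_pos.le
    linarith [log_two_mul_pA_le c (abs_le.2 ⟨by linarith, h1.le⟩)]
  have hx2 : x ^ 2 < 1 := by nlinarith
  have hde := ((hasDerivAt_pow 2 x).mul
    (HasDerivAt.comp (h := fun y : ℝ => y ^ 2) x (hasDerivAt_EE (s := x ^ 2) (pow_pos hx0 2) hx2)
      (hasDerivAt_pow 2 x))).const_mul
      ((hr c - pA c * log 2) / log 2 * (kap / 2))
  refine ⟨_, ((hasDerivAt_phiR (by linarith) hx1).const_mul (hr c / log 2)).add hde, ?_⟩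
  have ht := le_EP hk hH hx0.le hx1
  have hP := mul_le_mul_of_nonneg_left (PiR_le_log hx0.le hx1) hD0
  have hε : 0 ≤ (hr c - pA c * log 2) / log 2 * (kap / 2) * (x ^ 2 * EE (x ^ 2)) :=
    mul_nonneg (mul_nonneg hD0 (by linarith [kap_pos]))
      (mul_nonneg (sq_nonneg x) (EE_nonneg (by positivity) hx2.le))
  have hbε := mul_nonneg (betaR_nonneg hx0.le hx1) hε
  simp only [Function.comp_apply, Pi.mul_apply]
  unfold UB at *
  unfold PiR Gr at *
  set K := hr c / log 2 with hK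
  set D := (hr c - pA c * log 2) / log 2 with hD
  have eD : D = K - pA c := by rw [hD, hK]; field_simp
  have eh : hr c = K * (hr x + phiR x) := by
    rw [hK, phiR]; field_simp [log_two_pos.ne']; ring
  have ee : x * (D * (kap / 2) * ((2:ℕ) * x ^ (2 - 1) * EE (x ^ 2)
        + x ^ 2 * (log (1 - x ^ 2) / (x ^ 2) ^ 2 * ((2:ℕ) * x ^ (2 - 1)))))
      = 2 * (D * (kap / 2) * (x ^ 2 * EE (x ^ 2))) + D * kap * log (1 - x ^ 2) := by
    push_cast; field_simp
  rw [mul_add, ee]
  rw [eD] at hP hε hbε ht ⊢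
  rw [eh] at ht ⊢
  nlinarith [ht, hP, hbε]

theorem UB_one (c : ℝ) : UB c 1 = hr c := by
  have := log_two_pos
  unfold UB EE; simp [phiR_one]; field_simp

theorem continuousOn_UB (c : ℝ) {x₀ : ℝ} (hx₀ : 0 < x₀) : ContinuousOn (UB c) (Icc x₀ 1) := by
  have hne : ∀ x ∈ Icc x₀ 1, x ^ 2 ≠ (0:ℝ) := fun x hx => by
    have := hx₀.trans_le hx.1; positivity
  have hE : ContinuousOn (fun x => EE (x ^ 2)) (Icc x₀ 1) :=
    ((continuous_negMulLog.comp (by fun_prop)).continuousOn.div (by fun_prop) hne).sub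
      (ContinuousOn.log (by fun_prop) hne)
  unfold UB phiR
  exact (continuousOn_const.mul (continuous_const.sub continuous_hr).continuousOn).add
    (continuousOn_const.mul ((continuous_pow 2).continuousOn.mul hE))

/-- Comparison with the dictator curve. -/
theorem comparison {c : ℝ} (hc0 : 0 ≤ c) (hc1 : c < 1) {I : ℝ → ℝ}
    (hcont : ContinuousOn I (Icc 0 1)) (hI1 : I 1 ≤ hr c)
    (hlt : ∀ x ∈ Ioo (0:ℝ) 1, I x < hr c)
    (hd : ∀ x ∈ Ioo (0:ℝ) 1, ∃ D, HasDerivAt I D x ∧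
      2 * I x + EP (pA c) (hr c - I x) ≤ x * D)
    {x : ℝ} (hx : x ∈ Ioo (0:ℝ) 1) : I x ≤ phiR x := by
  have hk := pA_pos (show -1 < c by linarith) hc1
  have hbelow : ∀ z ∈ Ioo (0:ℝ) 1, I z ≤ UB c z := by
    intro z hz
    by_contra hcon
    push Not at hcon
    set w := fun y => (I y - UB c y) / y ^ 2 with hw
    have hw0 : 0 < w z := div_pos (by linarith) (pow_pos hz.1 2)
    have hsub : Icc z 1 ⊆ Icc 0 1 := fun y hy => ⟨hz.1.le.trans hy.1, hy.2⟩
    have hwc : ContinuousOn w (Icc z 1) :=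
      ((hcont.mono hsub).sub (continuousOn_UB c hz.1)).div (by fun_prop)
        fun y hy => (pow_pos (hz.1.trans_le hy.1) 2).ne'
    have h1 : w 1 ≤ w z / 2 := by
      simp only [hw, UB_one, one_pow, div_one]; simp only [hw] at hw0; linarith
    set S := {y ∈ Icc z 1 | w y ≤ w z / 2} with hS
    have hScl : IsClosed S := by
      have e : S = Icc z 1 ∩ w ⁻¹' Iic (w z / 2) := rfl
      rw [e]; exact hwc.preimage_isClosed_of_isClosed isClosed_Icc isClosed_Iic
    obtain ⟨y, hy, hymin⟩ := (isCompact_Icc.of_isClosed_subset hScl fun t ht => ht.1).exists_isLeast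
      ⟨1, ⟨hz.2.le, le_rfl⟩, h1⟩
    have hzy : z ≤ y := hy.1.1
    have hd' : ∀ t ∈ Ioo z y, ∃ D, HasDerivAt w D t ∧ 0 ≤ D := by
      intro t ht
      have ht1 : t < 1 := ht.2.trans_le hy.1.2
      have ht0 : 0 < t := hz.1.trans ht.1
      have hwt : w z / 2 < w t := by
        by_contra h
        exact absurd (hymin ⟨⟨ht.1.le, ht1.le⟩, not_lt.1 h⟩) (not_le.2 ht.2)
      have hpos : 0 < I t - UB c t := by
        have h' : 0 < w t := by linarith
        simp only [hw] at h'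
        exact (div_pos_iff_of_pos_right (pow_pos ht0 2)).1 h'
      have hIt := hlt t ⟨ht0, ht1⟩
      obtain ⟨D, hD, hD'⟩ := hd t ⟨ht0, ht1⟩
      obtain ⟨D', hU, hU'⟩ := UB_supersolution hc0 hc1 ht0 ht1 (by linarith)
      have hanti := EP_anti hk (H₁ := hr c - I t) (H₂ := hr c - UB c t) (by linarith) (by linarith)
      refine ⟨_, (hD.sub hU).div (hasDerivAt_pow 2 t) (pow_pos ht0 2).ne',
        div_nonneg ?_ (sq_nonneg _)⟩
      simp only [Pi.sub_apply]
      push_cast
      nlinarith [mul_le_mul_of_nonneg_left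
        (show 2 * (I t - UB c t) ≤ t * (D - D') by linarith) ht0.le]
    have hmono : w z ≤ w y := by
      refine monotoneOn_of_deriv_nonneg (convex_Icc z y)
        (hwc.mono fun t ht => ⟨ht.1, ht.2.trans hy.1.2⟩) ?_ ?_ ⟨le_rfl, hzy⟩ ⟨hzy, le_rfl⟩ hzy
      · intro t ht; rw [interior_Icc] at ht
        obtain ⟨D, hD, -⟩ := hd' t ht; exact hD.differentiableAt.differentiableWithinAt
      · intro t ht; rw [interior_Icc] at ht
        obtain ⟨D, hD, hD0⟩ := hd' t ht; rw [hD.deriv]; exact hD0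
    linarith [hy.2]
  have hφ : hr c = log 2 - phiR c := by simp [phiR]
  have hpc := sq_half_le_phiR hc0 hc1.le
  have hdef := defect_le hc0 hc1.le
  have hD0 : 0 ≤ hr c - pA c * log 2 := by
    linarith [log_two_mul_pA_le c (abs_le.2 ⟨by linarith, hc1.le⟩)]
  obtain ⟨hn1, hn2⟩ := kap_numeric
  have heps : ∀ z ∈ Ioo (0:ℝ) 1, c ≤ z →
      (hr c - pA c * log 2) / log 2 * (kap / 2) * (z ^ 2 * EE (z ^ 2))
        ≤ (log 2 - 1 / 2) * kap * c ^ 2 / (2 * log 2) * z ^ 2 := by
    intro z hz hcz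
    rcases hc0.eq_or_lt with h | h
    · subst h
      have : hr (0:ℝ) - pA 0 * log 2 = 0 := by simp [pA]
      rw [this]; simp
    · have hz2 : z ^ 2 ≤ 1 := by nlinarith [hz.1, hz.2]
      have hE : EE (z ^ 2) ≤ 2 / c - 1 := by
        refine (EE_le (pow_pos hz.1 2) hz2).trans ?_
        rw [log_pow]; push_cast
        have h3 := one_sub_inv_le_log_of_pos h
        have h4 := log_le_log h hcz
        rw [div_eq_mul_inv]; linarith
      have h1 : (hr c - pA c * log 2) * EE (z ^ 2) ≤ (log 2 - 1 / 2) * c ^ 2 := by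
        refine le_trans (mul_le_mul hdef hE (EE_nonneg (pow_pos hz.1 2) hz2)
          (mul_nonneg (by linarith [log_two_gt_d9]) (by positivity))) ?_
        rw [show (log 2 - 1 / 2) * c ^ 4 * (2 / c - 1)
          = (log 2 - 1 / 2) * c ^ 2 * (2 * c - c ^ 2) by field_simp]
        refine mul_le_of_le_one_right (mul_nonneg (by linarith [log_two_gt_d9]) (sq_nonneg c)) ?_
        nlinarith [sq_nonneg (1 - c)]
      have := mul_le_mul_of_nonneg_right h1
        (show 0 ≤ kap * z ^ 2 / (2 * log 2) by have := kap_pos; have := log_two_pos; positivity)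
      have e1 : (hr c - pA c * log 2) / log 2 * (kap / 2) * (z ^ 2 * EE (z ^ 2))
          = (hr c - pA c * log 2) * EE (z ^ 2) * (kap * z ^ 2 / (2 * log 2)) := by ring
      have e2 : (log 2 - 1 / 2) * kap * c ^ 2 / (2 * log 2) * z ^ 2
          = (log 2 - 1 / 2) * c ^ 2 * (kap * z ^ 2 / (2 * log 2)) := by ring
      linarith
  rcases le_or_gt c x with hcx | hcx
  · refine (hbelow x hx).trans ?_
    unfold UB
    have h1 := heps x hx hcx
    have h2 : c ^ 2 / 2 * (x ^ 2 / 2) ≤ phiR c * phiR x :=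
      mul_le_mul hpc (sq_half_le_phiR hx.1.le hx.2.le) (by positivity) (phiR_nonneg c)
    have e : hr c / log 2 * phiR x = phiR x - phiR c * phiR x / log 2 := by
      rw [hφ]; field_simp [log_two_pos.ne']
    rw [e]
    have h3 : (log 2 - 1 / 2) * kap * c ^ 2 / (2 * log 2) * x ^ 2
        ≤ phiR c * phiR x / log 2 := by
      rw [div_mul_eq_mul_div, div_le_div_iff₀ (by linarith [log_two_pos]) log_two_pos]
      nlinarith [mul_le_mul_of_nonneg_left hn1 (by positivity : 0 ≤ c ^ 2 * x ^ 2), log_two_pos]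
    linarith
  · have hc : 0 < c := hx.1.trans hcx
    have hcm : c ∈ Ioo (0:ℝ) 1 := ⟨hc, hc1⟩
    have hIc : I c ≤ c ^ 2 / 2 := by
      refine (hbelow c hcm).trans ?_
      unfold UB
      have h1 := heps c hcm le_rfl
      have hup := phiR_le_quartic c (abs_le.2 ⟨by linarith, hc1.le⟩)
      have hsq : c ^ 4 / 4 ≤ phiR c ^ 2 := by nlinarith
      have e : hr c / log 2 * phiR c = phiR c - phiR c ^ 2 / log 2 := by
        rw [hφ]; field_simp [log_two_pos.ne']
      have h4 := div_le_div_of_nonneg_right hsq log_two_pos.le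
      have h5 := mul_le_mul_of_nonneg_left hn2 (by positivity : 0 ≤ c ^ 4)
      rw [e]
      have e2 : c ^ 4 / 4 / log 2 = c ^ 4 * (1 / (4 * log 2)) := by ring
      have e3 : (log 2 - 1 / 2) * kap * c ^ 2 / (2 * log 2) * c ^ 2
          = c ^ 4 * (kap * (log 2 - 1 / 2) / (2 * log 2)) := by ring
      linarith
    have hm : MonotoneOn (fun z => I z / z ^ 2) (Icc x c) := by
      have hd' : ∀ t ∈ Icc x c, ∃ D, HasDerivAt (fun z => I z / z ^ 2) D t ∧ 0 ≤ D := by
        intro t ht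
        have ht0 : 0 < t := hx.1.trans_le ht.1
        have ht1 : t < 1 := ht.2.trans_lt hc1
        obtain ⟨D, hD, hD'⟩ := hd t ⟨ht0, ht1⟩
        have := EP_nonneg hk (H := hr c - I t) (by linarith [hlt t ⟨ht0, ht1⟩])
        refine ⟨_, hD.div (hasDerivAt_pow 2 t) (pow_pos ht0 2).ne',
          div_nonneg ?_ (sq_nonneg _)⟩
        push_cast
        nlinarith [mul_le_mul_of_nonneg_left (show 2 * I t ≤ t * D by linarith) ht0.le]
      refine monotoneOn_of_deriv_nonneg (convex_Icc x c) ?_ ?_ ?_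
      · intro t ht; obtain ⟨D, hD, -⟩ := hd' t ht; exact hD.continuousAt.continuousWithinAt
      · intro t ht; obtain ⟨D, hD, -⟩ := hd' t (interior_subset ht)
        exact hD.differentiableAt.differentiableWithinAt
      · intro t ht; obtain ⟨D, hD, hD0⟩ := hd' t (interior_subset ht); rw [hD.deriv]; exact hD0
    have := hm ⟨le_rfl, hcx.le⟩ ⟨hcx.le, le_rfl⟩ hcx.le
    simp only at this
    rw [div_le_div_iff₀ (pow_pos hx.1 2) (pow_pos hc 2)] at this
    have h2 : I x * c ^ 2 ≤ x ^ 2 / 2 * c ^ 2 := by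
      nlinarith [mul_le_mul_of_nonneg_right hIc (sq_nonneg x)]
    exact (le_of_mul_le_mul_right h2 (pow_pos hc 2)).trans (sq_half_le_phiR hx.1.le hx.2.le)

end Vale.Agent.P322
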