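import Vale.Agent.P322.Defs

/-!
Basic properties of `hr`, `Gr`, `betaR` and of the perspective function `EP`.
-/

namespace Vale.Agent.P322

open Real Set

theorem log_two_pos : (0:ℝ) < log 2 := log_pos (by norm_num)

theorem hr_eq {r : ℝ} (h1 : -1 < r) (h2 : r < 1) :
    hr r = log 2 - ((1 + r) / 2 * log (1 + r) + (1 - r) / 2 * log (1 - r)) := by
  unfold hr binEntropy
  have e1 : (1 - (1 - r) / 2) = (1 + r) / 2 := by ring
  rw [e1, log_inv, log_inv, log_div (by linarith) (by norm_num),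
    log_div (by linarith) (by norm_num)]
  ring

theorem phiR_eq {r : ℝ} (h1 : -1 < r) (h2 : r < 1) :
    phiR r = (1 + r) / 2 * log (1 + r) + (1 - r) / 2 * log (1 - r) := by
  rw [phiR, hr_eq h1 h2]; ring

@[simp] theorem hr_zero : hr 0 = log 2 := by
  unfold hr; norm_num [binEntropy]; ring

@[simp] theorem hr_one : hr 1 = 0 := by
  unfold hr; norm_num

@[simp] theorem phiR_zero : phiR 0 = 0 := by simp [phiR]

@[simp] theorem Ar_zero : Ar 0 = 0 := by simp [Ar]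

theorem hr_neg (r : ℝ) : hr (-r) = hr r := by
  unfold hr
  rw [show (1 - -r) / 2 = 1 - (1 - r) / 2 by ring, binEntropy_one_sub]

theorem phiR_neg (r : ℝ) : phiR (-r) = phiR r := by simp [phiR, hr_neg]

theorem Ar_neg (r : ℝ) : Ar (-r) = - Ar r := by
  unfold Ar; rw [show 1 - -r = 1 + r by ring, show 1 + -r = 1 - r by ring]; ring

theorem continuous_hr : Continuous hr := by
  unfold hr; fun_prop

theorem hasDerivAt_Ar {r : ℝ} (h1 : -1 < r) (h2 : r < 1) :
    HasDerivAt Ar (1 / (1 - r ^ 2)) r := by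
  have a : HasDerivAt (fun x : ℝ => log (1 + x)) (1 / (1 + r)) r :=
    ((hasDerivAt_id r).const_add 1).log (by simp only [id]; linarith)
  have b : HasDerivAt (fun x : ℝ => log (1 - x)) (-1 / (1 - r)) r :=
    ((hasDerivAt_id r).const_sub 1).log (by simp only [id]; linarith)
  refine ((a.sub b).div_const 2).congr_deriv ?_
  have : (1:ℝ) + r ≠ 0 := by linarith
  have : (1:ℝ) - r ≠ 0 := by linarith
  have : (1:ℝ) - r ^ 2 ≠ 0 := by nlinarith
  field_simp
  ring

theorem hasDerivAt_phiR {r : ℝ} (h1 : -1 < r) (h2 : r < 1) :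
    HasDerivAt phiR (Ar r) r := by
  have hq0 : (1 - r) / 2 ≠ 0 := by linarith
  have hq1 : (1 - r) / 2 ≠ 1 := by linarith
  have h := (hasDerivAt_binEntropy hq0 hq1).comp r
    (((hasDerivAt_id r).const_sub 1).div_const 2)
  have h' : HasDerivAt hr ((log (1 - (1 - r) / 2) - log ((1 - r) / 2)) * (-1 / 2)) r := h
  refine (h'.const_sub (log 2)).congr_deriv ?_
  rw [show 1 - (1 - r) / 2 = (1 + r) / 2 by ring, log_div (by linarith) (by norm_num),
    log_div (by linarith) (by norm_num), Ar]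
  ring

theorem hasDerivAt_hr {r : ℝ} (h1 : -1 < r) (h2 : r < 1) :
    HasDerivAt hr (- Ar r) r := by
  have h := (hasDerivAt_phiR h1 h2).const_sub (log 2)
  have e : (fun x => log 2 - phiR x) = hr := by funext x; simp [phiR]
  rwa [e] at h

theorem Ar_pos {r : ℝ} (h0 : 0 < r) (h1 : r < 1) : 0 < Ar r := by
  have : log (1 - r) < log (1 + r) := log_lt_log (by linarith) (by linarith)
  unfold Ar; linarith

theorem Ar_nonneg {r : ℝ} (h0 : 0 ≤ r) (h1 : r < 1) : 0 ≤ Ar r := by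
  rcases h0.eq_or_lt with rfl | h
  · simp
  · exact (Ar_pos h h1).le

theorem monotoneOn_Ar : MonotoneOn Ar (Ioo (-1:ℝ) 1) := by
  intro x hx y hy hxy
  have a : log (1 + x) ≤ log (1 + y) := log_le_log (by linarith [hx.1]) (by linarith)
  have b : log (1 - y) ≤ log (1 - x) := log_le_log (by linarith [hy.2]) (by linarith)
  unfold Ar; linarith

theorem le_Ar {r : ℝ} (h0 : 0 ≤ r) (h1 : r < 1) : r ≤ Ar r := by
  have hm : MonotoneOn (fun x => Ar x - x) (Ico (0:ℝ) 1) := by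
    refine monotoneOn_of_hasDerivWithinAt_nonneg (convex_Ico 0 1)
      (f' := fun x => 1 / (1 - x ^ 2) - 1) ?_ ?_ ?_
    · intro x hx
      exact ((hasDerivAt_Ar (by linarith [hx.1]) hx.2).sub
        (hasDerivAt_id x)).continuousAt.continuousWithinAt
    · intro x hx
      rw [interior_Ico] at hx
      exact ((hasDerivAt_Ar (by linarith [hx.1]) hx.2).sub
        (hasDerivAt_id x)).hasDerivWithinAt
    · intro x hx
      rw [interior_Ico] at hx
      have hp : 0 < 1 - x ^ 2 := by nlinarith [hx.1, hx.2]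
      rw [sub_nonneg, le_div_iff₀ hp]
      nlinarith [hx.1]
  have := hm ⟨le_rfl, by norm_num⟩ ⟨h0, h1⟩ h0
  simpa using this

theorem strictAntiOn_hr : StrictAntiOn hr (Icc (0:ℝ) 1) := by
  intro x hx y hy hxy
  unfold hr
  exact binEntropy_strictMonoOn ⟨by linarith [hy.2], by linarith [hy.1]⟩
    ⟨by linarith [hx.2], by linarith [hx.1]⟩ (by linarith)

theorem hr_pos {r : ℝ} (h1 : -1 < r) (h2 : r < 1) : 0 < hr r :=
  binEntropy_pos (by linarith) (by linarith)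

theorem hr_nonneg {r : ℝ} (h1 : -1 ≤ r) (h2 : r ≤ 1) : 0 ≤ hr r :=
  binEntropy_nonneg (by linarith) (by linarith)

theorem hr_le_log_two (r : ℝ) : hr r ≤ log 2 := binEntropy_le_log_two

theorem phiR_nonneg (r : ℝ) : 0 ≤ phiR r := by
  unfold phiR; linarith [hr_le_log_two r]

theorem phiR_pos {r : ℝ} (h0 : 0 < r) (h1 : r ≤ 1) : 0 < phiR r := by
  have := strictAntiOn_hr (left_mem_Icc.2 zero_le_one) ⟨h0.le, h1⟩ h0
  unfold phiR; simp at this; linarith

@[simp] theorem Gr_zero : Gr 0 = 0 := by simp [Gr]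

@[simp] theorem betaR_zero : betaR 0 = 0 := by simp [betaR]

@[simp] theorem PiR_zero : PiR 0 = 0 := by simp [PiR]

theorem hasDerivAt_Gr {r : ℝ} (h0 : 0 ≤ r) (h1 : r < 1) :
    HasDerivAt Gr (betaR r * Ar r) r := by
  refine (((hasDerivAt_id r).mul (hasDerivAt_Ar (by linarith) h1)).sub
    ((hasDerivAt_phiR (by linarith) h1).const_mul 2)).congr_deriv ?_
  simp only [id]
  rcases h0.eq_or_lt with rfl | h
  · simp
  · have hA := Ar_pos h h1
    have hd : (1:ℝ) - r ^ 2 ≠ 0 := by nlinarith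
    rw [betaR, if_neg h.ne']
    field_simp
    ring

theorem betaR_nonneg {r : ℝ} (h0 : 0 ≤ r) (h1 : r < 1) : 0 ≤ betaR r := by
  rcases h0.eq_or_lt with rfl | h
  · simp
  · have hA := Ar_pos h h1
    have hd : 0 < 1 - r ^ 2 := by nlinarith
    rw [betaR, if_neg h.ne', sub_nonneg, le_div_iff₀ (mul_pos hd hA)]
    have hm : AntitoneOn (fun x => (1 - x ^ 2) * Ar x - x) (Ico (0:ℝ) 1) := by
      refine antitoneOn_of_hasDerivWithinAt_nonpos (convex_Ico 0 1)
        (f' := fun x => -2 * x * Ar x) ?_ ?_ ?_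
      · intro x hx
        exact ((((hasDerivAt_pow 2 x).const_sub 1).mul
          (hasDerivAt_Ar (by linarith [hx.1]) hx.2)).sub
          (hasDerivAt_id x)).continuousAt.continuousWithinAt
      · intro x hx
        rw [interior_Ico] at hx
        refine (((((hasDerivAt_pow 2 x).const_sub 1).mul
          (hasDerivAt_Ar (by linarith [hx.1]) hx.2)).sub
          (hasDerivAt_id x)).congr_deriv ?_).hasDerivWithinAt
        have hd' : (1:ℝ) - x ^ 2 ≠ 0 := by nlinarith [hx.1, hx.2]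
        field_simp
        ring
      · intro x hx
        rw [interior_Ico] at hx
        have := Ar_nonneg hx.1.le hx.2
        nlinarith [mul_nonneg hx.1.le this]
    have := hm ⟨le_rfl, by norm_num⟩ ⟨h.le, h1⟩ h.le
    simp at this
    linarith

theorem hasDerivAt_betaR {r : ℝ} (h : 0 < r) (h1 : r < 1) :
    HasDerivAt betaR (((1 + r ^ 2) * Ar r - r) / ((1 - r ^ 2) * Ar r) ^ 2) r := by
  have hA := Ar_pos h h1
  have hd : (1:ℝ) - r ^ 2 ≠ 0 := by nlinarith
  have hne : (1 - r ^ 2) * Ar r ≠ 0 := mul_ne_zero hd hA.ne'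
  have h' : HasDerivAt (fun x => x / ((1 - x ^ 2) * Ar x) - 1)
      (((1 + r ^ 2) * Ar r - r) / ((1 - r ^ 2) * Ar r) ^ 2) r := by
    refine (((hasDerivAt_id r).div (((hasDerivAt_pow 2 r).const_sub 1).mul
      (hasDerivAt_Ar (by linarith) h1)) hne).sub_const 1).congr_deriv ?_
    simp only [id, Pi.mul_apply]
    field_simp
    ring
  refine h'.congr_of_eventuallyEq ?_
  filter_upwards [eventually_ne_nhds h.ne'] with x hx
  simp [betaR, hx]

theorem monotoneOn_betaR : MonotoneOn betaR (Ico (0:ℝ) 1) := by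
  intro x hx y hy hxy
  rcases hx.1.eq_or_lt with rfl | h
  · simpa using betaR_nonneg hy.1 hy.2
  · refine monotoneOn_of_hasDerivWithinAt_nonneg (convex_Ioo 0 1)
      (f' := fun r => ((1 + r ^ 2) * Ar r - r) / ((1 - r ^ 2) * Ar r) ^ 2) ?_ ?_ ?_
      ⟨h, hx.2⟩ ⟨lt_of_lt_of_le h hxy, hy.2⟩ hxy
    · exact fun r hr => (hasDerivAt_betaR hr.1 hr.2).continuousAt.continuousWithinAt
    · intro r hr
      rw [interior_Ioo] at hr
      exact (hasDerivAt_betaR hr.1 hr.2).hasDerivWithinAt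
    · intro r hr
      rw [interior_Ioo] at hr
      refine div_nonneg ?_ (sq_nonneg _)
      nlinarith [le_Ar hr.1.le hr.2, mul_nonneg (sq_nonneg r) (Ar_nonneg hr.1.le hr.2)]

/-- The tangent inequality. -/
theorem tangent {r s : ℝ} (hr0 : 0 ≤ r) (hr1 : r < 1) (hs0 : 0 ≤ s) (hs1 : s < 1) :
    PiR s ≤ Gr r + betaR s * hr r := by
  have hd : ∀ x ∈ Ico (0:ℝ) 1,
      HasDerivAt (fun x => Gr x + betaR s * hr x) ((betaR x - betaR s) * Ar x) x := fun x hx =>
    ((hasDerivAt_Gr hx.1 hx.2).add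
      ((hasDerivAt_hr (by linarith [hx.1]) hx.2).const_mul (betaR s))).congr_deriv (by ring)
  change Gr s + betaR s * hr s ≤ _
  rcases le_total r s with h | h
  · refine antitoneOn_of_hasDerivWithinAt_nonpos (convex_Icc r s)
      (f' := fun x => (betaR x - betaR s) * Ar x)
      (f := fun x => Gr x + betaR s * hr x) ?_ ?_ ?_ ⟨le_rfl, h⟩ ⟨h, le_rfl⟩ h
    · exact fun x hx => (hd x ⟨hr0.trans hx.1, hx.2.trans_lt hs1⟩).continuousAt.continuousWithinAt
    · intro x hx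
      rw [interior_Icc] at hx
      exact (hd x ⟨hr0.trans hx.1.le, hx.2.trans hs1⟩).hasDerivWithinAt
    · intro x hx
      rw [interior_Icc] at hx
      have hx0 : 0 ≤ x := hr0.trans hx.1.le
      have hb := monotoneOn_betaR ⟨hx0, hx.2.trans hs1⟩ ⟨hs0, hs1⟩ hx.2.le
      exact mul_nonpos_of_nonpos_of_nonneg (by linarith) (Ar_nonneg hx0 (hx.2.trans hs1))
  · refine monotoneOn_of_hasDerivWithinAt_nonneg (convex_Icc s r)
      (f' := fun x => (betaR x - betaR s) * Ar x)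
      (f := fun x => Gr x + betaR s * hr x) ?_ ?_ ?_ ⟨le_rfl, h⟩ ⟨h, le_rfl⟩ h
    · exact fun x hx => (hd x ⟨hs0.trans hx.1, hx.2.trans_lt hr1⟩).continuousAt.continuousWithinAt
    · intro x hx
      rw [interior_Icc] at hx
      exact (hd x ⟨hs0.trans hx.1.le, hx.2.trans hr1⟩).hasDerivWithinAt
    · intro x hx
      rw [interior_Icc] at hx
      have hx0 : 0 ≤ x := hs0.trans hx.1.le
      have hb := monotoneOn_betaR ⟨hs0, hs1⟩ ⟨hx0, hx.2.trans hr1⟩ hx.1.le
      exact mul_nonneg (by linarith) (Ar_nonneg hx0 (hx.2.trans hr1))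

theorem Gr_nonneg {r : ℝ} (h0 : 0 ≤ r) (h1 : r < 1) : 0 ≤ Gr r := by
  have := tangent h0 h1 le_rfl zero_lt_one
  simpa using this

theorem PiR_nonneg {r : ℝ} (h0 : 0 ≤ r) (h1 : r < 1) : 0 ≤ PiR r :=
  add_nonneg (Gr_nonneg h0 h1) (mul_nonneg (betaR_nonneg h0 h1) (hr_nonneg (by linarith) h1.le))

theorem exists_hr_eq {k : ℝ} (hk0 : 0 < k) (hk : k ≤ log 2) :
    ∃ r, 0 ≤ r ∧ r < 1 ∧ hr r = k := by
  have h := intermediate_value_Icc' (zero_le_one : (0:ℝ) ≤ 1) continuous_hr.continuousOn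
  obtain ⟨r, hr', hrk⟩ := h (show k ∈ Icc (hr 1) (hr 0) by simp; exact ⟨hk0.le, hk⟩)
  refine ⟨r, hr'.1, lt_of_le_of_ne hr'.2 ?_, hrk⟩
  rintro rfl
  simp at hrk
  linarith

theorem EP_bdd {p H : ℝ} (hp : 0 < p) (hH : 0 < H) :
    BddAbove ((fun s => PiR s * p - betaR s * H) '' Ico 0 1) := by
  obtain ⟨r, hr0, hr1, hrk⟩ := exists_hr_eq (k := min (H / p) (log 2))
    (lt_min (div_pos hH hp) log_two_pos) (min_le_right _ _)
  refine ⟨p * Gr r, ?_⟩
  rintro x ⟨s, hs, rfl⟩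
  have h1 := mul_le_mul_of_nonneg_left (tangent hr0 hr1 hs.1 hs.2) hp.le
  have hle : p * hr r ≤ H := by
    have := min_le_left (H / p) (log 2)
    rw [← hrk, le_div_iff₀ hp] at this
    linarith
  simp only
  nlinarith [mul_le_mul_of_nonneg_left hle (betaR_nonneg hs.1 hs.2)]

theorem le_EP {p H s : ℝ} (hp : 0 < p) (hH : 0 < H) (hs0 : 0 ≤ s) (hs1 : s < 1) :
    PiR s * p - betaR s * H ≤ EP p H :=
  le_csSup (EP_bdd hp hH) ⟨s, ⟨hs0, hs1⟩, rfl⟩

theorem EP_nonneg {p H : ℝ} (hp : 0 < p) (hH : 0 < H) : 0 ≤ EP p H := by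
  simpa using le_EP hp hH le_rfl zero_lt_one

theorem EP_le {p H r : ℝ} (hp : 0 < p) (hr0 : 0 ≤ r) (hr1 : r < 1) (h : p * hr r ≤ H) :
    EP p H ≤ p * Gr r := by
  refine csSup_le ⟨_, 0, ⟨le_rfl, zero_lt_one⟩, rfl⟩ ?_
  rintro x ⟨s, hs, rfl⟩
  have h1 := mul_le_mul_of_nonneg_left (tangent hr0 hr1 hs.1 hs.2) hp.le
  simp only
  nlinarith [mul_le_mul_of_nonneg_left h (betaR_nonneg hs.1 hs.2)]

theorem EP_eq_zero {p H : ℝ} (hp : 0 < p) (hH : p * log 2 ≤ H) : EP p H = 0 := by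
  have hH' : 0 < H := lt_of_lt_of_le (mul_pos hp log_two_pos) hH
  refine le_antisymm ?_ (EP_nonneg hp hH')
  simpa using EP_le (r := 0) hp le_rfl zero_lt_one (by simpa using hH)

theorem EP_eq {p H r : ℝ} (hp : 0 < p) (hH : 0 < H) (hr0 : 0 ≤ r) (hr1 : r < 1)
    (h : p * hr r = H) : EP p H = PiR r * p - betaR r * H := by
  refine le_antisymm ?_ (le_EP hp hH hr0 hr1)
  refine (EP_le hp hr0 hr1 h.le).trans_eq ?_
  rw [← h, PiR]; ring

/-- Convexity of the perspective function, in the form used. -/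
theorem EP_avg {p₁ p₂ H₁ H₂ : ℝ} (hp₁ : 0 < p₁) (hp₂ : 0 < p₂) (hH₁ : 0 < H₁) (hH₂ : 0 < H₂) :
    EP ((p₁ + p₂) / 2) ((H₁ + H₂) / 2) ≤ (EP p₁ H₁ + EP p₂ H₂) / 2 := by
  refine csSup_le ⟨_, 0, ⟨le_rfl, zero_lt_one⟩, rfl⟩ ?_
  rintro x ⟨s, hs, rfl⟩
  have := le_EP hp₁ hH₁ hs.1 hs.2
  have := le_EP hp₂ hH₂ hs.1 hs.2
  simp only
  linarith

theorem EP_homog {t p H : ℝ} (ht : 0 < t) (hp : 0 < p) (hH : 0 < H) :
    EP (t * p) (t * H) = t * EP p H := by
  refine le_antisymm ?_ ?_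
  · refine csSup_le ⟨_, 0, ⟨le_rfl, zero_lt_one⟩, rfl⟩ ?_
    rintro x ⟨s, hs, rfl⟩
    have := mul_le_mul_of_nonneg_left (le_EP hp hH hs.1 hs.2) ht.le
    simp only
    linarith
  · rw [← le_div_iff₀' ht]
    refine csSup_le ⟨_, 0, ⟨le_rfl, zero_lt_one⟩, rfl⟩ ?_
    rintro x ⟨s, hs, rfl⟩
    have := le_EP (mul_pos ht hp) (mul_pos ht hH) hs.1 hs.2
    simp only
    rw [le_div_iff₀' ht]
    linarith

end Vale.Agent.P322
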