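import Mathlib

/-!
The statement-level definitions: a uniform input on the cube through independent binary symmetric
channels, and the mutual information in bits between a Boolean function of the input and the
output.
-/

namespace Vale.Agent.P322

open Real

/-- Probability that one binary symmetric channel with crossover probability `ε` sends `a` to `b`. -/
noncomputable def bsc (ε : ℝ) (a b : Bool) : ℝ := if a = b then 1 - ε else ε

/-- Joint law `P[f X = w, Y = y]` for uniform `X` and the `n`-fold channel output `Y`. -/
noncomputable def jointLaw {n : ℕ} (f : (Fin n → Bool) → Bool) (ε : ℝ) (w : Bool)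
    (y : Fin n → Bool) : ℝ :=
  ∑ x ∈ Finset.univ.filter (fun x => f x = w), (1 / 2 ^ n) * ∏ i, bsc ε (x i) (y i)

/-- Mutual information in bits of a joint law on a finite product. -/
noncomputable def mutualInfo {α β : Type} [Fintype α] [Fintype β] (P : α → β → ℝ) : ℝ :=
  ∑ a, ∑ b, P a b * logb 2 (P a b / ((∑ b', P a b') * (∑ a', P a' b)))

end Vale.Agent.P322
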