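import Vale.Agent.P322.TwoPoint

/-!
The inequality on the discrete cube, by induction on the dimension, and the derivative along
the noise semigroup.
-/

namespace Vale.Agent.P322

open Real Set

/-- Flip coordinate `i`. -/
def flp {n : ℕ} (i : Fin n) (x : Fin n → Bool) : Fin n → Bool := Function.update x i (!x i)

/-- The Dirichlet form `E(q, logit q)`, normalised. -/
noncomputable def dirichlet {n : ℕ} (q : (Fin n → Bool) → ℝ) : ℝ :=
  av fun x => ∑ i, D1 (q x) (q (flp i x))

theorem av_cons {n : ℕ} (g : (Fin (n + 1) → Bool) → ℝ) :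
    av g = (av (fun y => g (Fin.cons true y)) + av (fun y => g (Fin.cons false y))) / 2 := by
  unfold av
  rw [← (Fin.consEquiv fun _ : Fin (n + 1) => Bool).sum_comp, Fintype.sum_prod_type,
    Fintype.sum_bool]
  simp only [Fin.consEquiv, Equiv.coe_fn_mk, Fintype.card_fun, Fintype.card_bool, Fintype.card_fin]
  push_cast
  rw [pow_succ]
  ring

theorem flp_zero {n : ℕ} (b : Bool) (y : Fin n → Bool) :
    flp 0 (Fin.cons b y : Fin (n + 1) → Bool) = Fin.cons (!b) y := by
  unfold flp; simp [Fin.update_cons_zero]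

theorem flp_succ {n : ℕ} (i : Fin n) (b : Bool) (y : Fin n → Bool) :
    flp i.succ (Fin.cons b y : Fin (n + 1) → Bool) = Fin.cons b (flp i y) := by
  unfold flp; simp [Fin.cons_update]

theorem dirichlet_cons {n : ℕ} (q : (Fin (n + 1) → Bool) → ℝ) :
    dirichlet q = (dirichlet (fun y => q (Fin.cons true y))
        + dirichlet (fun y => q (Fin.cons false y))) / 2
      + av (fun y => D1 (q (Fin.cons true y)) (q (Fin.cons false y))) := by
  unfold dirichlet
  rw [av_cons]
  simp only [Fin.sum_univ_succ, flp_zero, flp_succ, Bool.not_true, Bool.not_false, av_add]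
  rw [show av (fun y => D1 (q (Fin.cons false y)) (q (Fin.cons true y)))
      = av (fun y => D1 (q (Fin.cons true y)) (q (Fin.cons false y))) from
    av_congr fun y => D1_comm _ _]
  ring

theorem dirichlet_inequality : ∀ {n : ℕ} (q : (Fin n → Bool) → ℝ), (∀ x, q x ∈ Ioo (0:ℝ) 1) →
    FF (av q) (av fun x => binEntropy (q x)) ≤ dirichlet q
  | 0, q, hq => by
    have h0 : dirichlet q = 0 := by simp [dirichlet, av]
    have e : ∀ g : (Fin 0 → Bool) → ℝ, av g = g default := fun g => by
      unfold av; rw [Fintype.sum_subsingleton _ default]; simp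
    rw [h0, e, e]
    obtain ⟨a, b⟩ := hq default
    have hle := log_two_mul_pA_le (1 - 2 * q default) (abs_le.2 ⟨by linarith, by linarith⟩)
    rw [hr_eq_binEntropy] at hle
    rw [FF, EP_eq_zero (pA_pos (by linarith) (by linarith)) (by linarith)]
    simp
  | n + 1, q, hq => by
    rw [av_cons q, av_cons (fun x => binEntropy (q x)), dirichlet_cons]
    have h1 := dirichlet_inequality (fun y => q (Fin.cons true y)) fun y => hq _
    have h2 := dirichlet_inequality (fun y => q (Fin.cons false y)) fun y => hq _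
    have h3 := two_point (u := fun y => q (Fin.cons true y)) (v := fun y => q (Fin.cons false y))
      (fun y => hq _) (fun y => hq _)
    linarith

/-- One-coordinate transition weight with correlation `ρ`. -/
noncomputable def wK (ρ : ℝ) (a b : Bool) : ℝ := if a = b then (1 + ρ) / 2 else (1 - ρ) / 2

/-- Product transition weight. -/
noncomputable def KK {n : ℕ} (ρ : ℝ) (x y : Fin n → Bool) : ℝ := ∏ i, wK ρ (x i) (y i)

/-- Posterior probability that `f` is true, given the noisy observation. -/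
noncomputable def post {n : ℕ} (f : (Fin n → Bool) → Bool) (ρ : ℝ) (y : Fin n → Bool) : ℝ :=
  ∑ x, KK ρ x y * (if f x = true then 1 else 0)

theorem wK_nonneg {ρ : ℝ} (h0 : -1 ≤ ρ) (h1 : ρ ≤ 1) (a b : Bool) : 0 ≤ wK ρ a b := by
  unfold wK; split_ifs <;> linarith

theorem wK_pos {ρ : ℝ} (h0 : -1 < ρ) (h1 : ρ < 1) (a b : Bool) : 0 < wK ρ a b := by
  unfold wK; split_ifs <;> linarith

theorem KK_sum_left {n : ℕ} (ρ : ℝ) (y : Fin n → Bool) : ∑ x, KK ρ x y = 1 := by
  unfold KK
  rw [← Fintype.prod_sum (fun i b => wK ρ b (y i))]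
  refine Finset.prod_eq_one fun i _ => ?_
  cases y i <;> simp [wK] <;> ring

theorem KK_symm {n : ℕ} (ρ : ℝ) (x y : Fin n → Bool) : KK ρ x y = KK ρ y x := by
  unfold KK
  refine Finset.prod_congr rfl fun i _ => ?_
  unfold wK
  simp only [eq_comm]

theorem KK_sum_right {n : ℕ} (ρ : ℝ) (x : Fin n → Bool) : ∑ y, KK ρ x y = 1 := by
  rw [← KK_sum_left ρ x]; exact Finset.sum_congr rfl fun y _ => KK_symm ρ x y

theorem av_post {n : ℕ} (f : (Fin n → Bool) → Bool) (ρ : ℝ) :
    av (post f ρ) = av fun x => (if f x = true then (1:ℝ) else 0) := by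
  unfold av post
  rw [Finset.sum_comm]
  congr 1
  refine Finset.sum_congr rfl fun x _ => ?_
  rw [← Finset.sum_mul, KK_sum_right, one_mul]

theorem post_one_sub {n : ℕ} (f : (Fin n → Bool) → Bool) (ρ : ℝ) (y : Fin n → Bool) :
    1 - post f ρ y = post (fun x => !f x) ρ y := by
  rw [sub_eq_iff_eq_add, post, post, ← Finset.sum_add_distrib]
  conv_lhs => rw [← KK_sum_left ρ y]
  refine Finset.sum_congr rfl fun x _ => ?_
  cases f x <;> simp

theorem post_mem_Icc {n : ℕ} (f : (Fin n → Bool) → Bool) {ρ : ℝ} (h0 : -1 ≤ ρ) (h1 : ρ ≤ 1)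
    (y : Fin n → Bool) : post f ρ y ∈ Icc (0:ℝ) 1 := by
  have hn : ∀ g : (Fin n → Bool) → Bool, 0 ≤ post g ρ y := fun g =>
    Finset.sum_nonneg fun x _ => mul_nonneg (Finset.prod_nonneg fun i _ => wK_nonneg h0 h1 _ _)
      (by split_ifs <;> norm_num)
  exact ⟨hn f, by linarith [hn (fun x => !f x), post_one_sub f ρ y]⟩

theorem post_mem_Ioo {n : ℕ} (f : (Fin n → Bool) → Bool) {ρ : ℝ} (h0 : -1 < ρ) (h1 : ρ < 1)
    (ht : ∃ x, f x = true) (hf : ∃ x, f x = false) (y : Fin n → Bool) :
    post f ρ y ∈ Ioo (0:ℝ) 1 := by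
  have hpos : ∀ g : (Fin n → Bool) → Bool, (∃ x, g x = true) → 0 < post g ρ y := by
    rintro g ⟨x, hx⟩
    refine Finset.sum_pos' (fun z _ => mul_nonneg
      (Finset.prod_nonneg fun i _ => (wK_pos h0 h1 _ _).le) (by split_ifs <;> norm_num))
      ⟨x, Finset.mem_univ _, mul_pos (Finset.prod_pos fun i _ => wK_pos h0 h1 _ _) (by simp [hx])⟩
  obtain ⟨x, hx⟩ := hf
  exact ⟨hpos f ht, by linarith [hpos (fun z => !f z) ⟨x, by simp [hx]⟩, post_one_sub f ρ y]⟩

theorem hasDerivAt_wK (ρ : ℝ) (a b : Bool) :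
    HasDerivAt (fun r => wK r a b) (if a = b then 1 / 2 else -1 / 2) ρ := by
  unfold wK
  split_ifs
  · exact ((hasDerivAt_id ρ).const_add 1).div_const 2
  · exact ((hasDerivAt_id ρ).const_sub 1).div_const 2

theorem flp_flp {n : ℕ} (i : Fin n) (x : Fin n → Bool) : flp i (flp i x) = x := by
  unfold flp; simp

theorem hasDerivAt_post {n : ℕ} (f : (Fin n → Bool) → Bool) {ρ : ℝ} (hρ : ρ ≠ 0)
    (y : Fin n → Bool) :
    HasDerivAt (fun r => post f r y)
      ((∑ i, (post f ρ y - post f ρ (flp i y))) / (2 * ρ)) ρ := by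
  have h : HasDerivAt (fun r => post f r y)
      (∑ x, (∑ i, (∏ j ∈ Finset.univ.erase i, wK ρ (x j) (y j)) *
        (if x i = y i then 1 / 2 else -1 / 2)) * (if f x = true then (1:ℝ) else 0)) ρ := by
    unfold post KK
    refine HasDerivAt.fun_sum fun x _ => HasDerivAt.mul_const ?_ _
    have := HasDerivAt.fun_finsetProd (u := Finset.univ) (f := fun i r => wK r (x i) (y i))
      (fun i _ => hasDerivAt_wK ρ (x i) (y i))
    simpa [smul_eq_mul] using this
  refine h.congr_deriv ?_
  rw [eq_div_iff (mul_ne_zero two_ne_zero hρ)]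
  simp only [post, ← Finset.sum_sub_distrib]
  rw [Finset.sum_comm (γ := Fin n), Finset.sum_mul]
  refine Finset.sum_congr rfl fun x _ => ?_
  rw [mul_right_comm]
  simp only [← sub_mul]
  conv_rhs => rw [← Finset.sum_mul]
  congr 1
  rw [Finset.sum_mul]
  refine Finset.sum_congr rfl fun i _ => ?_
  have e1 : KK ρ x y = (∏ j ∈ Finset.univ.erase i, wK ρ (x j) (y j)) * wK ρ (x i) (y i) :=
    (Finset.prod_erase_mul Finset.univ (fun j => wK ρ (x j) (y j)) (Finset.mem_univ i)).symm
  have e2 : KK ρ x (flp i y)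
      = (∏ j ∈ Finset.univ.erase i, wK ρ (x j) (y j)) * wK ρ (x i) (!y i) := by
    rw [KK, ← Finset.prod_erase_mul (M := ℝ) Finset.univ _ (Finset.mem_univ i)]
    congr 1
    · refine Finset.prod_congr rfl fun j hj => ?_
      rw [flp, Function.update_of_ne (Finset.ne_of_mem_erase hj)]
    · simp [flp]
  rw [e1, e2]
  cases x i <;> cases y i <;> simp [wK] <;> ring

theorem hasDerivAt_avEntropy {n : ℕ} (f : (Fin n → Bool) → Bool) {ρ : ℝ} (h0 : 0 < ρ) (h1 : ρ < 1)
    (ht : ∃ x, f x = true) (hf : ∃ x, f x = false) :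
    HasDerivAt (fun r => av fun y => binEntropy (post f r y))
      (- dirichlet (post f ρ) / ρ) ρ := by
  have hq := fun y => post_mem_Ioo f (by linarith) h1 ht hf y
  have hy : ∀ y, HasDerivAt (fun r => binEntropy (post f r y))
      (lgo (post f ρ y) * ((∑ i, (post f ρ y - post f ρ (flp i y))) / (2 * ρ))) ρ := fun y =>
    HasDerivAt.comp (h₂ := binEntropy) ρ (hasDerivAt_binEntropy (hq y).1.ne' (hq y).2.ne)
      (hasDerivAt_post f h0.ne' y)
  refine ((HasDerivAt.fun_sum (u := Finset.univ) fun y _ => hy y).div_const _).congr_deriv ?_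
  set q := post f ρ with hqdef
  unfold dirichlet av
  have hs : ∀ i, ∑ y, lgo (q y) * (q y - q (flp i y)) = -2 * ∑ y, D1 (q y) (q (flp i y)) := by
    intro i
    have e : ∑ y, lgo (q (flp i y)) * (q (flp i y) - q y)
        = ∑ y, lgo (q y) * (q y - q (flp i y)) := by
      refine Fintype.sum_equiv (Function.Involutive.toPerm (flp i) (flp_flp i)) _ _ fun y => ?_
      change lgo (q (flp i y)) * (q (flp i y) - q y)
        = lgo (q (flp i y)) * (q (flp i y) - q (flp i (flp i y)))
      rw [flp_flp]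
    have e2 : ∀ y, lgo (q y) * (q y - q (flp i y))
        + lgo (q (flp i y)) * (q (flp i y) - q y) = -4 * D1 (q y) (q (flp i y)) := fun y => by
      unfold D1; ring
    have e3 := Finset.sum_congr (rfl : (Finset.univ : Finset (Fin n → Bool)) = _) fun y _ => e2 y
    rw [Finset.sum_add_distrib, e, ← Finset.mul_sum] at e3
    linarith
  have e : ∑ y, lgo (q y) * ((∑ i, (q y - q (flp i y))) / (2 * ρ))
      = - (∑ y, ∑ i, D1 (q y) (q (flp i y))) / ρ := by
    simp only [mul_div_assoc', ← Finset.sum_div, Finset.mul_sum]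
    rw [Finset.sum_comm, Finset.sum_congr rfl fun i _ => hs i, ← Finset.mul_sum,
      Finset.sum_comm (γ := Fin n)]
    field_simp
  rw [e]; ring

end Vale.Agent.P322
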