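import Mathlib

/-!
Basic real functions for the proof of the Courtade-Kumar conjecture (P322).
All entropies are in nats.
-/

namespace Vale.Agent.P322

open Real

noncomputable section

/-- Inverse hyperbolic tangent, written with two logarithms. -/
def Ar (r : ℝ) : ℝ := (log (1 + r) - log (1 - r)) / 2

/-- Binary entropy of the distribution with bias `r`. -/
def hr (r : ℝ) : ℝ := binEntropy ((1 - r) / 2)

/-- Entropy deficit of the distribution with bias `r`. -/
def phiR (r : ℝ) : ℝ := log 2 - hr r

/-- The excess of the dictator Dirichlet form over the linear bound. -/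
def Gr (r : ℝ) : ℝ := r * Ar r - 2 * phiR r

/-- Slope parameter: `Gr' = betaR * Ar`. -/
def betaR (r : ℝ) : ℝ := if r = 0 then 0 else r / ((1 - r ^ 2) * Ar r) - 1

/-- Legendre companion of `betaR`. -/
def PiR (r : ℝ) : ℝ := Gr r + betaR r * hr r

/-- The perspective excess function. -/
def EP (p H : ℝ) : ℝ := sSup ((fun s => PiR s * p - betaR s * H) '' Set.Ico 0 1)

/-- The constant `1 - 1/(2 log 2)`. -/
def gam : ℝ := 1 - 1 / (2 * log 2)

/-- The constant `(4/3) (log 2)^2`. -/
def kap : ℝ := 4 / 3 * log 2 ^ 2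

/-- The weight attached to a mean of bias `a`. -/
def pA (a : ℝ) : ℝ := (1 - a ^ 2) * (1 + gam * a ^ 2)

/-- Log-odds. -/
def lgo (q : ℝ) : ℝ := log (1 - q) - log q

/-- The one-edge Dirichlet term. -/
def D1 (q₀ q₁ : ℝ) : ℝ := (q₁ - q₀) * (lgo q₀ - lgo q₁) / 4

/-- The lower-bound functional, in terms of mean and mean entropy. -/
def FF (Q H : ℝ) : ℝ := 2 * (binEntropy Q - H) + EP (pA (1 - 2 * Q)) H

end

end Vale.Agent.P322
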