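import Vale.Agent.P322.Plane

/-!
The stationary curve and the supporting plane theorem.
-/

namespace Vale.Agent.P322

open Real Set

/-- `log Q` along the stationary curve, as a function of `y = exp (-2σ)`. -/
noncomputable def Lf (ε y : ℝ) : ℝ := y * (2 * ε - log y) / (1 - y)

/-- `cosh ζ` along the stationary curve. -/
noncomputable def cf (ε y : ℝ) : ℝ := (exp (Lf ε y) - 1 - y) / (2 * sqrt y)

/-- `σ` along the stationary curve. -/
noncomputable def sf (y : ℝ) : ℝ := - log y / 2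

theorem exp_neg_sf {y : ℝ} (hy : 0 < y) : exp (-sf y) = sqrt y := by
  rw [sf, sqrt_eq_rpow, rpow_def_of_pos hy]; congr 1; ring

theorem exp_two_sf {y : ℝ} (hy : 0 < y) : exp (2 * sf y) = y⁻¹ := by
  rw [sf, show 2 * (-log y / 2) = - log y by ring, exp_neg, exp_log hy]

theorem sf_pos {y : ℝ} (hy : 0 < y) (hy1 : y < 1) : 0 < sf y := by
  have := log_neg hy hy1; unfold sf; linarith

theorem MM_sf (ε : ℝ) {y : ℝ} (hy : 0 < y) (hy1 : y < 1) {ζ : ℝ} (hc : cosh ζ = cf ε y) :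
    MM (sf y) ζ = ε ∧ LQ (sf y) ζ = Lf ε y := by
  have hLQ : LQ (sf y) ζ = Lf ε y := by
    rw [LQ_eq, exp_neg_sf hy, hc, cf, sq_sqrt hy.le]
    have : sqrt y ≠ 0 := (sqrt_pos.2 hy).ne'
    rw [show 1 + 2 * ((exp (Lf ε y) - 1 - y) / (2 * sqrt y)) * sqrt y + y = exp (Lf ε y) by
      field_simp; ring, log_exp]
  refine ⟨?_, hLQ⟩
  rw [MM_eq, hLQ, exp_two_sf hy, Lf, sf]
  have : 1 - y ≠ 0 := by linarith
  field_simp
  ring

theorem cf_gt_one_iff (ε : ℝ) {y : ℝ} (hy : 0 < y) (hy1 : y < 1) :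
    1 < cf ε y ↔ MM (sf y) 0 < ε := by
  have hs : 0 < sqrt y := sqrt_pos.2 hy
  have hsq : sqrt y ^ 2 = y := sq_sqrt hy.le
  have h1 : 1 < cf ε y ↔ (1 + sqrt y) ^ 2 < exp (Lf ε y) := by
    rw [cf, lt_div_iff₀ (by positivity)]
    constructor <;> intro h <;> nlinarith
  rw [h1, ← log_lt_iff_lt_exp (by positivity)]
  have hLQ0 : LQ (sf y) 0 = log ((1 + sqrt y) ^ 2) := by
    rw [LQ_eq, exp_neg_sf hy, cosh_zero]; congr 1; ring
  have hk : ((y⁻¹ - 1) / 2) * Lf ε y - sf y = ε := by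
    rw [Lf, sf]
    have : 1 - y ≠ 0 := by linarith
    field_simp
    ring
  have hpos : 0 < (y⁻¹ - 1) / 2 := by
    have : 1 < y⁻¹ := (one_lt_inv₀ hy).2 hy1
    linarith
  rw [MM_eq, exp_two_sf hy, hLQ0]
  constructor <;> intro h <;> nlinarith

theorem cf_upward (ε : ℝ) {a b : ℝ} (ha : 0 < a) (hb : b < 1) (hab : a ≤ b)
    (h : 1 < cf ε a) : 1 < cf ε b := by
  have hb0 : 0 < b := ha.trans_le hab
  rw [cf_gt_one_iff ε hb0 hb]
  rw [cf_gt_one_iff ε ha (hab.trans_lt hb)] at h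
  have hs : sf b ≤ sf a := by
    have := log_le_log ha hab; unfold sf; linarith
  have := (MM_strictMono 0).monotoneOn (mem_Ici.2 (sf_pos hb0 hb).le)
    (mem_Ici.2 (sf_pos ha (hab.trans_lt hb)).le) hs
  linarith

theorem hasDerivAt_exp_Lf (ε : ℝ) {y : ℝ} (hy : 0 < y) (hy1 : y < 1) :
    HasDerivAt (fun y => exp (Lf ε y))
      (exp (Lf ε y) * ((Lf ε y - y) / (y * (1 - y)))) y := by
  have h1 : 1 - y ≠ 0 := by linarith
  have h := (((hasDerivAt_id y).mul ((hasDerivAt_log hy.ne').const_sub (2 * ε))).div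
    ((hasDerivAt_id y).const_sub 1) h1).exp
  refine h.congr_deriv ?_
  simp only [id, Pi.mul_apply, Pi.div_apply]
  unfold Lf
  field_simp
  ring

theorem hasDerivAt_cf (ε : ℝ) {y : ℝ} (hy : 0 < y) (hy1 : y < 1) :
    HasDerivAt (cf ε)
      (exp (Lf ε y) / (2 * y * sqrt y * (1 - y))
        * (Lf ε y - y - (1 - y) * (exp (Lf ε y) - 1 + y) / (2 * exp (Lf ε y)))) y := by
  have h1 : 1 - y ≠ 0 := by linarith
  have hs : sqrt y ≠ 0 := (sqrt_pos.2 hy).ne'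
  have h := (((hasDerivAt_exp_Lf ε hy hy1).sub_const 1).sub (hasDerivAt_id y)).div
    (((hasDerivAt_sqrt hy.ne')).const_mul 2) (mul_ne_zero two_ne_zero hs)
  refine h.congr_deriv ?_
  simp only [id, Pi.sub_apply]
  have hexp := exp_pos (Lf ε y)
  have hsq : sqrt y ^ 2 = y := sq_sqrt hy.le
  generalize hS : sqrt y = S at *
  generalize Lf ε y = L at *
  generalize exp L = X at *
  subst hsq
  field_simp
  ring

theorem cf_deriv_pos (ε : ℝ) {y : ℝ} (hy : 0 < y) (hy1 : y < 1) (hc : 1 < cf ε y) :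
    0 < exp (Lf ε y) / (2 * y * sqrt y * (1 - y))
        * (Lf ε y - y - (1 - y) * (exp (Lf ε y) - 1 + y) / (2 * exp (Lf ε y))) := by
  have hs : 0 < sqrt y := sqrt_pos.2 hy
  have hsq : sqrt y ^ 2 = y := sq_sqrt hy.le
  rw [cf, lt_div_iff₀ (by positivity)] at hc
  have h1 : 0 < 1 - y := by linarith
  refine mul_pos (by positivity) ?_
  have h := gpos (Q := exp (Lf ε y)) hs (by nlinarith) (by nlinarith)
  rw [hsq, log_exp] at h
  exact h

/-- `UU` along the curve, as a function of `y`. -/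
noncomputable def Uy (ε y : ℝ) : ℝ :=
  2 * (exp (Lf ε y) * Lf ε y) / ((exp (Lf ε y) - 1 - y) ^ 2 - 4 * y)

theorem UU_sf (ε : ℝ) {y : ℝ} (hy : 0 < y) (hy1 : y < 1) {ζ : ℝ} (hz : 0 < ζ)
    (hc : cosh ζ = cf ε y) : UU (sf y) ζ = Uy ε y := by
  obtain ⟨-, hL⟩ := MM_sf ε hy hy1 hc
  have hs : 0 < sqrt y := sqrt_pos.2 hy
  have hsq : sqrt y ^ 2 = y := sq_sqrt hy.le
  have hsz : 0 < sinh ζ := sinh_pos_iff.2 hz
  have hc2 := two_cc_eq (sf y) ζ
  have he : exp (sf y) = (sqrt y)⁻¹ := by rw [← exp_neg_sf hy, ← exp_neg, neg_neg]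
  rw [exp_neg_sf hy, he, hc] at hc2
  have hE : exp (Lf ε y) = 1 + 2 * cf ε y * sqrt y + y := by
    rw [cf]; field_simp; ring
  have hcc : cc (sf y) ζ = (sqrt y)⁻¹ * (1 + 2 * cf ε y * sqrt y + y) / 2 := by
    rw [← hsq] at hc2 ⊢
    rw [sqrt_sq hs.le] at hc2 ⊢
    linarith
  rw [UU, Uy, hL, hcc, he, sinh_sq, hc]
  rw [hE]
  have hpos : 0 < cf ε y ^ 2 - 1 := by rw [← hc, ← sinh_sq]; positivity
  rw [show (1 + 2 * cf ε y * sqrt y + y - 1 - y) ^ 2 - 4 * y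
      = 4 * y * (cf ε y ^ 2 - 1) by linear_combination (4 * cf ε y ^ 2) * hsq]
  generalize hS : sqrt y = S at *
  subst hsq
  field_simp
  ring

theorem Uy_antitone (ε : ℝ) {a b : ℝ} (ha : 0 < a) (hb : b < 1) (hc : 1 < cf ε a) :
    AntitoneOn (Uy ε) (Icc a b) := by
  have hd : ∀ y ∈ Icc a b, 0 < y ∧ y < 1 ∧ (1 + sqrt y) ^ 2 < exp (Lf ε y) ∧
      0 < (exp (Lf ε y) - 1 - y) ^ 2 - 4 * y := by
    intro y hy
    have hy0 := ha.trans_le hy.1
    have hy1 := hy.2.trans_lt hb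
    have h := cf_upward ε ha hy1 hy.1 hc
    have hs := sqrt_pos.2 hy0
    have hsq : sqrt y ^ 2 = y := sq_sqrt hy0.le
    rw [cf, lt_div_iff₀ (by positivity)] at h
    refine ⟨hy0, hy1, by nlinarith, ?_⟩
    nlinarith [mul_pos hs (sub_pos.2 h)]
  have hder : ∀ y ∈ Icc a b, ∃ D, HasDerivAt (Uy ε) D y ∧ D ≤ 0 := by
    intro y hy
    obtain ⟨hy0, hy1, hQ, hN⟩ := hd y hy
    have h1 : 1 - y ≠ 0 := by linarith
    have hs := sqrt_pos.2 hy0
    have hsq : sqrt y ^ 2 = y := sq_sqrt hy0.le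
    have hL : HasDerivAt (Lf ε) ((Lf ε y - y) / (y * (1 - y))) y := by
      refine (((hasDerivAt_id y).mul ((hasDerivAt_log hy0.ne').const_sub (2 * ε))).div
        ((hasDerivAt_id y).const_sub 1) h1).congr_deriv ?_
      simp only [id, Pi.mul_apply]
      unfold Lf
      field_simp
      ring
    have hX := hasDerivAt_exp_Lf ε hy0 hy1
    refine ⟨_, (((hX.mul hL).const_mul 2).div
      ((((hX.sub_const 1).sub (hasDerivAt_id y)).pow 2).sub ((hasDerivAt_id y).const_mul 4))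
      hN.ne'), ?_⟩
    have hk := key hs (by nlinarith) hQ
    rw [log_exp, hsq] at hk
    simp only [id, Pi.sub_apply, Pi.mul_apply, Pi.pow_apply]
    refine div_nonpos_of_nonpos_of_nonneg ?_ (sq_nonneg _)
    generalize Lf ε y = L at *
    have hXp := exp_pos L
    generalize exp L = X at *
    have hpos : 0 < y * (1 - y) := mul_pos hy0 (by linarith)
    push_cast
    have key' : (2 * (X * ((L - y) / (y * (1 - y))) * L + X * ((L - y) / (y * (1 - y)))))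
        * ((X - 1 - y) ^ 2 - 4 * y)
        - 2 * (X * L) * (2 * (X - 1 - y) ^ (2 - 1) * (X * ((L - y) / (y * (1 - y))) - 1) - 4 * 1)
        = - (2 * X / (y * (1 - y))) * ((L - y) * (L * (X ^ 2 - (1 - y) ^ 2)
            - ((X - 1 - y) ^ 2 - 4 * y)) - 2 * L * y * (1 - y) * (X + 1 - y)) := by
      field_simp
      ring
    rw [key']
    have : 0 < 2 * X / (y * (1 - y)) := by positivity
    nlinarith
  refine antitoneOn_of_deriv_nonpos (convex_Icc a b) ?_ ?_ ?_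
  · intro y hy
    obtain ⟨D, hD, -⟩ := hder y hy
    exact hD.continuousAt.continuousWithinAt
  · intro y hy
    obtain ⟨D, hD, -⟩ := hder y (interior_subset hy)
    exact hD.differentiableAt.differentiableWithinAt
  · intro y hy
    obtain ⟨D, hD, hD0⟩ := hder y (interior_subset hy)
    rw [hD.deriv]; exact hD0

theorem curve_pos {ε ν y y₀ : ℝ} (hν : ν * Uy ε y₀ = 1) (hν0 : 0 ≤ ν)
    (hy : 0 < y) (hy1 : y < 1) (hc : 1 < cf ε y)
    (hy₀ : 0 < y₀) (hy₀1 : y₀ < 1) (hc₀ : 1 < cf ε y₀) :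
    arcosh (cf ε y₀) + ν * (NN (sf y₀) (arcosh (cf ε y₀)) + ε * VV (sf y₀) (arcosh (cf ε y₀)))
      ≤ arcosh (cf ε y) + ν * (NN (sf y) (arcosh (cf ε y)) + ε * VV (sf y) (arcosh (cf ε y))) := by
  set a := min y y₀ with ha
  set b := max y y₀ with hb
  have ha0 : 0 < a := lt_min hy hy₀
  have hb1 : b < 1 := max_lt hy1 hy₀1
  have hca : 1 < cf ε a := by rcases min_choice y y₀ with h | h <;> rw [ha, h] <;> assumption
  have hU := Uy_antitone ε ha0 hb1 hca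
  set τ := fun y => arcosh (cf ε y)
    + ν * (NN (sf y) (arcosh (cf ε y)) + ε * VV (sf y) (arcosh (cf ε y))) with hτ
  have hd : ∀ x ∈ Icc a b, ∃ C : ℝ, 0 < C ∧ HasDerivAt τ (C * (1 - ν * Uy ε x)) x := by
    intro x hx
    have hx0 := ha0.trans_le hx.1
    have hx1 := hx.2.trans_lt hb1
    have hcx := cf_upward ε ha0 hx1 hx.1 hca
    have hsf : HasDerivAt sf (-(x⁻¹) / 2) x := ((hasDerivAt_log hx0.ne').neg).div_const 2
    have hz := (hasDerivAt_arcosh (mem_Ioi.2 hcx)).comp x (hasDerivAt_cf ε hx0 hx1)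
    have hzp := arcosh_pos hcx
    have hch := cosh_arcosh hcx.le
    obtain ⟨hM, -⟩ := MM_sf ε hx0 hx1 hch
    have hUU := UU_sf ε hx0 hx1 hzp hch
    have hN := hasDerivAt_NN_VV hsf hz hzp ε
    simp only [Function.comp_apply] at hN
    refine ⟨(√(cf ε x ^ 2 - 1))⁻¹ * _, mul_pos ?_ (cf_deriv_pos ε hx0 hx1 hcx),
      (hz.add (hN.const_mul ν)).congr_deriv ?_⟩
    · have : 0 < cf ε x ^ 2 - 1 := by nlinarith
      positivity
    · rw [stationary_eq hzp hM, hM, hUU]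
      ring
  change τ y₀ ≤ τ y
  rcases le_total y y₀ with h | h
  · have hab : a = y ∧ b = y₀ := ⟨min_eq_left h, max_eq_right h⟩
    refine antitoneOn_of_deriv_nonpos (f := τ) (convex_Icc a b) ?_ ?_ ?_
      ⟨hab.1.le, by rw [hab.2]; exact h⟩ ⟨by rw [hab.1]; exact h, hab.2.ge⟩ h
    · intro x hx; obtain ⟨C, -, hC⟩ := hd x hx; exact hC.continuousAt.continuousWithinAt
    · intro x hx; obtain ⟨C, -, hC⟩ := hd x (interior_subset hx)
      exact hC.differentiableAt.differentiableWithinAt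
    · intro x hx
      obtain ⟨C, hC0, hC⟩ := hd x (interior_subset hx)
      rw [hC.deriv]
      have hx' : x ≤ y₀ := by rw [← hab.2]; exact (interior_subset hx).2
      have := hU (interior_subset hx) ⟨by rw [hab.1]; exact h, hab.2.ge⟩ hx'
      nlinarith [mul_le_mul_of_nonneg_left this hν0]
  · have hab : a = y₀ ∧ b = y := ⟨min_eq_right h, max_eq_left h⟩
    refine monotoneOn_of_deriv_nonneg (f := τ) (convex_Icc a b) ?_ ?_ ?_
      ⟨hab.1.le, by rw [hab.2]; exact h⟩ ⟨by rw [hab.1]; exact h, hab.2.ge⟩ h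
    · intro x hx; obtain ⟨C, -, hC⟩ := hd x hx; exact hC.continuousAt.continuousWithinAt
    · intro x hx; obtain ⟨C, -, hC⟩ := hd x (interior_subset hx)
      exact hC.differentiableAt.differentiableWithinAt
    · intro x hx
      obtain ⟨C, hC0, hC⟩ := hd x (interior_subset hx)
      rw [hC.deriv]
      have hx' : y₀ ≤ x := by rw [← hab.1]; exact (interior_subset hx).1
      have := hU ⟨hab.1.le, by rw [hab.2]; exact h⟩ (interior_subset hx) hx'
      nlinarith [mul_le_mul_of_nonneg_left this hν0]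

/-- Global minimum in log-odds coordinates. -/
theorem core_min {σ₀ ζ₀ σ ζ : ℝ} (hσ₀ : 0 ≤ σ₀) (hz₀ : 0 < ζ₀) (hz : 0 < ζ) :
    ζ₀ + (UU σ₀ ζ₀)⁻¹ * (NN σ₀ ζ₀ + MM σ₀ ζ₀ * VV σ₀ ζ₀)
      ≤ ζ + (UU σ₀ ζ₀)⁻¹ * (NN σ ζ + MM σ₀ ζ₀ * VV σ ζ) := by
  set ε := MM σ₀ ζ₀ with hεdef
  set ν := (UU σ₀ ζ₀)⁻¹ with hνdef
  have hU := UU_pos (σ := σ₀) hz₀
  have hν0 : 0 ≤ ν := (inv_pos.2 hU).le
  have hε : 0 ≤ ε := MM_nonneg _ hσ₀
  obtain ⟨s, hs, hM⟩ := exists_MM hε ζ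
  have h1 := sigma_min hν0 hε hz hs hM σ
  refine le_trans ?_ (show ζ + ν * (NN s ζ + ε * VV s ζ) ≤ _ by linarith)
  rcases hσ₀.eq_or_lt with h | h
  · subst h
    have hε0 : ε = 0 := MM_zero _
    have hs0 : s = 0 := by
      refine (MM_strictMono ζ).injOn (mem_Ici.2 hs) (mem_Ici.2 le_rfl) ?_
      simp only [hM, hε0, MM_zero]
    subst hs0
    have := curve_zero (ν := ν) (inv_mul_cancel₀ hU.ne') hz₀ hz
    simp only [hε0, zero_mul, add_zero]
    exact this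
  · have hεpos : 0 < ε := by
      simpa using MM_strictMono ζ₀ (mem_Ici.2 le_rfl) (mem_Ici.2 h.le) h
    have hspos : 0 < s := hs.lt_of_ne (by rintro rfl; rw [MM_zero] at hM; linarith)
    have mk : ∀ {s ζ : ℝ}, 0 < s → 0 < ζ → MM s ζ = ε →
        0 < exp (-(2*s)) ∧ exp (-(2*s)) < 1 ∧ sf (exp (-(2*s))) = s ∧
          cosh ζ = cf ε (exp (-(2*s))) := by
      intro s ζ hs hz hM
      refine ⟨exp_pos _, exp_lt_one_iff.2 (by linarith), by rw [sf, log_exp]; ring, ?_⟩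
      have hy : exp (-(2*s)) = exp (-s) ^ 2 := by rw [← exp_nat_mul]; congr 1; push_cast; ring
      have hv1 : exp (-s) < 1 := exp_lt_one_iff.2 (by linarith)
      have hne : (1:ℝ) - exp (-s) ^ 2 ≠ 0 := by nlinarith [exp_pos (-s)]
      have hLf : Lf ε (exp (-(2*s))) = LQ s ζ := by
        rw [Lf, log_exp, ← hM, MM_eq, hy, show exp (2*s) = (exp (-s) ^ 2)⁻¹ by
          rw [← hy, ← exp_neg, neg_neg]]
        have := exp_pos (-s)
        field_simp
        ring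
      rw [cf, hLf, LQ_eq, exp_log (by have := cosh_pos ζ; positivity), hy, sqrt_sq (exp_pos _).le]
      have := exp_pos (-s)
      field_simp
      ring
    obtain ⟨a0, a1, a2, a3⟩ := mk h hz₀ hεdef.symm
    obtain ⟨b0, b1, b2, b3⟩ := mk hspos hz hM
    have hca : 1 < cf ε (exp (-(2*σ₀))) := a3 ▸ one_lt_cosh.2 hz₀.ne'
    have hcb : 1 < cf ε (exp (-(2*s))) := b3 ▸ one_lt_cosh.2 hz.ne'
    have hνU : ν * Uy ε (exp (-(2*σ₀))) = 1 := by
      rw [← UU_sf ε a0 a1 hz₀ a3, a2]; exact inv_mul_cancel₀ hU.ne'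
    have := curve_pos hνU hν0 b0 b1 hcb a0 a1 hca
    rw [← a3, ← b3, a2, b2, arcosh_cosh hz₀.le, arcosh_cosh hz.le] at this
    exact this

/-- The supporting plane. -/
theorem plane {q₀ q₁ : ℝ} (h0 : 0 < q₀) (h01 : q₀ < q₁) (hsum : q₀ + q₁ ≤ 1) :
    ∃ θ ν κ : ℝ, 0 ≤ θ ∧ 0 ≤ ν ∧ 0 ≤ κ ∧ (q₀ + q₁ = 1 → κ = 0) ∧
      D1 q₀ q₁ + ν * ((binEntropy q₀ + binEntropy q₁) / 2) + κ * ((q₀ + q₁) / 2)
        = θ * (q₁ - q₀) ∧
      ∀ u v : ℝ, 0 < u → u < 1 → 0 < v → v < 1 →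
        θ * (v - u) ≤ D1 u v + ν * ((binEntropy u + binEntropy v) / 2) + κ * ((u + v) / 2) := by
  have h1 : q₁ < 1 := by linarith
  obtain ⟨hz₀, hD, hH, hM⟩ := pair_coords h0 h1 h01
  set σ₀ := (lgo q₀ + lgo q₁) / 2 with hσdef
  set ζ₀ := (lgo q₀ - lgo q₁) / 2
  have hσ₀ : 0 ≤ σ₀ := by
    have : log q₀ + log q₁ ≤ log (1 - q₀) + log (1 - q₁) := by
      rw [← log_mul h0.ne' (by linarith), ← log_mul (by linarith) (by linarith)]
      exact log_le_log (mul_pos h0 (by linarith)) (by nlinarith)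
    simp only [hσdef, lgo]; linarith
  set ν := (UU σ₀ ζ₀)⁻¹
  set ε := MM σ₀ ζ₀
  set T₀ := ζ₀ + ν * (NN σ₀ ζ₀ + ε * VV σ₀ ζ₀) with hT₀
  have hν : 0 ≤ ν := (inv_pos.2 (UU_pos hz₀)).le
  have hε : 0 ≤ ε := MM_nonneg _ hσ₀
  have hNp : 0 ≤ NN σ₀ ζ₀ := by
    have := binEntropy_nonneg h0.le (by linarith : q₀ ≤ 1)
    have := binEntropy_nonneg (by linarith : 0 ≤ q₁) h1.le
    by_contra hc; nlinarith [mul_neg_of_pos_of_neg (sub_pos.2 h01) (not_le.1 hc)]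
  have hVp : 0 ≤ VV σ₀ ζ₀ :=
    div_nonneg (add_pos (exp_pos _) (cosh_pos _)).le (sinh_pos_iff.2 hz₀).le
  have hT : 0 ≤ T₀ :=
    add_nonneg hz₀.le (mul_nonneg hν (add_nonneg hNp (mul_nonneg hε hVp)))
  refine ⟨T₀ / 2, ν, ν * ε, by linarith, hν, mul_nonneg hν hε, ?_, ?_, ?_⟩
  · intro he
    have : σ₀ = 0 := by
      simp only [hσdef, lgo]
      rw [show 1 - q₀ = q₁ by linarith, show 1 - q₁ = q₀ by linarith]; ring
    simp only [ε, this, MM_zero, mul_zero]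
  · rw [hD, hH, hM, hT₀]; ring
  · intro u v hu0 hu1 hv0 hv1
    have hb := binEntropy_nonneg hu0.le hu1.le
    have hb' := binEntropy_nonneg hv0.le hv1.le
    rcases le_or_gt v u with h | h
    · have h2 := D1_nonneg hu0 hu1 hv0 hv1
      have h3 : T₀ / 2 * (v - u) ≤ 0 := mul_nonpos_of_nonneg_of_nonpos (by linarith) (by linarith)
      have h4 := mul_nonneg hν (by linarith : 0 ≤ (binEntropy u + binEntropy v) / 2)
      have h5 := mul_nonneg (mul_nonneg hν hε) (by linarith : 0 ≤ (u + v) / 2)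
      linarith
    · obtain ⟨hz, eD, eH, eM⟩ := pair_coords hu0 hv1 h
      have := core_min (σ := (lgo u + lgo v) / 2) hσ₀ hz₀ hz
      rw [eD, eH, eM]
      nlinarith [mul_le_mul_of_nonneg_left this (by linarith : 0 ≤ v - u)]

end Vale.Agent.P322
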