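import Vale.Agent.P322.Basics

/-!
The inverse of `hr`, continuity of `PiR`, and differentiability of `EP` in its first argument.
-/

namespace Vale.Agent.P322

open Real Set Filter Topology

/-- Inverse of `hr` on `(0, log 2]`, extended by `0` above `log 2`. -/
noncomputable def rinv (k : ℝ) : ℝ := sInf {r | 0 ≤ r ∧ hr r ≤ k}

theorem rinv_eq {r : ℝ} (h0 : 0 ≤ r) (h1 : r ≤ 1) : rinv (hr r) = r := by
  refine le_antisymm (csInf_le ⟨0, fun x hx => hx.1⟩ ⟨h0, le_rfl⟩) ?_
  refine le_csInf ⟨r, h0, le_rfl⟩ ?_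
  rintro x ⟨hx0, hx⟩
  by_contra hlt
  push Not at hlt
  exact absurd (strictAntiOn_hr ⟨hx0, hlt.le.trans h1⟩ ⟨h0, h1⟩ hlt) (not_lt.2 hx)

theorem rinv_eq_zero {k : ℝ} (hk : log 2 ≤ k) : rinv k = 0 :=
  le_antisymm (csInf_le ⟨0, fun x hx => hx.1⟩ ⟨le_rfl, by simpa using hk⟩)
    (le_csInf ⟨0, le_rfl, by simpa using hk⟩ fun x hx => hx.1)

theorem rinv_spec {k : ℝ} (hk : 0 < k) :
    0 ≤ rinv k ∧ rinv k < 1 ∧ hr (rinv k) = min k (log 2) := by
  rcases le_total k (log 2) with h | h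
  · obtain ⟨r, h0, h1, rfl⟩ := exists_hr_eq hk h
    rw [rinv_eq h0 h1.le, min_eq_left h]; exact ⟨h0, h1, rfl⟩
  · rw [rinv_eq_zero h, min_eq_right h]; exact ⟨le_rfl, one_pos, hr_zero⟩

theorem rinv_antitone {k k' : ℝ} (hk : 0 < k) (h : k ≤ k') : rinv k' ≤ rinv k := by
  obtain ⟨a0, -, a⟩ := rinv_spec hk
  exact csInf_le ⟨0, fun x hx => hx.1⟩ ⟨a0, by rw [a]; exact (min_le_left _ _).trans h⟩

theorem continuousAt_rinv {k : ℝ} (hk : 0 < k) : ContinuousAt rinv k := by
  obtain ⟨a0, a1, a⟩ := rinv_spec hk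
  rw [ContinuousAt, tendsto_order]
  constructor
  · intro l hl
    rcases lt_or_ge l 0 with hl0 | hl0
    · filter_upwards [lt_mem_nhds hk] with x hx
      exact hl0.trans_le (rinv_spec hx).1
    · obtain ⟨m, hlm, hm⟩ := exists_between hl
      have hm0 : 0 ≤ m := hl0.trans hlm.le
      have hlt : k < hr m := by
        have := strictAntiOn_hr ⟨hm0, (hm.trans a1).le⟩ ⟨a0, a1.le⟩ hm
        rw [a] at this
        rcases le_total k (log 2) with h | h
        · rwa [min_eq_left h] at this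
        · rw [min_eq_right h] at this; linarith [hr_le_log_two m]
      filter_upwards [lt_mem_nhds hk, gt_mem_nhds hlt] with x hx hx2
      have := rinv_antitone hx hx2.le
      rw [rinv_eq hm0 (hm.trans a1).le] at this
      exact hlm.trans_le this
  · intro u hu
    obtain ⟨m, hrm, hmu⟩ := exists_between (lt_min hu a1)
    have hm1 : m < 1 := hmu.trans_le (min_le_right _ _)
    have hlt : hr m < k := by
      have := strictAntiOn_hr ⟨a0, a1.le⟩ ⟨a0.trans hrm.le, hm1.le⟩ hrm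
      rw [a] at this
      exact this.trans_le (min_le_left _ _)
    have hm0 : 0 ≤ m := a0.trans hrm.le
    filter_upwards [lt_mem_nhds hlt] with x hx
    have := rinv_antitone (hr_pos (by linarith) hm1) hx.le
    rw [rinv_eq hm0 hm1.le] at this
    exact this.trans_lt (hmu.trans_le (min_le_left _ _))

theorem continuousOn_betaR : ContinuousOn betaR (Ico (0:ℝ) 1) := by
  intro x hx
  rcases hx.1.eq_or_lt with rfl | h
  · have hsl : Tendsto (fun r => r⁻¹ * Ar r) (𝓝[≠] (0:ℝ)) (𝓝 1) := by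
      have := hasDerivAt_iff_tendsto_slope.1 (hasDerivAt_Ar (r := 0) (by norm_num) one_pos)
      simpa [slope_fun_def] using this
    rw [← continuousWithinAt_diff_self, ContinuousWithinAt]
    have ht : Tendsto (fun r : ℝ => (((1 - r ^ 2) * (r⁻¹ * Ar r)))⁻¹ - 1) (𝓝[≠] (0:ℝ)) (𝓝 0) := by
      have hc : Tendsto (fun r : ℝ => 1 - r ^ 2) (𝓝[≠] (0:ℝ)) (𝓝 1) := by
        have : ContinuousAt (fun r : ℝ => 1 - r ^ 2) 0 := by fun_prop
        simpa using this.tendsto.mono_left nhdsWithin_le_nhds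
      simpa using ((hc.mul hsl).inv₀ (by norm_num)).sub_const 1
    have hb : betaR 0 = 0 := betaR_zero
    rw [hb]
    refine (ht.mono_left (nhdsWithin_mono _ (fun y hy => hy.2))).congr' ?_
    filter_upwards [self_mem_nhdsWithin] with y hy
    have hy0 : y ≠ 0 := hy.2
    rw [betaR, if_neg hy0]
    field_simp
  · exact (hasDerivAt_betaR h hx.2).continuousAt.continuousWithinAt

theorem continuousOn_PiR : ContinuousOn PiR (Ico (0:ℝ) 1) :=
  ContinuousOn.add (fun x hx => (hasDerivAt_Gr hx.1 hx.2).continuousAt.continuousWithinAt)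
    (continuousOn_betaR.mul continuous_hr.continuousOn)

theorem EP_rinv {p H : ℝ} (hp : 0 < p) (hH : 0 < H) :
    EP p H = PiR (rinv (H / p)) * p - betaR (rinv (H / p)) * H := by
  obtain ⟨a0, a1, a⟩ := rinv_spec (div_pos hH hp)
  rcases le_total (H / p) (log 2) with h | h
  · refine EP_eq hp hH a0 a1 ?_
    rw [a, min_eq_left h, mul_div_cancel₀ _ hp.ne']
  · rw [rinv_eq_zero h]
    rw [le_div_iff₀ hp] at h
    simp [EP_eq_zero hp (show p * log 2 ≤ H by linarith)]

theorem PiR_rinv_continuousAt {p H : ℝ} (hp : 0 < p) (hH : 0 < H) :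
    ContinuousAt (fun x => PiR (rinv (H / x))) p := by
  obtain ⟨a0, a1, -⟩ := rinv_spec (div_pos hH hp)
  have h1 : ContinuousAt (fun x => H / x) p := continuousAt_const.div continuousAt_id hp.ne'
  have h2 : Tendsto (fun x => rinv (H / x)) (𝓝 p) (𝓝[Ico 0 1] (rinv (H / p))) := by
    refine tendsto_nhdsWithin_iff.2 ⟨ContinuousAt.comp (f := fun x => H / x) (g := rinv) (continuousAt_rinv (div_pos hH hp)) h1, ?_⟩
    filter_upwards [lt_mem_nhds hp] with x hx
    obtain ⟨b0, b1, -⟩ := rinv_spec (div_pos hH hx)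
    exact ⟨b0, b1⟩
  exact ((continuousOn_PiR _ ⟨a0, a1⟩).tendsto.comp h2)

theorem hasDerivAt_EP {p H : ℝ} (hp : 0 < p) (hH : 0 < H) :
    HasDerivAt (fun x => EP x H) (PiR (rinv (H / p))) p := by
  rw [hasDerivAt_iff_isLittleO, Asymptotics.isLittleO_iff]
  intro c hc
  have hg := (PiR_rinv_continuousAt hp hH).tendsto
  have hev : ∀ᶠ x in 𝓝 p, |PiR (rinv (H / x)) - PiR (rinv (H / p))| < c :=
    (Metric.tendsto_nhds.1 hg c hc).mono fun x hx => by rwa [Real.dist_eq] at hx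
  filter_upwards [hev, lt_mem_nhds hp] with x hx hx0
  obtain ⟨a0, a1, -⟩ := rinv_spec (div_pos hH hp)
  obtain ⟨b0, b1, -⟩ := rinv_spec (div_pos hH hx0)
  have e1 := le_EP (p := x) hx0 hH a0 a1
  have e2 := le_EP (p := p) hp hH b0 b1
  have f1 := EP_rinv hp hH
  have f2 := EP_rinv hx0 hH
  set g := PiR (rinv (H / x))
  set g0 := PiR (rinv (H / p))
  simp only [smul_eq_mul, Real.norm_eq_abs]
  have hlo : 0 ≤ EP x H - EP p H - (x - p) * g0 := by linarith
  have hhi : EP x H - EP p H - (x - p) * g0 ≤ (x - p) * (g - g0) := by linarith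
  rw [abs_of_nonneg hlo]
  calc EP x H - EP p H - (x - p) * g0 ≤ (x - p) * (g - g0) := hhi
    _ ≤ |(x - p) * (g - g0)| := le_abs_self _
    _ = |g - g0| * |x - p| := by rw [abs_mul, mul_comm]
    _ ≤ c * |x - p| := mul_le_mul_of_nonneg_right hx.le (abs_nonneg _)

end Vale.Agent.P322
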