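import Vale.Agent.P322.Cube
import Vale.Agent.P322.Barrier
import Vale.Agent.P322.Channel

/-!
The main theorem in analytic form, and the translation to mutual information.
-/

namespace Vale.Agent.P322

open Real Set

variable {n : ℕ}

/-- Fraction of inputs on which `f` is true. -/
noncomputable def mu (f : (Fin n → Bool) → Bool) : ℝ := av fun x => if f x = true then 1 else 0

/-- Mutual information in nats, as a function of the correlation. -/
noncomputable def info (f : (Fin n → Bool) → Bool) (r : ℝ) : ℝ :=
  binEntropy (mu f) - av fun y => binEntropy (post f r y)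

theorem mu_mem (f : (Fin n → Bool) → Bool) : mu f ∈ Icc (0:ℝ) 1 := by
  constructor
  · have := av_mono (f := fun _ : Fin n → Bool => (0:ℝ))
      (g := fun x => if f x = true then (1:ℝ) else 0) fun x => by split_ifs <;> norm_num
    rwa [av_const] at this
  · have := av_mono (g := fun _ : Fin n → Bool => (1:ℝ))
      (f := fun x => if f x = true then (1:ℝ) else 0) fun x => by split_ifs <;> norm_num
    rwa [av_const] at this

theorem mu_not (f : (Fin n → Bool) → Bool) : mu (fun x => !f x) = 1 - mu f := by
  rw [eq_sub_iff_add_eq, mu, mu, ← av_add]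
  rw [av_congr (g := fun _ => (1:ℝ)) fun x => by cases f x <;> simp, av_const]

theorem continuous_info (f : (Fin n → Bool) → Bool) : Continuous (info f) := by
  have hK : ∀ a b : Bool, Continuous fun r : ℝ => wK r a b := fun a b => by
    unfold wK; split_ifs <;> fun_prop
  have hp : ∀ y, Continuous fun r : ℝ => post f r y := fun y => by
    unfold post KK
    exact continuous_finset_sum _ fun x _ =>
      (continuous_finset_prod _ fun i _ => hK (x i) (y i)).mul continuous_const
  unfold info av
  exact continuous_const.sub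
    ((continuous_finset_sum _ fun y _ => binEntropy_continuous.comp (hp y)).div_const _)

theorem info_le_entropy (f : (Fin n → Bool) → Bool) {r : ℝ} (h0 : 0 ≤ r) (h1 : r ≤ 1) :
    info f r ≤ binEntropy (mu f) := by
  have : 0 ≤ av fun y => binEntropy (post f r y) := by
    have := av_mono (f := fun _ : Fin n → Bool => (0:ℝ))
      (g := fun y => binEntropy (post f r y)) fun y =>
      binEntropy_nonneg (post_mem_Icc f (by linarith) h1 y).1 (post_mem_Icc f (by linarith) h1 y).2
    rwa [av_const] at this
  unfold info; linarith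

theorem info_inner (f : (Fin n → Bool) → Bool) (ht : ∃ x, f x = true) (hf : ∃ x, f x = false)
    {r : ℝ} (hrm : r ∈ Ioo (0:ℝ) 1) : info f r ≤ phiR r := by
  have hq := fun (x : ℝ) (hx : x ∈ Ioo (0:ℝ) 1) (y : Fin n → Bool) =>
    post_mem_Ioo f (ρ := x) (by linarith [hx.1]) hx.2 ht hf y
  have hm : mu f ∈ Ioo (0:ℝ) 1 := by
    have e : mu f = av (post f r) := (av_post f r).symm
    rw [e]
    refine ⟨av_pos fun y => (hq r hrm y).1, ?_⟩
    simpa [av_const] using av_lt (g := fun _ => (1:ℝ)) fun y => (hq r hrm y).2
  set c := |1 - 2 * mu f| with hc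
  have hc1 : c < 1 := abs_lt.2 ⟨by linarith [hm.2], by linarith [hm.1]⟩
  have ehr : Vale.Agent.P322.hr c = binEntropy (mu f) := by
    rw [hc]
    rcases abs_choice (1 - 2 * mu f) with e | e <;> rw [e]
    · exact hr_eq_binEntropy _
    · rw [hr_neg]; exact hr_eq_binEntropy _
  have epA : pA c = pA (1 - 2 * mu f) := by
    rw [hc]
    rcases abs_choice (1 - 2 * mu f) with e | e <;> rw [e]
    rw [pA_neg]
  refine comparison (abs_nonneg _) hc1 (continuous_info f).continuousOn ?_ ?_ ?_ hrm
  · rw [← hc, ehr]; exact info_le_entropy f zero_le_one le_rfl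
  · intro x hx
    rw [← hc, ehr, info]
    linarith [av_pos fun y => binEntropy_pos (hq x hx y).1 (hq x hx y).2]
  · intro x hx
    refine ⟨_, ((hasDerivAt_avEntropy f hx.1 hx.2 ht hf).const_sub (binEntropy (mu f))), ?_⟩
    have h := dirichlet_inequality _ (hq x hx)
    rw [show av (post f x) = mu f from av_post f x, FF] at h
    rw [← hc, ehr, epA]
    rw [show x * -(-dirichlet (post f x) / x) = dirichlet (post f x) by
      have := hx.1.ne'; field_simp]
    simp only [info, sub_sub_cancel]
    exact h

theorem info_le (f : (Fin n → Bool) → Bool) {r : ℝ} (h0 : 0 ≤ r) (h1 : r ≤ 1) :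
    info f r ≤ phiR r := by
  rcases h0.eq_or_lt with rfl | h0'
  · have e : ∀ y, post f 0 y = mu f := fun y => by
      unfold post mu av KK wK
      simp only [add_zero, sub_zero, ite_self, Finset.prod_const, Finset.card_univ,
        Fintype.card_fun, Fintype.card_bool, Fintype.card_fin]
      rw [← Finset.mul_sum, div_pow, one_pow, one_div_mul_eq_div]
      push_cast
      rfl
    simp [info, e, av_const]
  rcases h1.eq_or_lt with rfl | h1'
  · exact (info_le_entropy f zero_le_one le_rfl).trans (binEntropy_le_log_two.trans_eq phiR_one.symm)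
  by_cases ht : ∃ x, f x = true
  · by_cases hf : ∃ x, f x = false
    · exact info_inner f ht hf ⟨h0', h1'⟩
    · push Not at hf
      have : mu f = 1 := by
        unfold mu
        rw [av_congr (g := fun _ => (1:ℝ)) fun x => by simp [hf x], av_const]
      refine (info_le_entropy f h0 h1).trans ?_
      rw [this, binEntropy_one]; exact phiR_nonneg r
  · push Not at ht
    have : mu f = 0 := by
      unfold mu
      rw [av_congr (g := fun _ => (0:ℝ)) fun x => by simp [ht x], av_const]
    refine (info_le_entropy f h0 h1).trans ?_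
    rw [this, binEntropy_zero]; exact phiR_nonneg r

theorem jointLaw_eq (f : (Fin n → Bool) → Bool) (ε : ℝ) (w : Bool) (y : Fin n → Bool) :
    jointLaw f ε w y
      = (1 / 2 ^ n) * post (fun x => if w then f x else !f x) (1 - 2 * ε) y := by
  unfold jointLaw post
  rw [Finset.sum_filter, Finset.mul_sum]
  refine Finset.sum_congr rfl fun x _ => ?_
  have e : KK (1 - 2 * ε) x y = ∏ i, bsc ε (x i) (y i) := by
    unfold KK wK bsc
    exact Finset.prod_congr rfl fun i _ => by split_ifs <;> ring
  rw [e]
  cases w <;> cases h : f x <;> simp [h]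

theorem sum_log_split {t c m : ℝ} (ht0 : 0 ≤ t) (hm : m = 0 → t = 0) (hc : c ≠ 0) :
    c * t * logb 2 (c * t / (m * c)) = c * (t * log t - t * log m) / log 2 := by
  rcases eq_or_ne t 0 with rfl | ht
  · simp
  · have hm' : m ≠ 0 := fun h => ht (hm h)
    rw [mul_comm c t, mul_div_mul_right _ _ hc, logb, log_div ht hm']
    ring

theorem mutualInfo_eq (f : (Fin n → Bool) → Bool) {ε : ℝ} (h0 : 0 ≤ ε) (h1 : ε ≤ 1 / 2) :
    mutualInfo (jointLaw f ε) = info f (1 - 2 * ε) / log 2 := by
  set r := 1 - 2 * ε with hr
  have hr0 : -1 ≤ r := by linarith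
  have hr1 : r ≤ 1 := by linarith
  set c : ℝ := 1 / 2 ^ n with hc
  have hc0 : c ≠ 0 := by positivity
  have hN : (Fintype.card (Fin n → Bool) : ℝ) = 2 ^ n := by simp
  have hsum : ∀ g : (Fin n → Bool) → ℝ, ∑ y, c * g y = av g := fun g => by
    unfold av; rw [← Finset.mul_sum, hN, hc, one_div_mul_eq_div]
  set fN := fun x => !f x with hfN
  have eT : ∀ y, jointLaw f ε true y = c * post f r y := fun y => by rw [jointLaw_eq]; simp [← hc, hr]
  have eF : ∀ y, jointLaw f ε false y = c * post fN r y := fun y => by
    rw [jointLaw_eq]; simp [← hc, hr, hfN]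
  have hmT : ∑ y, jointLaw f ε true y = mu f := by
    simp only [eT, hsum]; exact av_post f r
  have hmF : ∑ y, jointLaw f ε false y = mu fN := by
    simp only [eF, hsum]; exact av_post fN r
  have hcol : ∀ y, ∑ a', jointLaw f ε a' y = c := fun y => by
    rw [Fintype.sum_bool, eT, eF, ← post_one_sub]; ring
  have hz : ∀ g : (Fin n → Bool) → Bool, mu g = 0 → ∀ y, post g r y = 0 := by
    intro g hg y
    unfold mu av at hg
    rw [div_eq_zero_iff, or_iff_left (by rw [hN]; positivity),
      Finset.sum_eq_zero_iff_of_nonneg fun x _ => by split_ifs <;> norm_num] at hg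
    exact Finset.sum_eq_zero fun x hx => by rw [hg x hx, mul_zero]
  have hrow : ∀ (g : (Fin n → Bool) → Bool),
      ∑ y, c * post g r y * logb 2 (c * post g r y / (mu g * c))
        = ((av fun y => post g r y * log (post g r y)) - mu g * log (mu g)) / log 2 := by
    intro g
    rw [Finset.sum_congr rfl fun y _ =>
      sum_log_split (post_mem_Icc g hr0 hr1 y).1 (fun h => hz g h y) hc0]
    rw [← Finset.sum_div, hsum, av_sub]
    congr 2
    rw [show (fun y => post g r y * log (mu g)) = fun y => log (mu g) * post g r y from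
      funext fun y => mul_comm _ _, av_const_mul, show av (post g r) = mu g from av_post g r,
      mul_comm]
  unfold mutualInfo
  rw [Fintype.sum_bool]
  simp only [hmT, hmF, hcol]
  simp only [eT, eF, hrow]
  have e1 : ∀ y, binEntropy (post f r y)
      = -(post f r y * log (post f r y)) - post fN r y * log (post fN r y) := fun y => by
    rw [← post_one_sub, binEntropy, log_inv, log_inv]; ring
  unfold info
  rw [av_congr e1, av_sub, show (fun y => -(post f r y * log (post f r y)))
    = fun y => (-1) * (post f r y * log (post f r y)) from funext fun y => by ring, av_const_mul]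
  rw [binEntropy, log_inv, log_inv, ← mu_not]
  ring

theorem courtade_kumar (f : (Fin n → Bool) → Bool) {ε : ℝ} (h0 : 0 ≤ ε) (h1 : ε ≤ 1 / 2) :
    mutualInfo (jointLaw f ε) ≤ 1 - binEntropy ε / log 2 := by
  rw [mutualInfo_eq f h0 h1]
  have h := info_le f (show 0 ≤ 1 - 2 * ε by linarith) (by linarith)
  rw [phiR, hr_eq_binEntropy] at h
  have := log_two_pos
  rw [div_le_iff₀ this, sub_mul, one_mul, div_mul_cancel₀ _ this.ne']
  exact h

end Vale.Agent.P322
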