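import Vale.Agent.P322.ScalarBasics

/-!
The logarithmic Lipschitz bound for the tangent intercepts `PiR` (lemma S1).

With `r = tanh z` everything reduces to `(hr r * cosh z ^ 2) ^ 2 * N ≤ kap * z ^ 3`,
`N = z (1 + r ^ 2) - r`, proved by Taylor bounds for `z ≤ 1/2`, on five explicit intervals
up to `7/4`, and by an elementary bound beyond.
-/

namespace Vale.Agent.P322.Sc

open Real

noncomputable section

/-- The quadratic `z (1 + t ^ 2) - t`. -/
def Nq (z t : ℝ) : ℝ := z * (1 + t ^ 2) - t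

/-- `hr (tanh z) * cosh z ^ 2`. -/
def rq (z : ℝ) : ℝ := hr (tanh z) * cosh z ^ 2

lemma rq_nonneg (z : ℝ) : 0 ≤ rq z :=
  mul_nonneg (hr_pos (neg_one_lt_tanh' z) (tanh_lt_one z)).le (sq_nonneg _)

lemma log_pade {y : ℝ} (hy : 0 ≤ y) :
    log (1 + y) ≤ y * (30 + 21 * y + y ^ 2) / (30 + 36 * y + 9 * y ^ 2) := by
  let f : ℝ → ℝ := fun t => t * (30 + 21 * t + t ^ 2) / (30 + 36 * t + 9 * t ^ 2) - log (1 + t)
  have hd : ∀ t : ℝ, 0 ≤ t → HasDerivAt f
      (((30 + 42 * t + 3 * t ^ 2) * (30 + 36 * t + 9 * t ^ 2)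
        - t * (30 + 21 * t + t ^ 2) * (36 + 18 * t)) / (30 + 36 * t + 9 * t ^ 2) ^ 2
        - 1 / (1 + t)) t := by
    intro t ht
    have h0 : (30 : ℝ) + 36 * t + 9 * t ^ 2 ≠ 0 := by positivity
    have hn := (hasDerivAt_id' t).mul ((((hasDerivAt_id' t).const_mul (21 : ℝ)).const_add (30 : ℝ)).add
      ((hasDerivAt_id' t).pow 2))
    have he := (((hasDerivAt_id' t).const_mul (36 : ℝ)).const_add (30 : ℝ)).add
      (((hasDerivAt_id' t).pow 2).const_mul (9 : ℝ))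
    have hl := ((hasDerivAt_id' t).const_add (1 : ℝ)).log (by positivity : (1 : ℝ) + t ≠ 0)
    refine ((hn.div he h0).sub hl).congr_deriv ?_
    simp
    ring
  have hmono : MonotoneOn f (Set.Ici 0) := by
    apply monotoneOn_of_hasDerivWithinAt_nonneg (convex_Ici 0)
      (fun t ht => (hd t ht).continuousAt.continuousWithinAt)
      (fun t ht => (hd t (interior_subset ht)).hasDerivWithinAt)
    intro t ht
    have ht : 0 ≤ t := interior_subset ht
    rw [div_sub_div _ _ (by positivity) (by positivity)]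
    apply div_nonneg ?_ (by positivity)
    nlinarith [mul_nonneg ht ht, pow_nonneg ht 3, pow_nonneg ht 4, pow_nonneg ht 5]
  have := hmono Set.self_mem_Ici (Set.mem_Ici.2 hy) hy
  simp only [f] at this
  norm_num at this ⊢
  linarith

/-- Bound on `rq` through a linear bound on the Padé expression. -/
lemma rq_le {z Y al be : ℝ} (hz : 0 ≤ z) (hY : exp (-2 * z) ≤ Y)
    (hP : (1 + exp (-2 * z)) ^ 2 * (30 + 21 * exp (-2 * z) + exp (-2 * z) ^ 2) ≤
      4 * (al + be * exp (-2 * z)) * (30 + 36 * exp (-2 * z) + 9 * exp (-2 * z) ^ 2))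
    (hbe : 0 ≤ be) : rq z ≤ al + be * Y + z * (1 + Y) / 2 := by
  have e := exp_pos (-2 * z)
  set y := exp (-2 * z) with hy
  have hl := log_pade e.le
  have key : rq z = (1 + y) ^ 2 / (4 * y) * log (1 + y) + z * (1 + y) / 2 := by
    rw [rq, hr_tanh, cosh_sq_eq_y, ← hy]
    field_simp
    ring
  have h1 : (1 + y) ^ 2 / (4 * y) * log (1 + y) ≤ al + be * y := by
    calc (1 + y) ^ 2 / (4 * y) * log (1 + y)
        ≤ (1 + y) ^ 2 / (4 * y) * (y * (30 + 21 * y + y ^ 2) / (30 + 36 * y + 9 * y ^ 2)) :=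
          mul_le_mul_of_nonneg_left hl (by positivity)
      _ = (1 + y) ^ 2 * (30 + 21 * y + y ^ 2) / (4 * (30 + 36 * y + 9 * y ^ 2)) := by
          field_simp
      _ ≤ al + be * y := by
          rw [div_le_iff₀ (by positivity)]; linarith
  rw [key]
  nlinarith [mul_le_mul_of_nonneg_left hY hbe, mul_le_mul_of_nonneg_left hY hz]

lemma Nq_le_of_mem {z t t₁ t₂ M : ℝ} (hz : 0 ≤ z) (h₁ : t₁ ≤ t) (h₂ : t ≤ t₂)
    (a : Nq z t₁ ≤ M) (b : Nq z t₂ ≤ M) : Nq z t ≤ M := by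
  rcases eq_or_lt_of_le (h₁.trans h₂) with h | h
  · have : t = t₁ := le_antisymm (h ▸ h₂) h₁
    rwa [this]
  · have key : (t₂ - t₁) * Nq z t = (t₂ - t) * Nq z t₁ + (t - t₁) * Nq z t₂
        - z * (t₂ - t₁) * ((t - t₁) * (t₂ - t)) := by unfold Nq; ring
    have : (t₂ - t₁) * Nq z t ≤ (t₂ - t₁) * M := by
      nlinarith [mul_le_mul_of_nonneg_left a (sub_nonneg.2 h₂),
        mul_le_mul_of_nonneg_left b (sub_nonneg.2 h₁),
        mul_nonneg (mul_nonneg hz (sub_nonneg.2 h.le))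
          (mul_nonneg (sub_nonneg.2 h₁) (sub_nonneg.2 h₂))]
    exact le_of_mul_le_mul_left this (sub_pos.2 h)

/-- The key inequality on one interval, from linear bounds on `y = exp (-2z)` and `tanh z`. -/
lemma key_of_bounds {z Y Yl al be t₁ t₂ K : ℝ} (hz : 0 < z) (hY : exp (-2 * z) ≤ Y)
    (hYl : Yl ≤ exp (-2 * z))
    (hP : ∀ y, Yl ≤ y → y ≤ Y → (1 + y) ^ 2 * (30 + 21 * y + y ^ 2) ≤
      4 * (al + be * y) * (30 + 36 * y + 9 * y ^ 2))
    (hbe : 0 ≤ be) (ht1 : t₁ * (1 + Y) ≤ 1 - Y) (hYl0 : -1 < Yl) (ht1' : -1 ≤ t₁)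
    (ht2 : 1 - Yl ≤ t₂ * (1 + Yl)) (ht2' : -1 ≤ t₂)
    (hA : (al + be * Y + z * (1 + Y) / 2) ^ 2 * Nq z t₁ ≤ K * z ^ 3)
    (hK : 0 ≤ K)
    (hB : (al + be * Y + z * (1 + Y) / 2) ^ 2 * Nq z t₂ ≤ K * z ^ 3) :
    rq z ^ 2 * Nq z (tanh z) ≤ K * z ^ 3 := by
  have hR := rq_le hz.le hY (hP _ hYl hY) hbe
  have e := exp_pos (-2 * z)
  have h1 : t₁ ≤ tanh z := by
    rw [tanh_eq_y, le_div_iff₀ (by positivity)]
    nlinarith [mul_le_mul_of_nonneg_left hY (by linarith : 0 ≤ 1 + t₁)]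
  have h2 : tanh z ≤ t₂ := by
    rw [tanh_eq_y, div_le_iff₀ (by positivity)]
    nlinarith [mul_le_mul_of_nonneg_left hYl (by linarith : 0 ≤ 1 + t₂)]
  have hRpos : 0 < al + be * Y + z * (1 + Y) / 2 :=
    (mul_pos (hr_pos (neg_one_lt_tanh' z) (tanh_lt_one z)) (pow_pos (cosh_pos z) 2)).trans_le hR
  have hM : Nq z (tanh z) ≤ K * z ^ 3 / (al + be * Y + z * (1 + Y) / 2) ^ 2 :=
    Nq_le_of_mem hz.le h1 h2 (by rw [le_div_iff₀ (by positivity)]; linarith)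
      (by rw [le_div_iff₀ (by positivity)]; linarith)
  rw [le_div_iff₀ (by positivity)] at hM
  rcases le_total (Nq z (tanh z)) 0 with hN | hN
  · nlinarith [mul_le_mul_of_nonneg_left hN (sq_nonneg (rq z)),
      mul_nonneg hK (pow_nonneg hz.le 3)]
  · nlinarith [mul_le_mul_of_nonneg_right
      (pow_le_pow_left₀ (rq_nonneg z) hR 2) hN]

lemma exp_neg_le_of_sum {x Y : ℝ} (hx : 0 ≤ x) (hY : 0 < Y) (n : ℕ)
    (h : 1 ≤ Y * ∑ i ∈ Finset.range n, x ^ i / (i.factorial : ℝ)) : exp (-x) ≤ Y := by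
  have h' : 1 ≤ Y * exp x := h.trans (mul_le_mul_of_nonneg_left (sum_le_exp_of_nonneg hx n) hY.le)
  rw [exp_neg, inv_le_iff_one_le_mul₀ (exp_pos x)]
  exact h'

lemma le_exp_neg_of_sum {x Y : ℝ} (m : ℕ) (hm : 0 < m) (hx : 0 ≤ x) (hx1 : x ≤ m) (hY : 0 ≤ Y)
    (h : Y * ((∑ i ∈ Finset.range 9, (x / m) ^ i / (i.factorial : ℝ))
      + (x / m) ^ 9 * (10 / (Nat.factorial 9 * 9 : ℝ))) ^ m ≤ 1) : Y ≤ exp (-x) := by
  have hm' : (0 : ℝ) < m := by exact_mod_cast hm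
  have h0 : 0 ≤ x / m := by positivity
  have h1 : x / m ≤ 1 := (div_le_one hm').2 hx1
  have hb := Real.exp_bound' h0 h1 (n := 9) (by norm_num)
  have h' : Y * exp x ≤ 1 := by
    refine le_trans ?_ h
    apply mul_le_mul_of_nonneg_left ?_ hY
    rw [show exp x = exp (x / m) ^ m by rw [← exp_nat_mul]; congr 1; field_simp]
    refine pow_le_pow_left₀ (exp_pos _).le ?_ m
    refine hb.trans (le_of_eq ?_)
    push_cast
    ring
  rw [exp_neg, inv_eq_one_div, le_div_iff₀ (exp_pos x)]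
  exact h'

lemma exp_chord {a b z Ya Yb : ℝ} (haz : a ≤ z) (hzb : z ≤ b) (hab : a < b)
    (ha : exp (-2 * a) ≤ Ya) (hb : exp (-2 * b) ≤ Yb) :
    exp (-2 * z) ≤ Ya + (Yb - Ya) / (b - a) * (z - a) := by
  have hd : 0 < b - a := by linarith
  have ht0 : 0 ≤ (z - a) / (b - a) := div_nonneg (by linarith) hd.le
  have ht1 : 0 ≤ 1 - (z - a) / (b - a) := by
    rw [sub_nonneg, div_le_one hd]; linarith
  have key := convexOn_exp.2 (Set.mem_univ (-2 * a)) (Set.mem_univ (-2 * b)) ht1 ht0 (by ring)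
  simp only [smul_eq_mul] at key
  rw [show (1 - (z - a) / (b - a)) * (-2 * a) + (z - a) / (b - a) * (-2 * b) = -2 * z by
    field_simp; ring] at key
  have : (1 - (z - a) / (b - a)) * exp (-2 * a) + (z - a) / (b - a) * exp (-2 * b) ≤
      (1 - (z - a) / (b - a)) * Ya + (z - a) / (b - a) * Yb := by gcongr
  refine (key.trans this).trans (le_of_eq ?_)
  field_simp
  ring

lemma exp_tangent {M z Em : ℝ} (hM : Em ≤ exp (-2 * M)) (hEm : 0 ≤ Em)
    (hz : 0 ≤ 1 - 2 * (z - M)) : Em * (1 - 2 * (z - M)) ≤ exp (-2 * z) := by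
  rw [show -2 * z = -2 * M + -2 * (z - M) by ring, exp_add]
  refine mul_le_mul hM ?_ hz (exp_pos _).le
  linarith [add_one_le_exp (-2 * (z - M))]

lemma kap_lower : 4 / 3 * (0.6931471803 : ℝ) ^ 2 ≤ kap := by
  unfold kap
  have := log_two_gt_d9
  gcongr

lemma key_seg0 {z : ℝ} (ha : 1/2 ≤ z) (hb : z ≤ 9/16) :
    rq z ^ 2 * Nq z (tanh z) ≤ kap * z ^ 3 := by
  have eA : exp (-2 * (1/2 : ℝ)) ≤ 9197/25000 := by
    rw [show -2 * (1/2 : ℝ) = -(2 * (1/2)) by ring]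
    exact exp_neg_le_of_sum (by norm_num) (by norm_num) 14
      (by norm_num [Finset.sum_range_succ, Nat.factorial])
  have eB : exp (-2 * (9/16 : ℝ)) ≤ 16233/50000 := by
    rw [show -2 * (9/16 : ℝ) = -(2 * (9/16)) by ring]
    exact exp_neg_le_of_sum (by norm_num) (by norm_num) 20
      (by norm_num [Finset.sum_range_succ, Nat.factorial])
  have eM : (34559/100000 : ℝ) ≤ exp (-2 * (17/32)) := by
    rw [show -2 * (17/32 : ℝ) = -(2 * (17/32)) by ring]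
    exact le_exp_neg_of_sum 4 (by norm_num) (by norm_num) (by norm_num) (by norm_num)
      (by norm_num [Finset.sum_range_succ, Nat.factorial])
  have hY := exp_chord ha hb (by norm_num) eA eB
  have hYl := exp_tangent (z := z) eM (by norm_num) (by linarith)
  have hk := kap_lower
  have hz : 0 < z := by linarith
  refine le_trans (key_of_bounds (al := 24129/100000) (be := 427/1000) (t₁ := 8023/100000 + 763/1000 * z)
    (t₂ := 8087/100000 + 191/250 * z) (K := 4 / 3 * (0.6931471803 : ℝ) ^ 2) hz hY hYl ?_ (by norm_num) ?_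
    (by nlinarith) (by linarith) ?_ (by linarith) ?_ (by norm_num) ?_)
    (mul_le_mul_of_nonneg_right hk (pow_nonneg hz.le 3))
  · intro y hy1 hy2
    have l : (103677/320000 : ℝ) ≤ y := by nlinarith
    have u : y ≤ 9197/25000 := by nlinarith
    have p := mul_nonneg (sub_nonneg.2 l) (sub_nonneg.2 u)
    have y0 : 0 ≤ y := by linarith
    nlinarith [p, mul_nonneg p y0, mul_nonneg p (mul_nonneg y0 y0)]
  · nlinarith [sq_nonneg (z - 106231/200000), mul_nonneg (sub_nonneg.2 ha) (sub_nonneg.2 hb)]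
  · nlinarith [mul_nonneg (sub_nonneg.2 ha) (sub_nonneg.2 hb), sub_nonneg.2 ha, sub_nonneg.2 hb]
  · unfold Nq
    linarith [mul_nonneg (pow_nonneg (sub_nonneg.2 ha) 0) (pow_nonneg (sub_nonneg.2 hb) 7), mul_nonneg (pow_nonneg (sub_nonneg.2 ha) 1) (pow_nonneg (sub_nonneg.2 hb) 6), mul_nonneg (pow_nonneg (sub_nonneg.2 ha) 2) (pow_nonneg (sub_nonneg.2 hb) 5), mul_nonneg (pow_nonneg (sub_nonneg.2 ha) 3) (pow_nonneg (sub_nonneg.2 hb) 4), mul_nonneg (pow_nonneg (sub_nonneg.2 ha) 4) (pow_nonneg (sub_nonneg.2 hb) 3), mul_nonneg (pow_nonneg (sub_nonneg.2 ha) 5) (pow_nonneg (sub_nonneg.2 hb) 2), mul_nonneg (pow_nonneg (sub_nonneg.2 ha) 6) (pow_nonneg (sub_nonneg.2 hb) 1), mul_nonneg (pow_nonneg (sub_nonneg.2 ha) 7) (pow_nonneg (sub_nonneg.2 hb) 0)]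
  · unfold Nq
    linarith [mul_nonneg (pow_nonneg (sub_nonneg.2 ha) 0) (pow_nonneg (sub_nonneg.2 hb) 7), mul_nonneg (pow_nonneg (sub_nonneg.2 ha) 1) (pow_nonneg (sub_nonneg.2 hb) 6), mul_nonneg (pow_nonneg (sub_nonneg.2 ha) 2) (pow_nonneg (sub_nonneg.2 hb) 5), mul_nonneg (pow_nonneg (sub_nonneg.2 ha) 3) (pow_nonneg (sub_nonneg.2 hb) 4), mul_nonneg (pow_nonneg (sub_nonneg.2 ha) 4) (pow_nonneg (sub_nonneg.2 hb) 3), mul_nonneg (pow_nonneg (sub_nonneg.2 ha) 5) (pow_nonneg (sub_nonneg.2 hb) 2), mul_nonneg (pow_nonneg (sub_nonneg.2 ha) 6) (pow_nonneg (sub_nonneg.2 hb) 1), mul_nonneg (pow_nonneg (sub_nonneg.2 ha) 7) (pow_nonneg (sub_nonneg.2 hb) 0)]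

lemma key_seg1 {z : ℝ} (ha : 9/16 ≤ z) (hb : z ≤ 5/8) :
    rq z ^ 2 * Nq z (tanh z) ≤ kap * z ^ 3 := by
  have eA : exp (-2 * (9/16 : ℝ)) ≤ 16233/50000 := by
    rw [show -2 * (9/16 : ℝ) = -(2 * (9/16)) by ring]
    exact exp_neg_le_of_sum (by norm_num) (by norm_num) 14
      (by norm_num [Finset.sum_range_succ, Nat.factorial])
  have eB : exp (-2 * (5/8 : ℝ)) ≤ 28651/100000 := by
    rw [show -2 * (5/8 : ℝ) = -(2 * (5/8)) by ring]
    exact exp_neg_le_of_sum (by norm_num) (by norm_num) 20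
      (by norm_num [Finset.sum_range_succ, Nat.factorial])
  have eM : (15249/50000 : ℝ) ≤ exp (-2 * (19/32)) := by
    rw [show -2 * (19/32 : ℝ) = -(2 * (19/32)) by ring]
    exact le_exp_neg_of_sum 4 (by norm_num) (by norm_num) (by norm_num) (by norm_num)
      (by norm_num [Finset.sum_range_succ, Nat.factorial])
  have hY := exp_chord ha hb (by norm_num) eA eB
  have hYl := exp_tangent (z := z) eM (by norm_num) (by linarith)
  have hk := kap_lower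
  have hz : 0 < z := by linarith
  refine le_trans (key_of_bounds (al := 6081/25000) (be := 421/1000) (t₁ := 5337/50000 + 179/250 * z)
    (t₂ := 10723/100000 + 717/1000 * z) (K := 4 / 3 * (0.6931471803 : ℝ) ^ 2) hz hY hYl ?_ (by norm_num) ?_
    (by nlinarith) (by linarith) ?_ (by linarith) ?_ (by norm_num) ?_)
    (mul_le_mul_of_nonneg_right hk (pow_nonneg hz.le 3))
  · intro y hy1 hy2
    have l : (45747/160000 : ℝ) ≤ y := by nlinarith
    have u : y ≤ 16233/50000 := by nlinarith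
    have p := mul_nonneg (sub_nonneg.2 l) (sub_nonneg.2 u)
    have y0 : 0 ≤ y := by linarith
    nlinarith [p, mul_nonneg p y0, mul_nonneg p (mul_nonneg y0 y0)]
  · nlinarith [sq_nonneg (z - 296731/500000), mul_nonneg (sub_nonneg.2 ha) (sub_nonneg.2 hb)]
  · nlinarith [mul_nonneg (sub_nonneg.2 ha) (sub_nonneg.2 hb), sub_nonneg.2 ha, sub_nonneg.2 hb]
  · unfold Nq
    linarith [mul_nonneg (pow_nonneg (sub_nonneg.2 ha) 0) (pow_nonneg (sub_nonneg.2 hb) 7), mul_nonneg (pow_nonneg (sub_nonneg.2 ha) 1) (pow_nonneg (sub_nonneg.2 hb) 6), mul_nonneg (pow_nonneg (sub_nonneg.2 ha) 2) (pow_nonneg (sub_nonneg.2 hb) 5), mul_nonneg (pow_nonneg (sub_nonneg.2 ha) 3) (pow_nonneg (sub_nonneg.2 hb) 4), mul_nonneg (pow_nonneg (sub_nonneg.2 ha) 4) (pow_nonneg (sub_nonneg.2 hb) 3), mul_nonneg (pow_nonneg (sub_nonneg.2 ha) 5) (pow_nonneg (sub_nonneg.2 hb) 2), mul_nonneg (pow_nonneg (sub_nonneg.2 ha) 6) (pow_nonneg (sub_nonneg.2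 hb) 1), mul_nonneg (pow_nonneg (sub_nonneg.2 ha) 7) (pow_nonneg (sub_nonneg.2 hb) 0)]
  · unfold Nq
    linarith [mul_nonneg (pow_nonneg (sub_nonneg.2 ha) 0) (pow_nonneg (sub_nonneg.2 hb) 7), mul_nonneg (pow_nonneg (sub_nonneg.2 ha) 1) (pow_nonneg (sub_nonneg.2 hb) 6), mul_nonneg (pow_nonneg (sub_nonneg.2 ha) 2) (pow_nonneg (sub_nonneg.2 hb) 5), mul_nonneg (pow_nonneg (sub_nonneg.2 ha) 3) (pow_nonneg (sub_nonneg.2 hb) 4), mul_nonneg (pow_nonneg (sub_nonneg.2 ha) 4) (pow_nonneg (sub_nonneg.2 hb) 3), mul_nonneg (pow_nonneg (sub_nonneg.2 ha) 5) (pow_nonneg (sub_nonneg.2 hb) 2), mul_nonneg (pow_nonneg (sub_nonneg.2 ha) 6) (pow_nonneg (sub_nonneg.2 hb) 1), mul_nonneg (pow_nonneg (sub_nonneg.2 ha) 7) (pow_nonneg (sub_nonneg.2 hb) 0)]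

lemma key_seg2 {z : ℝ} (ha : 5/8 ≤ z) (hb : z ≤ 7/8) :
    rq z ^ 2 * Nq z (tanh z) ≤ kap * z ^ 3 := by
  have eA : exp (-2 * (5/8 : ℝ)) ≤ 28651/100000 := by
    rw [show -2 * (5/8 : ℝ) = -(2 * (5/8)) by ring]
    exact exp_neg_le_of_sum (by norm_num) (by norm_num) 14
      (by norm_num [Finset.sum_range_succ, Nat.factorial])
  have eB : exp (-2 * (7/8 : ℝ)) ≤ 8689/50000 := by
    rw [show -2 * (7/8 : ℝ) = -(2 * (7/8)) by ring]
    exact exp_neg_le_of_sum (by norm_num) (by norm_num) 20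
      (by norm_num [Finset.sum_range_succ, Nat.factorial])
  have eM : (22313/100000 : ℝ) ≤ exp (-2 * (3/4)) := by
    rw [show -2 * (3/4 : ℝ) = -(2 * (3/4)) by ring]
    exact le_exp_neg_of_sum 4 (by norm_num) (by norm_num) (by norm_num) (by norm_num)
      (by norm_num [Finset.sum_range_succ, Nat.factorial])
  have hY := exp_chord ha hb (by norm_num) eA eB
  have hYl := exp_tangent (z := z) eM (by norm_num) (by linarith)
  have hk := kap_lower
  have hz : 0 < z := by linarith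
  refine le_trans (key_of_bounds (al := 154/625) (be := 41/100) (t₁ := 8903/50000 + 597/1000 * z)
    (t₂ := 19009/100000 + 299/500 * z) (K := 4 / 3 * (0.6931471803 : ℝ) ^ 2) hz hY hYl ?_ (by norm_num) ?_
    (by nlinarith) (by linarith) ?_ (by linarith) ?_ (by norm_num) ?_)
    (mul_le_mul_of_nonneg_right hk (pow_nonneg hz.le 3))
  · intro y hy1 hy2
    have l : (66939/400000 : ℝ) ≤ y := by nlinarith
    have u : y ≤ 28651/100000 := by nlinarith
    have p := mul_nonneg (sub_nonneg.2 l) (sub_nonneg.2 u)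
    have y0 : 0 ≤ y := by linarith
    nlinarith [p, mul_nonneg p y0, mul_nonneg p (mul_nonneg y0 y0)]
  · nlinarith [sq_nonneg (z - 752389/1000000), mul_nonneg (sub_nonneg.2 ha) (sub_nonneg.2 hb)]
  · nlinarith [mul_nonneg (sub_nonneg.2 ha) (sub_nonneg.2 hb), sub_nonneg.2 ha, sub_nonneg.2 hb]
  · unfold Nq
    linarith [mul_nonneg (pow_nonneg (sub_nonneg.2 ha) 0) (pow_nonneg (sub_nonneg.2 hb) 9), mul_nonneg (pow_nonneg (sub_nonneg.2 ha) 1) (pow_nonneg (sub_nonneg.2 hb) 8), mul_nonneg (pow_nonneg (sub_nonneg.2 ha) 2) (pow_nonneg (sub_nonneg.2 hb) 7), mul_nonneg (pow_nonneg (sub_nonneg.2 ha) 3) (pow_nonneg (sub_nonneg.2 hb) 6), mul_nonneg (pow_nonneg (sub_nonneg.2 ha) 4) (pow_nonneg (sub_nonneg.2 hb) 5), mul_nonneg (pow_nonneg (sub_nonneg.2 ha) 5) (pow_nonneg (sub_nonneg.2 hb) 4), mul_nonneg (pow_nonneg (sub_nonneg.2 ha) 6) (pow_nonneg (sub_nonneg.2 hb) 3), mul_nonneg (pow_nonneg (sub_nonneg.2 ha)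 7) (pow_nonneg (sub_nonneg.2 hb) 2), mul_nonneg (pow_nonneg (sub_nonneg.2 ha) 8) (pow_nonneg (sub_nonneg.2 hb) 1), mul_nonneg (pow_nonneg (sub_nonneg.2 ha) 9) (pow_nonneg (sub_nonneg.2 hb) 0)]
  · unfold Nq
    linarith [mul_nonneg (pow_nonneg (sub_nonneg.2 ha) 0) (pow_nonneg (sub_nonneg.2 hb) 9), mul_nonneg (pow_nonneg (sub_nonneg.2 ha) 1) (pow_nonneg (sub_nonneg.2 hb) 8), mul_nonneg (pow_nonneg (sub_nonneg.2 ha) 2) (pow_nonneg (sub_nonneg.2 hb) 7), mul_nonneg (pow_nonneg (sub_nonneg.2 ha) 3) (pow_nonneg (sub_nonneg.2 hb) 6), mul_nonneg (pow_nonneg (sub_nonneg.2 ha) 4) (pow_nonneg (sub_nonneg.2 hb) 5), mul_nonneg (pow_nonneg (sub_nonneg.2 ha) 5) (pow_nonneg (sub_nonneg.2 hb) 4), mul_nonneg (pow_nonneg (sub_nonneg.2 ha) 6) (pow_nonneg (sub_nonneg.2 hb) 3), mul_nonneg (pow_nonneg (sub_nonneg.2 ha) 7) (pow_nonneg (sub_nonneg.2 hb) 2), mul_nonneg (pow_nonneg (sub_nonneg.2 ha) 8) (pow_nonneg (sub_nonneg.2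 hb) 1), mul_nonneg (pow_nonneg (sub_nonneg.2 ha) 9) (pow_nonneg (sub_nonneg.2 hb) 0)]

lemma key_seg3 {z : ℝ} (ha : 7/8 ≤ z) (hb : z ≤ 13/10) :
    rq z ^ 2 * Nq z (tanh z) ≤ kap * z ^ 3 := by
  have eA : exp (-2 * (7/8 : ℝ)) ≤ 8689/50000 := by
    rw [show -2 * (7/8 : ℝ) = -(2 * (7/8)) by ring]
    exact exp_neg_le_of_sum (by norm_num) (by norm_num) 14
      (by norm_num [Finset.sum_range_succ, Nat.factorial])
  have eB : exp (-2 * (13/10 : ℝ)) ≤ 1857/25000 := by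
    rw [show -2 * (13/10 : ℝ) = -(2 * (13/10)) by ring]
    exact exp_neg_le_of_sum (by norm_num) (by norm_num) 20
      (by norm_num [Finset.sum_range_succ, Nat.factorial])
  have eM : (71/625 : ℝ) ≤ exp (-2 * (87/80)) := by
    rw [show -2 * (87/80 : ℝ) = -(2 * (87/80)) by ring]
    exact le_exp_neg_of_sum 4 (by norm_num) (by norm_num) (by norm_num) (by norm_num)
      (by norm_num [Finset.sum_range_succ, Nat.factorial])
  have hY := exp_chord ha hb (by norm_num) eA eB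
  have hYl := exp_tangent (z := z) eM (by norm_num) (by linarith)
  have hk := kap_lower
  have hz : 0 < z := by linarith
  refine le_trans (key_of_bounds (al := 12453/50000) (be := 79/200) (t₁ := 37583/100000 + 371/1000 * z)
    (t₂ := 40029/100000 + 367/1000 * z) (K := 4 / 3 * (0.6931471803 : ℝ) ^ 2) hz hY hYl ?_ (by norm_num) ?_
    (by nlinarith) (by linarith) ?_ (by linarith) ?_ (by norm_num) ?_)
    (mul_le_mul_of_nonneg_right hk (pow_nonneg hz.le 3))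
  · intro y hy1 hy2
    have l : (1633/25000 : ℝ) ≤ y := by nlinarith
    have u : y ≤ 8689/50000 := by nlinarith
    have p := mul_nonneg (sub_nonneg.2 l) (sub_nonneg.2 u)
    have y0 : 0 ≤ y := by linarith
    nlinarith [p, mul_nonneg p y0, mul_nonneg p (mul_nonneg y0 y0)]
  · nlinarith [sq_nonneg (z - 545049/500000), mul_nonneg (sub_nonneg.2 ha) (sub_nonneg.2 hb)]
  · nlinarith [mul_nonneg (sub_nonneg.2 ha) (sub_nonneg.2 hb), sub_nonneg.2 ha, sub_nonneg.2 hb]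
  · unfold Nq
    linarith [mul_nonneg (pow_nonneg (sub_nonneg.2 ha) 0) (pow_nonneg (sub_nonneg.2 hb) 7), mul_nonneg (pow_nonneg (sub_nonneg.2 ha) 1) (pow_nonneg (sub_nonneg.2 hb) 6), mul_nonneg (pow_nonneg (sub_nonneg.2 ha) 2) (pow_nonneg (sub_nonneg.2 hb) 5), mul_nonneg (pow_nonneg (sub_nonneg.2 ha) 3) (pow_nonneg (sub_nonneg.2 hb) 4), mul_nonneg (pow_nonneg (sub_nonneg.2 ha) 4) (pow_nonneg (sub_nonneg.2 hb) 3), mul_nonneg (pow_nonneg (sub_nonneg.2 ha) 5) (pow_nonneg (sub_nonneg.2 hb) 2), mul_nonneg (pow_nonneg (sub_nonneg.2 ha) 6) (pow_nonneg (sub_nonneg.2 hb) 1), mul_nonneg (pow_nonneg (sub_nonneg.2 ha) 7) (pow_nonneg (sub_nonneg.2 hb) 0)]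
  · unfold Nq
    linarith [mul_nonneg (pow_nonneg (sub_nonneg.2 ha) 0) (pow_nonneg (sub_nonneg.2 hb) 7), mul_nonneg (pow_nonneg (sub_nonneg.2 ha) 1) (pow_nonneg (sub_nonneg.2 hb) 6), mul_nonneg (pow_nonneg (sub_nonneg.2 ha) 2) (pow_nonneg (sub_nonneg.2 hb) 5), mul_nonneg (pow_nonneg (sub_nonneg.2 ha) 3) (pow_nonneg (sub_nonneg.2 hb) 4), mul_nonneg (pow_nonneg (sub_nonneg.2 ha) 4) (pow_nonneg (sub_nonneg.2 hb) 3), mul_nonneg (pow_nonneg (sub_nonneg.2 ha) 5) (pow_nonneg (sub_nonneg.2 hb) 2), mul_nonneg (pow_nonneg (sub_nonneg.2 ha) 6) (pow_nonneg (sub_nonneg.2 hb) 1), mul_nonneg (pow_nonneg (sub_nonneg.2 ha) 7) (pow_nonneg (sub_nonneg.2 hb) 0)]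

lemma key_seg4 {z : ℝ} (ha : 13/10 ≤ z) (hb : z ≤ 7/4) :
    rq z ^ 2 * Nq z (tanh z) ≤ kap * z ^ 3 := by
  have eA : exp (-2 * (13/10 : ℝ)) ≤ 1857/25000 := by
    rw [show -2 * (13/10 : ℝ) = -(2 * (13/10)) by ring]
    exact exp_neg_le_of_sum (by norm_num) (by norm_num) 14
      (by norm_num [Finset.sum_range_succ, Nat.factorial])
  have eB : exp (-2 * (7/4 : ℝ)) ≤ 151/5000 := by
    rw [show -2 * (7/4 : ℝ) = -(2 * (7/4)) by ring]
    exact exp_neg_le_of_sum (by norm_num) (by norm_num) 20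
      (by norm_num [Finset.sum_range_succ, Nat.factorial])
  have eM : (947/20000 : ℝ) ≤ exp (-2 * (61/40)) := by
    rw [show -2 * (61/40 : ℝ) = -(2 * (61/40)) by ring]
    exact le_exp_neg_of_sum 4 (by norm_num) (by norm_num) (by norm_num) (by norm_num)
      (by norm_num [Finset.sum_range_succ, Nat.factorial])
  have hY := exp_chord ha hb (by norm_num) eA eB
  have hYl := exp_tangent (z := z) eM (by norm_num) (by linarith)
  have hk := kap_lower
  have hz : 0 < z := by linarith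
  refine le_trans (key_of_bounds (al := 3123/12500) (be := 48/125) (t₁ := 63077/100000 + 177/1000 * z)
    (t₂ := 32331/50000 + 173/1000 * z) (K := 4 / 3 * (0.6931471803 : ℝ) ^ 2) hz hY hYl ?_ (by norm_num) ?_
    (by nlinarith) (by linarith) ?_ (by linarith) ?_ (by norm_num) ?_)
    (mul_le_mul_of_nonneg_right hk (pow_nonneg hz.le 3))
  · intro y hy1 hy2
    have l : (10417/400000 : ℝ) ≤ y := by nlinarith
    have u : y ≤ 1857/25000 := by nlinarith
    have p := mul_nonneg (sub_nonneg.2 l) (sub_nonneg.2 u)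
    have y0 : 0 ≤ y := by linarith
    nlinarith [p, mul_nonneg p y0, mul_nonneg p (mul_nonneg y0 y0)]
  · nlinarith [sq_nonneg (z - 381703/250000), mul_nonneg (sub_nonneg.2 ha) (sub_nonneg.2 hb)]
  · nlinarith [mul_nonneg (sub_nonneg.2 ha) (sub_nonneg.2 hb), sub_nonneg.2 ha, sub_nonneg.2 hb]
  · unfold Nq
    linarith [mul_nonneg (pow_nonneg (sub_nonneg.2 ha) 0) (pow_nonneg (sub_nonneg.2 hb) 7), mul_nonneg (pow_nonneg (sub_nonneg.2 ha) 1) (pow_nonneg (sub_nonneg.2 hb) 6), mul_nonneg (pow_nonneg (sub_nonneg.2 ha) 2) (pow_nonneg (sub_nonneg.2 hb) 5), mul_nonneg (pow_nonneg (sub_nonneg.2 ha) 3) (pow_nonneg (sub_nonneg.2 hb) 4), mul_nonneg (pow_nonneg (sub_nonneg.2 ha) 4) (pow_nonneg (sub_nonneg.2 hb) 3), mul_nonneg (pow_nonneg (sub_nonneg.2 ha) 5) (pow_nonneg (sub_nonneg.2 hb) 2), mul_nonneg (pow_nonneg (sub_nonneg.2 ha) 6) (pow_nonneg (sub_nonneg.2 hb) 1), mul_nonneg (pow_nonneg (sub_nonneg.2 ha)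 7) (pow_nonneg (sub_nonneg.2 hb) 0)]
  · unfold Nq
    linarith [mul_nonneg (pow_nonneg (sub_nonneg.2 ha) 0) (pow_nonneg (sub_nonneg.2 hb) 7), mul_nonneg (pow_nonneg (sub_nonneg.2 ha) 1) (pow_nonneg (sub_nonneg.2 hb) 6), mul_nonneg (pow_nonneg (sub_nonneg.2 ha) 2) (pow_nonneg (sub_nonneg.2 hb) 5), mul_nonneg (pow_nonneg (sub_nonneg.2 ha) 3) (pow_nonneg (sub_nonneg.2 hb) 4), mul_nonneg (pow_nonneg (sub_nonneg.2 ha) 4) (pow_nonneg (sub_nonneg.2 hb) 3), mul_nonneg (pow_nonneg (sub_nonneg.2 ha) 5) (pow_nonneg (sub_nonneg.2 hb) 2), mul_nonneg (pow_nonneg (sub_nonneg.2 ha) 6) (pow_nonneg (sub_nonneg.2 hb) 1), mul_nonneg (pow_nonneg (sub_nonneg.2 ha) 7) (pow_nonneg (sub_nonneg.2 hb) 0)]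

lemma key_tail {z : ℝ} (ha : 7/4 ≤ z) : rq z ^ 2 * Nq z (tanh z) ≤ kap * z ^ 3 := by
  have hz : 0 < z := by linarith
  have eA : exp (-2 * (7/4 : ℝ)) ≤ 151/5000 := by
    rw [show -2 * (7/4 : ℝ) = -(2 * (7/4)) by ring]
    exact exp_neg_le_of_sum (by norm_num) (by norm_num) 20
      (by norm_num [Finset.sum_range_succ, Nat.factorial])
  have hy : exp (-2 * z) ≤ 151/5000 := le_trans (exp_le_exp.2 (by linarith)) eA
  have e := exp_pos (-2 * z)
  have hR : rq z ≤ 26141/100000 + 0 * (151/5000) + z * (1 + 151/5000) / 2 := by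
    refine rq_le hz.le hy ?_ le_rfl
    nlinarith [mul_nonneg (sub_nonneg.2 hy) e.le, sq_nonneg (exp (-2 * z))]
  have ht : tanh z ≤ 1 := (tanh_lt_one z).le
  have ht0 : (9/10 : ℝ) ≤ tanh z := by
    rw [tanh_eq_y, le_div_iff₀ (by positivity)]; linarith
  have hN : Nq z (tanh z) ≤ 2 * z - 1 := by
    have : Nq z (tanh z) - (2 * z - 1) = (1 - tanh z) * (1 - z * (1 + tanh z)) := by
      unfold Nq; ring
    have : 1 - z * (1 + tanh z) ≤ 0 := by nlinarith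
    nlinarith
  have h0 := rq_nonneg z
  have hN0 : 0 ≤ Nq z (tanh z) := by unfold Nq; nlinarith
  have hk := kap_lower
  calc rq z ^ 2 * Nq z (tanh z)
      ≤ (26141/100000 + 0 * (151/5000) + z * (1 + 151/5000) / 2) ^ 2 * (2 * z - 1) :=
        mul_le_mul (pow_le_pow_left₀ h0 hR 2) hN hN0 (sq_nonneg _)
    _ ≤ 4 / 3 * (0.6931471803 : ℝ) ^ 2 * z ^ 3 := by
        nlinarith [mul_nonneg (sub_nonneg.2 ha) (sq_nonneg (z - 7/4)),
          sq_nonneg (z - 7/4), sub_nonneg.2 ha]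
    _ ≤ kap * z ^ 3 := mul_le_mul_of_nonneg_right hk (pow_nonneg hz.le 3)

lemma tanh_le_self {z : ℝ} (hz : 0 ≤ z) : tanh z ≤ z := by
  have hm : MonotoneOn (fun t => t - tanh t) (Set.Ici (0 : ℝ)) := by
    apply monotoneOn_of_hasDerivWithinAt_nonneg (convex_Ici 0)
      (fun t _ => ((hasDerivAt_id' t).sub (hasDerivAt_tanh' t)).continuousAt.continuousWithinAt)
      (fun t _ => ((hasDerivAt_id' t).sub (hasDerivAt_tanh' t)).hasDerivWithinAt)
    intro t _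
    nlinarith [sq_nonneg (tanh t)]
  simpa using hm Set.self_mem_Ici (Set.mem_Ici.2 hz) hz

lemma hr_tanh_le {z : ℝ} (hz : 0 ≤ z) : hr (tanh z) ≤ log 2 - z ^ 2 / 2 + z ^ 4 / 4 := by
  have hd : ∀ t, HasDerivAt (fun t => log 2 - t ^ 2 / 2 + t ^ 4 / 4 - hr (tanh t))
      (-t + t ^ 3 + t / cosh t ^ 2) t := by
    intro t
    refine ((((hasDerivAt_pow 2 t).div_const 2).const_sub (log 2)).add
      ((hasDerivAt_pow 4 t).div_const 4) |>.sub (hasDerivAt_hr_tanh t)).congr_deriv ?_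
    push_cast; ring
  have hm : MonotoneOn (fun t => log 2 - t ^ 2 / 2 + t ^ 4 / 4 - hr (tanh t)) (Set.Ici (0 : ℝ)) := by
    apply monotoneOn_of_hasDerivWithinAt_nonneg (convex_Ici 0)
      (fun t _ => (hd t).continuousAt.continuousWithinAt)
      (fun t _ => (hd t).hasDerivWithinAt)
    intro t ht
    have ht : 0 ≤ t := interior_subset ht
    have h1 := tanh_le_self ht
    have h2 : 0 ≤ tanh t := by
      have := tanh_eq_y t
      rw [this]
      have : exp (-2 * t) ≤ 1 := exp_le_one_iff.2 (by linarith)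
      exact div_nonneg (by linarith) (by positivity)
    rw [show t / cosh t ^ 2 = t * (1 - tanh t ^ 2) by rw [one_sub_tanh_sq]; ring]
    nlinarith [mul_le_mul_of_nonneg_left (pow_le_pow_left₀ h2 h1 2) ht]
  have := hm Set.self_mem_Ici (Set.mem_Ici.2 hz) hz
  simp [hr_zero] at this
  linarith

lemma hyperbolic_bounds {x : ℝ} (h0 : 0 ≤ x) (h1 : x ≤ 1) :
    cosh x ≤ 1 + x ^ 2 / 2 + x ^ 4 / 24 + x ^ 6 / 600 ∧
    x * cosh x - sinh x ≤ x ^ 3 / 3 + x ^ 5 / 30 + x ^ 7 / 500 := by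
  have ax : |x| ≤ 1 := by rwa [abs_of_nonneg h0]
  have anx : |-x| ≤ 1 := by rwa [abs_neg]
  have p := abs_le.1 (Real.exp_bound ax (n := 7) (by norm_num))
  have q := abs_le.1 (Real.exp_bound anx (n := 7) (by norm_num))
  norm_num [Finset.sum_range_succ, Nat.factorial, abs_of_nonneg h0, abs_neg] at p q
  have h7 : x ^ 7 ≤ x ^ 6 := pow_le_pow_of_le_one h0 h1 (by norm_num)
  have h8 : x ^ 8 ≤ x ^ 7 := pow_le_pow_of_le_one h0 h1 (by norm_num)
  have c : cosh x ≤ 1 + x ^ 2 / 2 + x ^ 4 / 24 + x ^ 6 / 600 := by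
    rw [cosh_eq]; nlinarith [p.1, p.2, q.1, q.2]
  have c' : cosh x ≤ 1 + x ^ 2 / 2 + x ^ 4 / 24 + x ^ 6 / 720 + x ^ 7 * (8 / 35280) := by
    rw [cosh_eq]; nlinarith [p.1, p.2, q.1, q.2]
  have s : x + x ^ 3 / 6 + x ^ 5 / 120 - x ^ 7 * (8 / 35280) ≤ sinh x := by
    rw [sinh_eq]; nlinarith [p.1, p.2, q.1, q.2]
  exact ⟨c, by nlinarith [mul_le_mul_of_nonneg_left c' h0]⟩

lemma two_cosh_sq_mul_Nq (z : ℝ) :
    2 * cosh z ^ 2 * Nq z (tanh z) = 2 * z * cosh (2 * z) - sinh (2 * z) := by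
  have hc := (cosh_pos z).ne'
  rw [cosh_two_mul, sinh_two_mul, Nq, tanh_eq_sinh_div_cosh]
  field_simp

lemma small_poly {u L : ℝ} (h0 : 0 ≤ u) (h1 : u ≤ 1) (hL0 : 0.6931471803 < L)
    (hL1 : L < 0.6931471808) :
    (1 + u / 4 + u ^ 2 / 48 + u ^ 3 / 1200) * (1 / 3 + u / 30 + u ^ 2 / 500) *
      (L - u / 8 + u ^ 2 / 64) ^ 2 ≤ L ^ 2 / 3 := by
  set P := (1 + u / 4 + u ^ 2 / 48 + u ^ 3 / 1200) * (1 / 3 + u / 30 + u ^ 2 / 500) with hP
  have hR : 0 ≤ (0.6931471808 : ℝ) ^ 2 / 3 - P * (0.6931471808 - u / 8 + u ^ 2 / 64) ^ 2 := by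
    have : u * 0 ≤ (0.6931471808 : ℝ) ^ 2 / 3 - P * (0.6931471808 - u / 8 + u ^ 2 / 64) ^ 2 := by
      rw [hP]
      linarith [mul_nonneg h0 (mul_nonneg (pow_nonneg h0 0) (pow_nonneg (sub_nonneg.2 h1) 8)), mul_nonneg h0 (mul_nonneg (pow_nonneg h0 1) (pow_nonneg (sub_nonneg.2 h1) 7)), mul_nonneg h0 (mul_nonneg (pow_nonneg h0 2) (pow_nonneg (sub_nonneg.2 h1) 6)), mul_nonneg h0 (mul_nonneg (pow_nonneg h0 3) (pow_nonneg (sub_nonneg.2 h1) 5)), mul_nonneg h0 (mul_nonneg (pow_nonneg h0 4) (pow_nonneg (sub_nonneg.2 h1) 4)), mul_nonneg h0 (mul_nonneg (pow_nonneg h0 5) (pow_nonneg (sub_nonneg.2 h1) 3)), mul_nonneg h0 (mul_nonneg (pow_nonneg h0 6) (pow_nonneg (sub_nonneg.2 h1) 2)), mul_nonneg h0 (mul_nonneg (pow_nonneg h0 7) (pow_nonneg (sub_nonneg.2 h1) 1)), mul_nonneg h0 (mul_nonneg (pow_nonneg h0 8) (pow_nonneg (sub_nonneg.2 h1) 0))]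
    simpa using this
  have hS : 0 ≤ (P - 1 / 3) * (0.6931471803 + 0.6931471808) - 2 * (P * (u / 8 - u ^ 2 / 64)) := by
    rw [hP]
    linarith [mul_nonneg h0 (mul_nonneg (pow_nonneg h0 0) (pow_nonneg (sub_nonneg.2 h1) 6)), mul_nonneg h0 (mul_nonneg (pow_nonneg h0 1) (pow_nonneg (sub_nonneg.2 h1) 5)), mul_nonneg h0 (mul_nonneg (pow_nonneg h0 2) (pow_nonneg (sub_nonneg.2 h1) 4)), mul_nonneg h0 (mul_nonneg (pow_nonneg h0 3) (pow_nonneg (sub_nonneg.2 h1) 3)), mul_nonneg h0 (mul_nonneg (pow_nonneg h0 4) (pow_nonneg (sub_nonneg.2 h1) 2)), mul_nonneg h0 (mul_nonneg (pow_nonneg h0 5) (pow_nonneg (sub_nonneg.2 h1) 1)), mul_nonneg h0 (mul_nonneg (pow_nonneg h0 6) (pow_nonneg (sub_nonneg.2 h1) 0))]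
  have hP3 : 0 ≤ P - 1 / 3 := by rw [hP]; nlinarith [mul_nonneg h0 h0, pow_nonneg h0 3, pow_nonneg h0 4]
  nlinarith [mul_nonneg (sub_nonneg.2 hL1.le) hS,
    mul_nonneg (mul_nonneg (sub_nonneg.2 hL1.le) hP3) (sub_nonneg.2 hL0.le)]

lemma key_small {z : ℝ} (hz : 0 < z) (hb : z ≤ 1/2) :
    rq z ^ 2 * Nq z (tanh z) ≤ kap * z ^ 3 := by
  obtain ⟨x, rfl⟩ : ∃ x, z = x / 2 := ⟨2 * z, by ring⟩
  have x0 : 0 ≤ x := by linarith
  have x1 : x ≤ 1 := by linarith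
  obtain ⟨hc, hD⟩ := hyperbolic_bounds x0 x1
  have hh := hr_tanh_le hz.le
  have hh0 := (hr_pos (neg_one_lt_tanh' (x / 2)) (tanh_lt_one (x / 2))).le
  have hid := two_cosh_sq_mul_Nq (x / 2)
  rw [show 2 * (x / 2) = x by ring] at hid
  have hch : cosh (x / 2) ^ 2 = (1 + cosh x) / 2 := by
    have := cosh_two_mul (x / 2)
    rw [show 2 * (x / 2) = x by ring] at this
    rw [this, cosh_sq]; ring
  have eq : rq (x / 2) ^ 2 * Nq (x / 2) (tanh (x / 2)) =
      hr (tanh (x / 2)) ^ 2 * ((1 + cosh x) / 2) * (x * cosh x - sinh x) / 2 := by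
    rw [rq, mul_pow, ← hid, ← hch]; ring
  have hP := small_poly (u := x ^ 2) (L := log 2) (sq_nonneg x) (by nlinarith)
    log_two_gt_d9 log_two_lt_d9
  have hA : hr (tanh (x / 2)) ^ 2 ≤ (log 2 - x ^ 2 / 8 + (x ^ 2) ^ 2 / 64) ^ 2 :=
    pow_le_pow_left₀ hh0 (hh.trans (le_of_eq (by ring))) 2
  have hD0 : x * cosh x - sinh x ≤ x ^ 3 * (1 / 3 + x ^ 2 / 30 + (x ^ 2) ^ 2 / 500) := by linarith
  have hC : (1 + cosh x) / 2 ≤ 1 + x ^ 2 / 4 + (x ^ 2) ^ 2 / 48 + (x ^ 2) ^ 3 / 1200 := by linarith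
  have hc0 : 0 ≤ (1 + cosh x) / 2 := by linarith [cosh_pos x]
  rw [eq]
  calc hr (tanh (x / 2)) ^ 2 * ((1 + cosh x) / 2) * (x * cosh x - sinh x) / 2
      ≤ hr (tanh (x / 2)) ^ 2 * ((1 + cosh x) / 2) *
          (x ^ 3 * (1 / 3 + x ^ 2 / 30 + (x ^ 2) ^ 2 / 500)) / 2 := by gcongr
    _ ≤ (log 2 - x ^ 2 / 8 + (x ^ 2) ^ 2 / 64) ^ 2 *
          (1 + x ^ 2 / 4 + (x ^ 2) ^ 2 / 48 + (x ^ 2) ^ 3 / 1200) *
          (x ^ 3 * (1 / 3 + x ^ 2 / 30 + (x ^ 2) ^ 2 / 500)) / 2 := by gcongr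
    _ = x ^ 3 / 2 * ((1 + x ^ 2 / 4 + (x ^ 2) ^ 2 / 48 + (x ^ 2) ^ 3 / 1200) *
          (1 / 3 + x ^ 2 / 30 + (x ^ 2) ^ 2 / 500) *
          (log 2 - x ^ 2 / 8 + (x ^ 2) ^ 2 / 64) ^ 2) := by ring
    _ ≤ x ^ 3 / 2 * (log 2 ^ 2 / 3) := by gcongr
    _ = kap * (x / 2) ^ 3 := by unfold kap; ring

/-- The key inequality for all `z > 0`. -/
lemma key_ineq {z : ℝ} (hz : 0 < z) : rq z ^ 2 * Nq z (tanh z) ≤ kap * z ^ 3 := by
  rcases le_total z (1/2) with h0 | h0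
  · exact key_small hz h0
  rcases le_total z (9/16) with h1 | h1
  · exact key_seg0 h0 h1
  rcases le_total z (5/8) with h2 | h2
  · exact key_seg1 h1 h2
  rcases le_total z (7/8) with h3 | h3
  · exact key_seg2 h2 h3
  rcases le_total z (13/10) with h4 | h4
  · exact key_seg3 h3 h4
  rcases le_total z (7/4) with h5 | h5
  · exact key_seg4 h4 h5
  · exact key_tail h5

/-- `betaR` along `r = tanh z`. -/
def bz (z : ℝ) : ℝ := if z = 0 then 0 else sinh (2 * z) / (2 * z) - 1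

lemma betaR_tanh (z : ℝ) : betaR (tanh z) = bz z := by
  rcases eq_or_ne z 0 with rfl | hz
  · simp [betaR, bz]
  · have : tanh z ≠ 0 := fun h => hz (by
      have := Ar_tanh z
      rwa [h, Ar_zero, eq_comm] at this)
    have hc := (cosh_pos z).ne'
    rw [betaR, if_neg this, bz, if_neg hz, Ar_tanh, one_sub_tanh_sq, sinh_two_mul,
      tanh_eq_sinh_div_cosh]
    field_simp

lemma bz_nonneg {z : ℝ} (hz : 0 ≤ z) : 0 ≤ bz z := by
  rcases eq_or_lt_of_le hz with rfl | h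
  · simp [bz]
  · rw [bz, if_neg h.ne', sub_nonneg, le_div_iff₀ (by positivity)]
    linarith [self_le_sinh_iff.2 (by positivity : (0:ℝ) ≤ 2 * z)]

lemma continuousAt_bz_zero : ContinuousAt bz 0 := by
  have h := (hasDerivAt_sinh (0 : ℝ))
  rw [cosh_zero] at h
  have ht := hasDerivAt_iff_tendsto_slope_zero.1 h
  have h2 : Filter.Tendsto (fun z : ℝ => 2 * z) (nhdsWithin 0 {0}ᶜ) (nhdsWithin 0 {0}ᶜ) := by
    refine tendsto_nhdsWithin_of_tendsto_nhds_of_eventually_within _ ?_ ?_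
    · have : Continuous fun z : ℝ => 2 * z := by fun_prop
      exact (this.tendsto' 0 0 (by simp)).mono_left nhdsWithin_le_nhds
    · filter_upwards [self_mem_nhdsWithin] with z hz
      simpa using hz
  rw [continuousAt_iff_punctured_nhds]
  have := (ht.comp h2).sub_const 1
  simp only [sub_self] at this
  refine (this.congr' ?_).trans (by simp [bz])
  filter_upwards [self_mem_nhdsWithin] with z hz
  simp only [Set.mem_compl_iff, Set.mem_singleton_iff] at hz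
  simp [bz, hz, div_eq_inv_mul]

lemma hasDerivAt_bz {z : ℝ} (hz : z ≠ 0) :
    HasDerivAt bz ((2 * z * cosh (2 * z) - sinh (2 * z)) / (2 * z ^ 2)) z := by
  have h2 : HasDerivAt (fun t : ℝ => 2 * t) 2 z := by
    simpa using (hasDerivAt_id' z).const_mul (2 : ℝ)
  have h := (((hasDerivAt_sinh _).comp z h2).div h2 (by simpa using hz)).sub_const 1
  have he : bz =ᶠ[nhds z] fun t => (sinh ∘ fun t => 2 * t) t / (2 * t) - 1 := by
    filter_upwards [isOpen_ne.mem_nhds hz] with t ht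
    simp [bz, ht]
  refine (h.congr_of_eventuallyEq he).congr_deriv ?_
  simp only [Function.comp]
  field_simp

/-- `PiR (tanh z)`. -/
def piz (z : ℝ) : ℝ := z * tanh z - 2 * (log 2 - hr (tanh z)) + bz z * hr (tanh z)

lemma PiR_tanh (z : ℝ) : PiR (tanh z) = piz z := by
  rw [PiR, betaR_tanh, Gr, phiR, Ar_tanh, piz]; ring

lemma continuous_bz : Continuous bz := by
  refine continuous_iff_continuousAt.2 fun z => ?_
  rcases eq_or_ne z 0 with rfl | hz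
  · exact continuousAt_bz_zero
  · exact (hasDerivAt_bz hz).continuousAt

lemma antitoneOn_piz_add :
    AntitoneOn (fun z => piz z + kap * log (hr (tanh z))) (Set.Ici 0) := by
  have hpos : ∀ z, 0 < hr (tanh z) := fun z => hr_pos (neg_one_lt_tanh' z) (tanh_lt_one z)
  have hd : ∀ z, z ≠ 0 → HasDerivAt (fun z => piz z + kap * log (hr (tanh z)))
      ((2 * z * cosh (2 * z) - sinh (2 * z)) / (2 * z ^ 2) * hr (tanh z)
        - kap * (z / cosh z ^ 2 / hr (tanh z))) z := by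
    intro z hz
    have hh := hasDerivAt_hr_tanh z
    have h := ((((hasDerivAt_id' z).mul (hasDerivAt_tanh' z)).sub
      ((hh.const_sub (log 2)).const_mul 2)).add ((hasDerivAt_bz hz).mul hh)).add
      ((hh.log (hpos z).ne').const_mul kap)
    refine h.congr_deriv ?_
    have hc := (cosh_pos z).ne'
    have hp := (hpos z).ne'
    generalize hr (tanh z) = H at hp ⊢
    rw [bz, if_neg hz, sinh_two_mul, cosh_two_mul, one_sub_tanh_sq, tanh_eq_sinh_div_cosh]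
    field_simp
    ring
  refine antitoneOn_of_hasDerivWithinAt_nonpos (convex_Ici 0) ?_
    (fun z hz => (hd z (by rw [interior_Ici] at hz; exact ne_of_gt hz)).hasDerivWithinAt) ?_
  · apply Continuous.continuousOn
    have := continuous_hr_tanh
    have hl : Continuous fun z => log (hr (tanh z)) := this.log fun z => (hpos z).ne'
    have ht : Continuous fun z : ℝ => tanh z :=
      continuous_iff_continuousAt.2 fun z => (hasDerivAt_tanh' z).continuousAt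
    have hb := continuous_bz
    unfold piz; fun_prop
  · intro z hz
    rw [interior_Ici] at hz
    have hz : 0 < z := hz
    have hc := cosh_pos z
    have hp := hpos z
    have k := key_ineq hz
    have id := two_cosh_sq_mul_Nq z
    rw [sub_nonpos, ← id, rq] at *
    rw [div_mul_eq_mul_div, show kap * (z / cosh z ^ 2 / hr (tanh z)) =
      kap * z / (cosh z ^ 2 * hr (tanh z)) by field_simp,
      div_le_div_iff₀ (by positivity) (by positivity)]
    nlinarith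

end

end Vale.Agent.P322.Sc

namespace Vale.Agent.P322

open Real Sc

/-- Lemma S1: `PiR` is `kap`-Lipschitz in `log hr`. -/
theorem kap_log {r s : ℝ} (hs : 0 ≤ s) (hsr : s ≤ r) (hr1 : r < 1) :
    PiR r - PiR s ≤ kap * (Real.log (hr s) - Real.log (hr r)) := by
  have h := Sc.antitoneOn_piz_add (Set.mem_Ici.2 (Ar_nonneg hs (hsr.trans_lt hr1)))
    (Set.mem_Ici.2 (Ar_nonneg (hs.trans hsr) hr1)) (Ar_le_Ar (by linarith) hsr hr1)
  simp only [← PiR_tanh, tanh_Ar (by linarith : -1 < r) hr1,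
    tanh_Ar (by linarith : -1 < s) (hsr.trans_lt hr1)] at h
  linarith

end Vale.Agent.P322
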