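import Vale.Agent.P322.Basics

/-!
The two scalar inequalities behind the ray monotonicity (lemmas B1, B2).
-/

namespace Vale.Agent.P322.Sc2

open Real Set

lemma kap_le : kap ≤ 0.640605 := by
  unfold kap
  have h := pow_le_pow_left₀ (log_nonneg (by norm_num : (1:ℝ) ≤ 2)) log_two_lt_d9.le 2
  linarith

lemma kap_nonneg : 0 ≤ kap := by unfold kap; positivity

lemma gam_ge : 0.27865 ≤ gam := by
  have h0 := log_two_gt_d9
  have : (1:ℝ) / (2 * log 2) ≤ 0.72135 := by rw [div_le_iff₀ (by linarith)]; linarith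
  unfold gam; linarith

lemma gam_le : gam ≤ 0.27866 := by
  have h1 := log_two_lt_d9
  have : (0.72134 : ℝ) ≤ 1 / (2 * log 2) := by
    rw [le_div_iff₀ (by linarith [log_two_gt_d9])]; linarith
  unfold gam; linarith

/-- `pbar` as a function of `s = b ^ 2`. -/
noncomputable def pb (a s : ℝ) : ℝ := pA a - (1 - gam + 6 * gam * a ^ 2) * s - gam * s ^ 2

lemma pb_eq (a b : ℝ) : (pA (a + b) + pA (a - b)) / 2 = pb a (b ^ 2) := by
  unfold pb pA; ring

lemma pA_pos {a : ℝ} (h0 : -1 < a) (h1 : a < 1) : 0 < pA a := by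
  have := gam_ge
  have : 0 < 1 - a ^ 2 := by nlinarith
  unfold pA; positivity

lemma pb_ge {a b : ℝ} (h1 : -1 ≤ a - b) (h2 : a + b ≤ 1) (hb : 0 ≤ b) :
    1 - a ^ 2 - b ^ 2 ≤ pb a (b ^ 2) := by
  rw [← pb_eq]
  have hg := gam_ge
  have u : 0 ≤ 1 - (a + b) ^ 2 := by nlinarith
  have v : 0 ≤ 1 - (a - b) ^ 2 := by nlinarith
  unfold pA
  nlinarith [mul_nonneg u (mul_nonneg (by linarith : (0:ℝ) ≤ gam) (sq_nonneg (a + b))),
    mul_nonneg v (mul_nonneg (by linarith : (0:ℝ) ≤ gam) (sq_nonneg (a - b)))]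

lemma poly_B1 {u g : ℝ} {s : ℝ} (hu : 0 ≤ u) (hs : 0 ≤ s) (h : u + s ≤ 1)
    (hg0 : 0.27865 ≤ g) (hg1 : g ≤ 0.27866) :
    0.640605 * (2 * (1 - g) + 4 * g * u) * (2 * (1 - g) + 12 * g * u + 4 * g * s) * (1 - u - s)
      ≤ 4 := by
  have a1 : 2 * (1 - g) + 4 * g * u ≤ 1.443 + 1.115 * (u + s) := by nlinarith
  have a2 : 2 * (1 - g) + 12 * g * u + 4 * g * s ≤ 1.443 + 3.345 * (u + s) := by nlinarith
  have b1 : 0 ≤ 2 * (1 - g) + 4 * g * u := by nlinarith
  have b2 : 0 ≤ 2 * (1 - g) + 12 * g * u + 4 * g * s := by nlinarith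
  have w := mul_le_mul_of_nonneg_right (mul_le_mul a1 a2 b2 (by linarith))
    (by linarith : 0 ≤ 1 - u - s)
  nlinarith [sq_nonneg (u + s - 3/10), mul_nonneg (by linarith : 0 ≤ u + s) (sub_nonneg.2 h)]

lemma log_pade_lo {y : ℝ} (hy : 0 ≤ y) : log (1 + y) ≤ y * (6 + y) / (6 + 4 * y) := by
  have hd : ∀ t : ℝ, 0 ≤ t → HasDerivAt (fun t => t * (6 + t) / (6 + 4 * t) - log (1 + t))
      (((6 + 2 * t) * (6 + 4 * t) - t * (6 + t) * 4) / (6 + 4 * t) ^ 2 - 1 / (1 + t)) t := by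
    intro t ht
    refine ((((hasDerivAt_id' t).mul ((hasDerivAt_id' t).const_add (6:ℝ))).div
      (((hasDerivAt_id' t).const_mul (4:ℝ)).const_add (6:ℝ)) (by positivity)).sub
      (((hasDerivAt_id' t).const_add (1:ℝ)).log (by positivity))).congr_deriv ?_
    simp
    ring
  have hm : MonotoneOn (fun t => t * (6 + t) / (6 + 4 * t) - log (1 + t)) (Ici (0:ℝ)) := by
    apply monotoneOn_of_hasDerivWithinAt_nonneg (convex_Ici 0)
      (fun t ht => (hd t ht).continuousAt.continuousWithinAt)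
      (fun t ht => (hd t (interior_subset ht)).hasDerivWithinAt)
    intro t ht
    have ht : 0 ≤ t := interior_subset ht
    rw [div_sub_div _ _ (by positivity) (by positivity)]
    exact div_nonneg (by nlinarith [pow_nonneg ht 3]) (by positivity)
  have := hm self_mem_Ici (mem_Ici.2 hy) hy
  simp at this
  linarith

lemma log_lower {y : ℝ} (hy : 0 ≤ y) : 2 * y / (2 + y) ≤ log (1 + y) := by
  have := le_log_one_add_of_nonneg hy
  rwa [add_comm y 2] at this

lemma poly_endpoint {a : ℝ} (h0 : 0 ≤ a) (h1 : a ≤ 1) :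
    0.640605 * (1 + 2 * 0.27866 * a + 3 * 0.27866 * a ^ 2) *
        (2 * (1 + 0.27866 * a ^ 2) - (1 + a) * (1 + 0.27865 * (2 * a - 1) ^ 2)) *
        (2 * (1 + 0.27866 * a ^ 2) + 5 * ((1 + a) * (1 + 0.27865 * (2 * a - 1) ^ 2))) *
        ((1 - a) ^ 2 + 8 * a) ≤
      4 * (1 - 0.640605 * ((1 - a) ^ 2 * (1 + 2 * 0.27866 * a + 3 * 0.27866 * a ^ 2))) *
        ((1 + a) * (1 + 0.27865 * (2 * a - 1) ^ 2)) *
        (2 * (2 * (1 + 0.27866 * a ^ 2)) + (1 + a) * (1 + 0.27865 * (2 * a - 1) ^ 2)) := by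
  rcases le_total a (1/2) with h | h
  · linarith [mul_nonneg (pow_nonneg (h0) 0) (pow_nonneg (sub_nonneg.2 h) 10), mul_nonneg (pow_nonneg (h0) 1) (pow_nonneg (sub_nonneg.2 h) 9), mul_nonneg (pow_nonneg (h0) 2) (pow_nonneg (sub_nonneg.2 h) 8), mul_nonneg (pow_nonneg (h0) 3) (pow_nonneg (sub_nonneg.2 h) 7), mul_nonneg (pow_nonneg (h0) 4) (pow_nonneg (sub_nonneg.2 h) 6), mul_nonneg (pow_nonneg (h0) 5) (pow_nonneg (sub_nonneg.2 h) 5), mul_nonneg (pow_nonneg (h0) 6) (pow_nonneg (sub_nonneg.2 h) 4), mul_nonneg (pow_nonneg (h0) 7) (pow_nonneg (sub_nonneg.2 h) 3), mul_nonneg (pow_nonneg (h0) 8) (pow_nonneg (sub_nonneg.2 h) 2), mul_nonneg (pow_nonneg (h0) 9) (pow_nonneg (sub_nonneg.2 h) 1), mul_nonneg (pow_nonneg (h0) 10) (pow_nonneg (sub_nonneg.2 h) 0)]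
  · linarith [mul_nonneg (pow_nonneg (sub_nonneg.2 h) 0) (pow_nonneg (sub_nonneg.2 h1) 10), mul_nonneg (pow_nonneg (sub_nonneg.2 h) 1) (pow_nonneg (sub_nonneg.2 h1) 9), mul_nonneg (pow_nonneg (sub_nonneg.2 h) 2) (pow_nonneg (sub_nonneg.2 h1) 8), mul_nonneg (pow_nonneg (sub_nonneg.2 h) 3) (pow_nonneg (sub_nonneg.2 h1) 7), mul_nonneg (pow_nonneg (sub_nonneg.2 h) 4) (pow_nonneg (sub_nonneg.2 h1) 6), mul_nonneg (pow_nonneg (sub_nonneg.2 h) 5) (pow_nonneg (sub_nonneg.2 h1) 5), mul_nonneg (pow_nonneg (sub_nonneg.2 h) 6) (pow_nonneg (sub_nonneg.2 h1) 4), mul_nonneg (pow_nonneg (sub_nonneg.2 h) 7) (pow_nonneg (sub_nonneg.2 h1) 3), mul_nonneg (pow_nonneg (sub_nonneg.2 h) 8) (pow_nonneg (sub_nonneg.2 h1) 2), mul_nonneg (pow_nonneg (sub_nonneg.2 h) 9) (pow_nonneg (sub_nonneg.2 h1) 1), mul_nonneg (pow_nonneg (sub_nonneg.2 h) 10) (pow_nonneg (sub_nonneg.2 h1) 0)]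

/-- The endpoint `b = 1 - a` of B2. -/
lemma endpoint {a : ℝ} (h0 : 0 < a) (h1 : a < 1) :
    kap * ((1 - a) ^ 2 * (1 + 2 * gam * a + 3 * gam * a ^ 2)) *
        log (pA a / pb a ((1 - a) ^ 2)) ≤
      - log (1 - (1 - a) ^ 2 / (1 + a) ^ 2) := by
  have hg0 := gam_ge
  have hg1 := gam_le
  have hk := kap_le
  have hk0 := kap_nonneg
  set T := (1 : ℝ) + 2 * 0.27866 * a + 3 * 0.27866 * a ^ 2 with hT
  set N := (2 : ℝ) * (1 + 0.27866 * a ^ 2) with hN
  set D := (1 + a) * (1 + 0.27865 * (2 * a - 1) ^ 2) with hD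
  have hD0 : 0 < D := by rw [hD]; positivity
  have hN0 : 0 < N := by rw [hN]; positivity
  have hT0 : 0 < T := by rw [hT]; positivity
  set W := (1 + a) ^ 2 / (4 * a) with hW
  have hW1 : 1 ≤ W := by
    rw [hW, le_div_iff₀ (by linarith)]; nlinarith [sq_nonneg (1 - a)]
  have eW : 1 - (1 - a) ^ 2 / (1 + a) ^ 2 = W⁻¹ := by
    rw [hW]; field_simp; ring
  rw [eW, log_inv, neg_neg]
  have hpb : pb a ((1 - a) ^ 2) = 2 * a * (1 - a) * (1 + gam * (2 * a - 1) ^ 2) := by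
    rw [← pb_eq]; unfold pA; ring
  have hpp : 0 < pb a ((1 - a) ^ 2) := by
    rw [hpb]
    have : 0 < 1 - a := by linarith
    have : 0 ≤ gam := by linarith
    positivity
  have hle : pA a / pb a ((1 - a) ^ 2) ≤ W * (N / D) := by
    have e : pA a / pb a ((1 - a) ^ 2) =
        W * (2 * (1 + gam * a ^ 2) / ((1 + a) * (1 + gam * (2 * a - 1) ^ 2))) := by
      have : 1 - a ≠ 0 := by linarith
      have : (0:ℝ) < 1 + gam * (2 * a - 1) ^ 2 := by
        have : 0 ≤ gam := by linarith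
        positivity
      rw [hpb, hW, pA]; field_simp; ring
    rw [e]
    apply mul_le_mul_of_nonneg_left ?_ (by linarith)
    rw [hN, hD]
    gcongr
  have hlog : log (pA a / pb a ((1 - a) ^ 2)) ≤ log W + log (N / D) := by
    rw [← log_mul (by linarith) (div_ne_zero hN0.ne' hD0.ne')]
    exact log_le_log (div_pos (pA_pos (by linarith) h1) hpp) hle
  set X := kap * ((1 - a) ^ 2 * (1 + 2 * gam * a + 3 * gam * a ^ 2)) with hX
  set Xh := (0.640605 : ℝ) * ((1 - a) ^ 2 * T) with hXh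
  have hXX : X ≤ Xh := by
    rw [hX, hXh, hT]; gcongr
  have hX0 : 0 ≤ X := by
    rw [hX]
    have : 0 ≤ gam := by linarith
    positivity
  have hXh1 : Xh ≤ 1 := by rw [hXh, hT]; nlinarith [mul_pos h0 (sub_pos.2 h1)]
  refine (mul_le_mul_of_nonneg_left hlog hX0).trans ?_
  have hlW : 0 ≤ log W := log_nonneg hW1
  rcases le_total N D with hnd | hnd
  · have : log (N / D) ≤ 0 := log_nonpos (by positivity) ((div_le_one hD0).2 hnd)
    nlinarith [mul_le_mul_of_nonneg_left this hX0,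
      mul_le_mul_of_nonneg_right (hXX.trans hXh1) hlW]
  · have hy : 0 ≤ (N - D) / D := div_nonneg (by linarith) hD0.le
    have hp := log_pade_lo hy
    rw [show 1 + (N - D) / D = N / D by field_simp; ring,
      show (N - D) / D * (6 + (N - D) / D) / (6 + 4 * ((N - D) / D)) =
        (N - D) * (N + 5 * D) / (2 * D * (2 * N + D)) by field_simp; ring] at hp
    have hl := log_lower (by linarith : 0 ≤ W - 1)
    rw [show 1 + (W - 1) = W by ring,
      show 2 * (W - 1) / (2 + (W - 1)) = 2 * (1 - a) ^ 2 / ((1 - a) ^ 2 + 8 * a) by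
        have e1 : W - 1 = (1 - a) ^ 2 / (4 * a) := by
          rw [hW, div_sub_one (by positivity)]; congr 1; ring
        rw [e1, mul_div_assoc', show 2 + (1 - a) ^ 2 / (4 * a) = ((1 - a) ^ 2 + 8 * a) / (4 * a) by
          field_simp; ring, div_div_div_cancel_right₀ (by positivity : (4 * a : ℝ) ≠ 0)]] at hl
    have hnd0 : 0 ≤ log (N / D) := log_nonneg ((one_le_div hD0).2 hnd)
    have key : Xh * ((N - D) * (N + 5 * D) / (2 * D * (2 * N + D))) ≤
        (1 - Xh) * (2 * (1 - a) ^ 2 / ((1 - a) ^ 2 + 8 * a)) := by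
      rw [mul_div_assoc', mul_div_assoc', div_le_div_iff₀ (by positivity) (by positivity)]
      have h := mul_le_mul_of_nonneg_right (poly_endpoint h0.le h1.le) (sq_nonneg (1 - a))
      simp only [← hT, ← hN, ← hD] at h
      rw [hXh]
      linarith
    have t1 : X * log (N / D) ≤ Xh * ((N - D) * (N + 5 * D) / (2 * D * (2 * N + D))) :=
      mul_le_mul hXX hp hnd0 (hX0.trans hXX)
    have t2 : (1 - Xh) * (2 * (1 - a) ^ 2 / ((1 - a) ^ 2 + 8 * a)) ≤ (1 - X) * log W :=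
      mul_le_mul (by linarith) hl (by positivity) (by linarith)
    linarith

end Vale.Agent.P322.Sc2

namespace Vale.Agent.P322

open Real Set Sc2

/-- Lemma B1. -/
theorem B1 {a b : ℝ} (ha : 0 ≤ a) (hb : 0 ≤ b) (hab : a + b < 1) :
    (2 * (1 - gam) * a + 4 * gam * a ^ 3) *
      (kap * Real.log (pA a / ((pA (a + b) + pA (a - b)) / 2))) ≤
      Ar (a + b) + Ar (a - b) - 2 * Ar a := by
  have hg0 := gam_ge
  have hg1 := gam_le
  have hk := kap_le
  have hk0 := kap_nonneg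
  rw [pb_eq]
  let c := (2 * (1 - gam) * a + 4 * gam * a ^ 3) * kap
  let f := fun x => Ar (a + x) + Ar (a - x) - 2 * Ar a - c * (log (pA a) - log (pb a (x ^ 2)))
  have hpos : ∀ x ∈ Icc 0 b, 0 < pb a (x ^ 2) := fun x hx => by
    rw [← pb_eq]
    have := pA_pos (a := a + x) (by linarith [hx.1]) (by linarith [hx.2])
    have := pA_pos (a := a - x) (by linarith [hx.2]) (by linarith [hx.1])
    linarith
  have hd : ∀ x ∈ Icc 0 b, HasDerivAt f
      (1 / (1 - (a + x) ^ 2) - 1 / (1 - (a - x) ^ 2)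
        - c * ((2 * x * (1 - gam + 6 * gam * a ^ 2) + 4 * gam * x ^ 3) / pb a (x ^ 2))) x := by
    intro x hx
    have h1 := (hasDerivAt_Ar (r := a + x) (by linarith [hx.1]) (by linarith [hx.2])).comp x
      ((hasDerivAt_id' x).const_add a)
    have h2 := (hasDerivAt_Ar (r := a - x) (by linarith [hx.2]) (by linarith [hx.1])).comp x
      ((hasDerivAt_id' x).const_sub a)
    have h3 : HasDerivAt (fun x => pb a (x ^ 2))
        (-(2 * x * (1 - gam + 6 * gam * a ^ 2) + 4 * gam * x ^ 3)) x := by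
      unfold pb
      refine ((((hasDerivAt_pow 2 x).const_mul (1 - gam + 6 * gam * a ^ 2)).const_sub (pA a)).sub
        (((hasDerivAt_pow 2 x).pow 2).const_mul gam)).congr_deriv ?_
      push_cast; ring
    refine (((h1.add h2).sub_const (2 * Ar a)).sub
      (((h3.log (hpos x hx).ne').const_sub (log (pA a))).const_mul c)).congr_deriv ?_
    ring
  have hm : MonotoneOn f (Icc 0 b) := by
    apply monotoneOn_of_hasDerivWithinAt_nonneg (convex_Icc 0 b)
      (fun x hx => (hd x hx).continuousAt.continuousWithinAt)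
      (fun x hx => (hd x (interior_subset hx)).hasDerivWithinAt)
    intro x hx
    obtain ⟨x0, x1⟩ := interior_subset hx
    have u : 0 < 1 - (a + x) ^ 2 := by nlinarith
    have v : 0 < 1 - (a - x) ^ 2 := by nlinarith
    have hp := hpos x ⟨x0, x1⟩
    have hge := pb_ge (a := a) (by linarith) (by linarith) x0
    have hP := poly_B1 (u := a ^ 2) (s := x ^ 2) (sq_nonneg a) (sq_nonneg x) (by nlinarith) hg0 hg1
    have hG : 0 ≤ 1 - a ^ 2 - x ^ 2 := by nlinarith
    have hamgm : (1 - (a + x) ^ 2) * (1 - (a - x) ^ 2) ≤ (1 - a ^ 2 - x ^ 2) ^ 2 := by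
      nlinarith [sq_nonneg (a * x)]
    have b1 : 0 ≤ 2 * (1 - gam) + 4 * gam * a ^ 2 := by nlinarith
    have b2 : 0 ≤ 2 * (1 - gam) + 12 * gam * a ^ 2 + 4 * gam * x ^ 2 := by nlinarith
    have key : kap * (2 * (1 - gam) + 4 * gam * a ^ 2) *
        (2 * (1 - gam) + 12 * gam * a ^ 2 + 4 * gam * x ^ 2) *
        ((1 - (a + x) ^ 2) * (1 - (a - x) ^ 2)) ≤ 4 * pb a (x ^ 2) := by
      calc _ ≤ (0.640605 * (2 * (1 - gam) + 4 * gam * a ^ 2) *
            (2 * (1 - gam) + 12 * gam * a ^ 2 + 4 * gam * x ^ 2) * (1 - a ^ 2 - x ^ 2)) *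
            (1 - a ^ 2 - x ^ 2) := by
              rw [mul_assoc _ (1 - a ^ 2 - x ^ 2), ← sq]; gcongr
        _ ≤ 4 * (1 - a ^ 2 - x ^ 2) := mul_le_mul_of_nonneg_right hP hG
        _ ≤ 4 * pb a (x ^ 2) := by linarith
    rw [sub_nonneg, div_sub_div _ _ u.ne' v.ne', mul_div_assoc', div_le_div_iff₀ hp (by positivity)]
    have := mul_le_mul_of_nonneg_left key (mul_nonneg ha x0)
    simp only [c]
    linarith
  have h := hm ⟨le_rfl, hb⟩ ⟨hb, le_rfl⟩ hb
  have e0 : pb a (0 ^ 2) = pA a := by simp [pb]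
  simp only [f, c, e0, add_zero, sub_zero, sub_self] at h
  rw [log_div (pA_pos (by linarith) (by linarith)).ne' (hpos b ⟨hb, le_rfl⟩).ne']
  linarith

/-- Lemma B2. -/
theorem B2 {a b : ℝ} (ha : 0 ≤ a) (hb : 0 ≤ b) (hab : a + b < 1) :
    kap * ((1 - a) ^ 2 * (1 + 2 * gam * a + 3 * gam * a ^ 2)) *
      Real.log (pA a / ((pA (a + b) + pA (a - b)) / 2)) ≤
      - Real.log (1 - b ^ 2 / (1 + a) ^ 2) := by
  have hg0 := gam_ge
  have hg1 := gam_le
  have hk := kap_le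
  have hk0 := kap_nonneg
  rw [pb_eq]
  have ha1 : a < 1 := by linarith
  set K := kap * ((1 - a) ^ 2 * (1 + 2 * gam * a + 3 * gam * a ^ 2)) with hK
  have hK0 : 0 ≤ K := by
    rw [hK]
    have : 0 ≤ gam := by linarith
    positivity
  have hK1 : K ≤ 0.640605 * ((1 - a) ^ 2 * (1 + 2 * 0.27866 * a + 3 * 0.27866 * a ^ 2)) := by
    rw [hK]
    have : 0 ≤ gam := by linarith
    gcongr
  have hK1' : K ≤ 2/3 := by nlinarith [mul_nonneg ha (sub_nonneg.2 ha1.le)]
  rcases ha.eq_or_lt with rfl | ha0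
  · have hb1 : 0 < 1 - b ^ 2 := by nlinarith
    have hp : 0 < 1 + gam * b ^ 2 := by nlinarith
    have e : pb 0 (b ^ 2) = (1 - b ^ 2) * (1 + gam * b ^ 2) := by unfold pb pA; ring
    rw [e, show pA (0:ℝ) = 1 by simp [pA], one_div, log_inv, log_mul hb1.ne' hp.ne',
      show (1:ℝ) - b ^ 2 / (1 + 0) ^ 2 = 1 - b ^ 2 by ring]
    have l1 : log (1 - b ^ 2) ≤ 0 := log_nonpos hb1.le (by nlinarith)
    have l2 : 0 ≤ log (1 + gam * b ^ 2) := log_nonneg (by nlinarith)
    nlinarith [mul_nonneg hK0 l2, mul_nonpos_of_nonneg_of_nonpos (by linarith : (0:ℝ) ≤ 1 - K) l1]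
  set U := (1 - a) ^ 2 with hU
  have hb' : b ^ 2 ≤ U := pow_le_pow_left₀ hb (by linarith) 2
  have hUW : U < (1 + a) ^ 2 := by rw [hU]; nlinarith
  have hpos : ∀ s ∈ Icc 0 U, 0 < pb a s := by
    intro s hs
    have hs' : 1 - a ^ 2 - (√s) ^ 2 ≤ pb a ((√s) ^ 2) := by
      have hr : √s ≤ 1 - a := Real.sqrt_le_iff.2 ⟨by linarith, hs.2⟩
      exact pb_ge (by linarith) (by linarith) (Real.sqrt_nonneg s)
    rw [Real.sq_sqrt hs.1] at hs'
    have : 0 < 1 - a ^ 2 - s := by nlinarith [hs.2, mul_pos ha0 (sub_pos.2 ha1)]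
    linarith
  let f := fun s => -log (1 - s / (1 + a) ^ 2) - K * (log (pA a) - log (pb a s))
  let num := fun s => pb a s - K * (1 - gam + 6 * gam * a ^ 2 + 2 * gam * s) * ((1 + a) ^ 2 - s)
  have hd : ∀ s ∈ Icc 0 U, HasDerivAt f (num s / (((1 + a) ^ 2 - s) * pb a s)) s := by
    intro s hs
    have hp := hpos s hs
    have hW : 0 < (1 + a) ^ 2 - s := by linarith [hs.2]
    have hne : 1 - s / (1 + a) ^ 2 ≠ 0 := by
      rw [sub_ne_zero, ne_comm, ne_eq, div_eq_one_iff_eq (by positivity)]; linarith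
    have h3 : HasDerivAt (fun s => pb a s) (-(1 - gam + 6 * gam * a ^ 2 + 2 * gam * s)) s := by
      unfold pb
      refine ((((hasDerivAt_id' s).const_mul (1 - gam + 6 * gam * a ^ 2)).const_sub (pA a)).sub
        ((hasDerivAt_pow 2 s).const_mul gam)).congr_deriv ?_
      push_cast; ring
    refine (((((hasDerivAt_id' s).div_const ((1 + a) ^ 2)).const_sub 1).log hne).neg.sub
      (((h3.log hp.ne').const_sub (log (pA a))).const_mul K)).congr_deriv ?_
    simp only [num]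
    have hw : (1 + a) ^ 2 ≠ 0 := by positivity
    generalize pb a s = P at hp ⊢
    generalize (1 + a) ^ 2 = W at hW hw ⊢
    generalize 1 - gam + 6 * gam * a ^ 2 + 2 * gam * s = C
    have : W - s ≠ 0 := hW.ne'
    rw [show 1 - s / W = (W - s) / W by field_simp]
    field_simp
  have hanti : ∀ s t, 0 ≤ s → s ≤ t → t ≤ U → num t ≤ num s := by
    intro s t hs hst ht
    have key : num s - num t = (t - s) * ((1 - gam + 6 * gam * a ^ 2) * (1 - K)
        + gam * ((s + t) * (1 - 2 * K) + 2 * K * (1 + a) ^ 2)) := by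
      simp only [num, pb]; ring
    have : 0 ≤ (1 - gam + 6 * gam * a ^ 2) * (1 - K) := by
      apply mul_nonneg <;> nlinarith
    have : 0 ≤ (s + t) * (1 - 2 * K) + 2 * K * (1 + a) ^ 2 := by
      have : 0 ≤ (1 - K) * (s + t) := mul_nonneg (by linarith) (by linarith)
      nlinarith [mul_nonneg hK0 (by linarith : 0 ≤ 2 * (1 + a) ^ 2 - (s + t))]
    have : 0 ≤ num s - num t := by
      rw [key]; apply mul_nonneg (by linarith); nlinarith
    linarith
  have f0 : f 0 = 0 := by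
    have : pb a 0 = pA a := by simp [pb]
    simp [f, this]
  have hU0 : 0 ≤ U := by positivity
  have hden : ∀ s ∈ Icc 0 U, 0 < ((1 + a) ^ 2 - s) * pb a s :=
    fun s hs => mul_pos (by linarith [hs.2]) (hpos s hs)
  have hfb : 0 ≤ f (b ^ 2) := by
    have hs0 : (0:ℝ) ≤ b ^ 2 := sq_nonneg b
    rcases le_total 0 (num (b ^ 2)) with h | h
    · have hsub : Icc 0 (b ^ 2) ⊆ Icc 0 U := Icc_subset_Icc le_rfl hb'
      have hm : MonotoneOn f (Icc 0 (b ^ 2)) :=
        monotoneOn_of_hasDerivWithinAt_nonneg (convex_Icc _ _)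
          (fun s hs => (hd s (hsub hs)).continuousAt.continuousWithinAt)
          (fun s hs => (hd s (hsub (interior_subset hs))).hasDerivWithinAt)
          (fun s hs => div_nonneg
            (h.trans (hanti s _ (interior_subset hs).1 (interior_subset hs).2 hb'))
            (hden s (hsub (interior_subset hs))).le)
      have := hm ⟨le_rfl, hs0⟩ ⟨hs0, le_rfl⟩ hs0
      linarith
    · have hsub : Icc (b ^ 2) U ⊆ Icc 0 U := Icc_subset_Icc hs0 le_rfl
      have hm : AntitoneOn f (Icc (b ^ 2) U) :=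
        antitoneOn_of_hasDerivWithinAt_nonpos (convex_Icc _ _)
          (fun s hs => (hd s (hsub hs)).continuousAt.continuousWithinAt)
          (fun s hs => (hd s (hsub (interior_subset hs))).hasDerivWithinAt)
          (fun s hs => div_nonpos_of_nonpos_of_nonneg
            ((hanti _ s hs0 (interior_subset hs).1 (interior_subset hs).2).trans h)
            (hden s (hsub (interior_subset hs))).le)
      have h2 := hm ⟨le_rfl, hb'⟩ ⟨hb', le_rfl⟩ hb'
      have hU' : 0 ≤ f U := by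
        have h3 := endpoint ha0 ha1
        rw [← hU, ← hK, log_div (pA_pos (by linarith) ha1).ne' (hpos U ⟨hU0, le_rfl⟩).ne'] at h3
        exact sub_nonneg.2 h3
      linarith
  rw [log_div (pA_pos (by linarith) ha1).ne' (hpos _ ⟨sq_nonneg b, hb'⟩).ne']
  exact sub_nonneg.1 hfb

end Vale.Agent.P322
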