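import Vale.Agent.P322.Defs

/-!
Elementary facts about `hr`, `Ar` and the substitution `r = tanh z`.
-/

namespace Vale.Agent.P322.Sc

open Real

noncomputable section

lemma hasDerivAt_hr {x : ℝ} (h₁ : -1 < x) (h₂ : x < 1) : HasDerivAt hr (-Ar x) x := by
  have hb := hasDerivAt_binEntropy (p := (1 - x) / 2) (by linarith) (by linarith)
  have hl : HasDerivAt (fun t : ℝ => (1 - t) / 2) (-1 / 2) x := by
    simpa using ((hasDerivAt_id x).const_sub (1 : ℝ)).div_const 2
  refine (hb.comp x hl).congr_deriv ?_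
  rw [show (1 : ℝ) - (1 - x) / 2 = (1 + x) / 2 by ring,
    log_div (by linarith) (by norm_num), log_div (by linarith) (by norm_num), Ar]
  ring

lemma hasDerivAt_Ar {x : ℝ} (h₁ : -1 < x) (h₂ : x < 1) :
    HasDerivAt Ar (1 / (1 - x ^ 2)) x := by
  have hp : (1 : ℝ) + x ≠ 0 := by linarith
  have hm : (1 : ℝ) - x ≠ 0 := by linarith
  refine (((((hasDerivAt_id' x).const_add (1 : ℝ)).log hp).sub
    (((hasDerivAt_id' x).const_sub (1 : ℝ)).log hm)).div_const 2).congr_deriv ?_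
  have : (1 : ℝ) - x ^ 2 ≠ 0 := by nlinarith
  field_simp
  ring

lemma continuous_hr : Continuous hr := by
  unfold hr; fun_prop

lemma hr_pos {x : ℝ} (h₁ : -1 < x) (h₂ : x < 1) : 0 < hr x :=
  binEntropy_pos (by linarith) (by linarith)

lemma hr_zero : hr 0 = log 2 := by
  simp only [hr, sub_zero, one_div, binEntropy_two_inv]

lemma hr_one : hr 1 = 0 := by
  simp [hr]

lemma hr_neg (x : ℝ) : hr (-x) = hr x := by
  unfold hr
  rw [show (1 - -x) / 2 = 1 - (1 - x) / 2 by ring, binEntropy_one_sub]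

lemma Ar_zero : Ar 0 = 0 := by simp [Ar]

lemma Ar_neg (x : ℝ) : Ar (-x) = -Ar x := by
  simp only [Ar, sub_neg_eq_add, ← sub_eq_add_neg]; ring

lemma Ar_le_Ar {x y : ℝ} (h₁ : -1 < x) (hxy : x ≤ y) (h₂ : y < 1) : Ar x ≤ Ar y := by
  have a := log_le_log (by linarith : (0 : ℝ) < 1 + x) (by linarith : 1 + x ≤ 1 + y)
  have b := log_le_log (by linarith : (0 : ℝ) < 1 - y) (by linarith : 1 - y ≤ 1 - x)
  unfold Ar; linarith

lemma Ar_nonneg {x : ℝ} (h₁ : 0 ≤ x) (h₂ : x < 1) : 0 ≤ Ar x := by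
  simpa [Ar_zero] using Ar_le_Ar (x := 0) (by norm_num) h₁ h₂

lemma tanh_eq_y (z : ℝ) : tanh z = (1 - exp (-2 * z)) / (1 + exp (-2 * z)) := by
  have he : exp (-2 * z) = exp (-z) * exp (-z) := by rw [← exp_add]; ring_nf
  have h1 : exp z * exp (-z) = 1 := by rw [← exp_add]; simp
  rw [tanh_eq, he, div_eq_div_iff (by positivity) (by positivity)]
  linear_combination (2 * exp (-z)) * h1

lemma neg_one_lt_tanh' (z : ℝ) : -1 < tanh z := by
  have := abs_lt.1 (abs_tanh_lt_one z)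
  exact this.1

lemma Ar_tanh (z : ℝ) : Ar (tanh z) = z := by
  have hy : 0 < exp (-2 * z) := exp_pos _
  unfold Ar
  rw [tanh_eq_y z]
  rw [show 1 + (1 - exp (-2 * z)) / (1 + exp (-2 * z)) = 2 / (1 + exp (-2 * z)) by
      field_simp; ring,
    show 1 - (1 - exp (-2 * z)) / (1 + exp (-2 * z)) =
      2 * exp (-2 * z) / (1 + exp (-2 * z)) by field_simp; ring,
    log_div (by norm_num) (by positivity), log_div (by positivity) (by positivity),
    log_mul (by norm_num) hy.ne', log_exp]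
  ring

/-- `hr (tanh z)` in terms of `y = exp (-2z)`. -/
lemma hr_tanh (z : ℝ) :
    hr (tanh z) = log (1 + exp (-2 * z)) + 2 * z * exp (-2 * z) / (1 + exp (-2 * z)) := by
  have hy : 0 < exp (-2 * z) := exp_pos _
  unfold hr binEntropy
  rw [tanh_eq_y z]
  rw [show (1 - (1 - exp (-2 * z)) / (1 + exp (-2 * z))) / 2 =
      exp (-2 * z) / (1 + exp (-2 * z)) by field_simp; ring]
  rw [show 1 - exp (-2 * z) / (1 + exp (-2 * z)) = 1 / (1 + exp (-2 * z)) by
      field_simp; ring, inv_div, inv_div, div_one, log_div (by positivity) hy.ne', log_exp]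
  field_simp
  ring

lemma cosh_sq_eq_y (z : ℝ) :
    cosh z ^ 2 = (1 + exp (-2 * z)) ^ 2 / (4 * exp (-2 * z)) := by
  have he : exp (-2 * z) = exp (-z) * exp (-z) := by rw [← exp_add]; ring_nf
  have h1 : exp z * exp (-z) = 1 := by rw [← exp_add]; simp
  rw [cosh_eq, he, div_pow, div_eq_div_iff (by norm_num) (by positivity)]
  linear_combination (4 * (exp z * exp (-z) + 1) + 8 * exp (-z) ^ 2) * h1

lemma one_sub_tanh_sq (z : ℝ) : 1 - tanh z ^ 2 = 1 / cosh z ^ 2 := by
  have hc := (cosh_pos z).ne'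
  rw [tanh_eq_sinh_div_cosh, div_pow, eq_div_iff (by positivity), sub_mul,
    div_mul_cancel₀ _ (by positivity)]
  linarith [cosh_sq_sub_sinh_sq z]

lemma hasDerivAt_tanh' (z : ℝ) : HasDerivAt tanh (1 - tanh z ^ 2) z := by
  have h := (hasDerivAt_sinh z).div (hasDerivAt_cosh z) (cosh_pos z).ne'
  have he : (fun t => sinh t / cosh t) = tanh := by
    funext t; rw [tanh_eq_sinh_div_cosh]
  rw [← he]
  refine h.congr_deriv ?_
  have hc := (cosh_pos z).ne'
  field_simp

lemma hasDerivAt_hr_tanh (z : ℝ) :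
    HasDerivAt (fun t => hr (tanh t)) (-(z / cosh z ^ 2)) z := by
  refine ((hasDerivAt_hr (neg_one_lt_tanh' z) (tanh_lt_one z)).comp z
    (hasDerivAt_tanh' z)).congr_deriv ?_
  rw [Ar_tanh, one_sub_tanh_sq]
  ring

lemma continuous_hr_tanh : Continuous fun t => hr (tanh t) :=
  continuous_iff_continuousAt.2 fun z => (hasDerivAt_hr_tanh z).continuousAt

lemma tanh_Ar {r : ℝ} (h₁ : -1 < r) (h₂ : r < 1) : tanh (Ar r) = r := by
  have hp : (0 : ℝ) < 1 + r := by linarith
  have hm : (0 : ℝ) < 1 - r := by linarith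
  rw [tanh_eq_y, Ar, show -2 * ((log (1 + r) - log (1 - r)) / 2) = log (1 - r) - log (1 + r) by ring,
    exp_sub, exp_log hm, exp_log hp]
  field_simp
  ring

end

end Vale.Agent.P322.Sc
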