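import Vale.Agent.P322.Inverse
import Vale.Agent.P322.ScalarBasics

/-!
The quartic bound on `phiR` and the one-point (`n = 1`) inequality.
-/

namespace Vale.Agent.P322

open Real Set

theorem phiR_quartic {a : ℝ} (h1 : -1 ≤ a) (h2 : a ≤ 1) :
    phiR a ≤ a ^ 2 / 2 + (log 2 - 1 / 2) * a ^ 4 := by
  wlog ha : 0 ≤ a generalizing a with H
  · have := H (a := -a) (by linarith) (by linarith) (by linarith)
    rw [phiR_neg] at this
    linarith [show (-a) ^ 2 = a ^ 2 by ring, show (-a) ^ 4 = a ^ 4 by ring,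
      mul_comm (log 2 - 1/2) ((-a) ^ 4), congrArg (fun t => (log 2 - 1/2) * t) (show (-a) ^ 4 = a ^ 4 by ring)]
  have hL0 := log_two_gt_d9
  have hL1 := log_two_lt_d9
  set q := log 2 - 1 / 2 with hq
  have hq0 : 0.19 < q := by rw [hq]; linarith
  set F := fun x : ℝ => x ^ 2 / 2 + q * x ^ 4 - phiR x with hF
  set F' := fun x : ℝ => x + 4 * q * x ^ 3 - Ar x with hF'
  have hd : ∀ x, 0 ≤ x → x < 1 → HasDerivAt F (F' x) x := by
    intro x x0 x1
    refine ((((hasDerivAt_pow 2 x).div_const 2).add ((hasDerivAt_pow 4 x).const_mul q)).sub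
      (hasDerivAt_phiR (by linarith) x1)).congr_deriv ?_
    simp only [hF']; push_cast; ring
  have hd' : ∀ x, 0 ≤ x → x < 1 → HasDerivAt F' (1 + 12 * q * x ^ 2 - 1 / (1 - x ^ 2)) x := by
    intro x x0 x1
    refine (((hasDerivAt_id' x).add ((hasDerivAt_pow 3 x).const_mul (4 * q))).sub
      (hasDerivAt_Ar (by linarith) x1)).congr_deriv ?_
    push_cast; ring
  have hsign : ∀ x, 0 ≤ x → x < 1 → (1 + 12 * q * x ^ 2 - 1 / (1 - x ^ 2)) * (1 - x ^ 2) =
      x ^ 2 * (12 * q - 1 - 12 * q * x ^ 2) := by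
    intro x x0 x1
    have : (1:ℝ) - x ^ 2 ≠ 0 := by nlinarith
    field_simp; ring
  set m := √(1 - 1 / (12 * q)) with hm
  have hm2 : m ^ 2 = 1 - 1 / (12 * q) := by
    rw [hm, sq_sqrt]
    rw [sub_nonneg, div_le_one (by linarith)]; linarith
  have hq12 : 12 * q * m ^ 2 = 12 * q - 1 := by
    rw [hm2]; field_simp
  have hm0 : 0 ≤ m := sqrt_nonneg _
  have hm1 : m < 1 := by nlinarith [one_div_pos.2 (show (0:ℝ) < 12 * q by linarith)]
  have F0 : F 0 = 0 := by simp [hF]
  have F1 : F 1 = 0 := by simp [hF, phiR, hq]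
  have hlow : ∀ x, 0 ≤ x → x ≤ m → 0 ≤ F x := by
    intro x x0 xm
    have hmono' : MonotoneOn F' (Icc 0 m) := by
      refine monotoneOn_of_hasDerivWithinAt_nonneg (convex_Icc 0 m)
        (fun y hy => (hd' y hy.1 (hy.2.trans_lt hm1)).continuousAt.continuousWithinAt)
        (fun y hy => (hd' y (interior_subset hy).1
          ((interior_subset hy).2.trans_lt hm1)).hasDerivWithinAt) fun y hy => ?_
      obtain ⟨y0, ym⟩ := interior_subset hy
      have hy1 : y < 1 := ym.trans_lt hm1
      have e := hsign y y0 hy1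
      have hpos : 0 < 1 - y ^ 2 := by nlinarith
      have : 12 * q * y ^ 2 ≤ 12 * q * m ^ 2 :=
        mul_le_mul_of_nonneg_left (pow_le_pow_left₀ y0 ym 2) (by linarith)
      have h0 : 0 ≤ x ^ 2 := sq_nonneg x
      exact nonneg_of_mul_nonneg_left (e ▸ mul_nonneg (sq_nonneg y) (by linarith)) hpos
    have hmono : MonotoneOn F (Icc 0 m) := by
      refine monotoneOn_of_hasDerivWithinAt_nonneg (convex_Icc 0 m)
        (fun y hy => (hd y hy.1 (hy.2.trans_lt hm1)).continuousAt.continuousWithinAt)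
        (fun y hy => (hd y (interior_subset hy).1
          ((interior_subset hy).2.trans_lt hm1)).hasDerivWithinAt) fun y hy => ?_
      have := hmono' ⟨le_rfl, hm0⟩ (interior_subset hy) (interior_subset hy).1
      simpa [hF'] using this
    have := hmono ⟨le_rfl, hm0⟩ ⟨x0, xm⟩ x0
    linarith
  have key : 0 ≤ F a := by
    rcases le_total a m with h | h
    · exact hlow a ha h
    rcases h2.eq_or_lt with rfl | a1
    · exact F1.ge
    have hanti' : AntitoneOn F' (Ico m 1) := by
      refine antitoneOn_of_hasDerivWithinAt_nonpos (convex_Ico m 1)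
        (fun y hy => (hd' y (hm0.trans hy.1) hy.2).continuousAt.continuousWithinAt)
        (fun y hy => (hd' y (hm0.trans (interior_subset hy).1)
          (interior_subset hy).2).hasDerivWithinAt) fun y hy => ?_
      obtain ⟨ym, y1⟩ := interior_subset hy
      have e := hsign y (hm0.trans ym) y1
      have hpos : 0 < 1 - y ^ 2 := by nlinarith
      have : 12 * q * m ^ 2 ≤ 12 * q * y ^ 2 :=
        mul_le_mul_of_nonneg_left (pow_le_pow_left₀ hm0 ym 2) (by linarith)
      exact nonpos_of_mul_nonpos_left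
        (e ▸ mul_nonpos_of_nonneg_of_nonpos (sq_nonneg y) (by linarith)) hpos
    rcases le_total 0 (F' a) with hs | hs
    · have hmono : MonotoneOn F (Icc m a) := by
        refine monotoneOn_of_hasDerivWithinAt_nonneg (convex_Icc m a)
          (fun y hy => (hd y (hm0.trans hy.1) (hy.2.trans_lt a1)).continuousAt.continuousWithinAt)
          (fun y hy => (hd y (hm0.trans (interior_subset hy).1)
            ((interior_subset hy).2.trans_lt a1)).hasDerivWithinAt) fun y hy => ?_
        obtain ⟨ym, ya⟩ := interior_subset hy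
        exact hs.trans (hanti' ⟨ym, ya.trans_lt a1⟩ ⟨h, a1⟩ ya)
      have := hmono ⟨le_rfl, h⟩ ⟨h, le_rfl⟩ h
      linarith [hlow m hm0 le_rfl]
    · have hcF : Continuous F := by
        simp only [hF, phiR]
        have := continuous_hr
        fun_prop
      have hanti : AntitoneOn F (Icc a 1) := by
        refine antitoneOn_of_hasDerivWithinAt_nonpos (convex_Icc a 1) hcF.continuousOn
          (fun y hy => (hd y ?_ ?_).hasDerivWithinAt) fun y hy => ?_
        · rw [interior_Icc] at hy; linarith [hy.1]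
        · rw [interior_Icc] at hy; exact hy.2
        · rw [interior_Icc] at hy
          exact (hanti' ⟨h, a1⟩ ⟨h.trans hy.1.le, hy.2⟩ hy.1.le).trans hs
      have := hanti ⟨le_rfl, h2⟩ ⟨h2, le_rfl⟩ h2
      linarith
  simp only [hF] at key
  linarith

theorem log_two_mul_pA_le_hr {a : ℝ} (h1 : -1 ≤ a) (h2 : a ≤ 1) :
    log 2 * pA a ≤ hr a := by
  have h := phiR_quartic h1 h2
  have hL := log_two_gt_d9
  have e : log 2 * pA a = log 2 - (a ^ 2 / 2 + (log 2 - 1 / 2) * a ^ 4) := by
    unfold pA gam; field_simp; ring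
  unfold phiR at h
  linarith

theorem phiR_le_quartic (a : ℝ) (h : |a| ≤ 1) :
    phiR a ≤ a ^ 2 / 2 + (log 2 - 1 / 2) * a ^ 4 :=
  phiR_quartic (abs_le.1 h).1 (abs_le.1 h).2

theorem log_two_mul_pA_le (a : ℝ) (h : |a| ≤ 1) : log 2 * pA a ≤ hr a :=
  log_two_mul_pA_le_hr (abs_le.1 h).1 (abs_le.1 h).2

namespace Sc3

lemma exp_two_B {u v : ℝ} (u1 : -1 < u) (u2 : u < 1) (v1 : -1 < v) (v2 : v < 1) :
    exp (Ar u - Ar v) = (1 + u) * (1 - v) / √((1 - u ^ 2) * (1 - v ^ 2)) := by
  have a : 0 < 1 + u := by linarith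
  have b : 0 < 1 - u := by linarith
  have c : 0 < 1 + v := by linarith
  have d : 0 < 1 - v := by linarith
  rw [show (1 - u ^ 2) * (1 - v ^ 2) = ((1 + u) * (1 - u)) * ((1 + v) * (1 - v)) by ring]
  rw [eq_div_iff (by positivity), ← exp_log (by positivity :
    (0:ℝ) < √(((1 + u) * (1 - u)) * ((1 + v) * (1 - v)))), ← exp_add,
    log_sqrt (by positivity), log_mul (by positivity) (by positivity),
    log_mul a.ne' b.ne', log_mul c.ne' d.ne',
    show (1 + u) * (1 - v) = exp (log (1 + u) + log (1 - v)) by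
      rw [exp_add, exp_log a, exp_log d]]
  congr 1
  unfold Ar
  ring

/-- The two algebraic facts about `r₀ = tanh B`, `B = (Ar (c+x) - Ar (c-x)) / 2`. -/
lemma r0_facts {c x : ℝ} (hc : 0 ≤ c) (hx : 0 ≤ x) (h : c + x < 1) :
    let r := tanh ((Ar (c + x) - Ar (c - x)) / 2)
    let av := (1 / (1 - (c + x) ^ 2) + 1 / (1 - (c - x) ^ 2)) / 2
    r / (1 - r ^ 2) ≤ x * av ∧ 1 / (1 - c ^ 2) ≤ av * (1 - r ^ 2) := by
  intro r av
  set u := c + x with hu
  set v := c - x with hv
  have gu : 0 < 1 - u ^ 2 := by nlinarith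
  have gv : 0 < 1 - v ^ 2 := by nlinarith
  have gc : 0 < 1 - c ^ 2 := by nlinarith
  set P := √((1 - u ^ 2) * (1 - v ^ 2)) with hP
  have hP0 : 0 < P := by positivity
  have hP2 : P ^ 2 = (1 - u ^ 2) * (1 - v ^ 2) := sq_sqrt (by positivity)
  have hB : exp (Ar u - Ar v) = (1 + u) * (1 - v) / P :=
    exp_two_B (by linarith) (by linarith) (by linarith) (by linarith)
  set E := exp (Ar u - Ar v) with hE
  have hE0 : 0 < E := exp_pos _
  have hr' : r = (E - 1) / (E + 1) := by
    have hy : exp (-2 * ((Ar u - Ar v) / 2)) = 1 / E := by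
      rw [show -2 * ((Ar u - Ar v) / 2) = -(Ar u - Ar v) by ring, exp_neg, hE, one_div]
    show tanh ((Ar u - Ar v) / 2) = _
    rw [Sc.tanh_eq_y, hy]
    field_simp
  have hEi : 1 / E = (1 - u) * (1 + v) / P := by
    rw [hB, one_div_div, div_eq_div_iff (mul_ne_zero (by linarith) (by linarith)) hP0.ne']
    linear_combination hP2
  have e1 : r / (1 - r ^ 2) = x / P := by
    rw [hr']
    have : ((E - 1) / (E + 1)) / (1 - ((E - 1) / (E + 1)) ^ 2) = (E - 1 / E) / 4 := by
      have : E + 1 ≠ 0 := by linarith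
      rw [show 1 - ((E - 1) / (E + 1)) ^ 2 = 4 * E / (E + 1) ^ 2 by field_simp; ring]
      field_simp
      ring
    rw [this, hEi, hB, hu, hv]
    field_simp
    ring
  have huv : 0 < 1 - u * v + P := by rw [hu, hv]; nlinarith
  have e2 : 1 - r ^ 2 = 2 * P / (1 - u * v + P) := by
    rw [hr']
    have : 1 - ((E - 1) / (E + 1)) ^ 2 = 4 / (E + 1 / E + 2) := by
      have : E + 1 ≠ 0 := by linarith
      have : E + 1 / E + 2 ≠ 0 := by positivity
      field_simp
      ring
    have e : E + 1 / E + 2 = 2 * (1 - u * v + P) / P := by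
      rw [hEi, hB]; field_simp; ring
    have hne : 1 - u * v + P ≠ 0 := huv.ne'
    rw [this, e]
    field_simp
    ring
  have hav : av = (1 - c ^ 2 - x ^ 2) / P ^ 2 := by
    show (1 / (1 - u ^ 2) + 1 / (1 - v ^ 2)) / 2 = _
    rw [hP2]; field_simp; rw [hu, hv]; ring
  have hPle : P ≤ 1 - c ^ 2 - x ^ 2 := by
    rw [hP, sqrt_le_iff]
    exact ⟨by nlinarith, by rw [hu, hv]; nlinarith [sq_nonneg (c * x)]⟩
  refine ⟨?_, ?_⟩
  · rw [e1, hav, mul_div_assoc', div_le_div_iff₀ hP0 (by positivity)]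
    nlinarith [mul_le_mul_of_nonneg_left hPle (mul_nonneg hx hP0.le)]
  · rw [e2, hav, div_mul_div_comm, div_le_div_iff₀ gc (by positivity)]
    have h1 : P * (1 - u * v + P) ≤ 2 * (1 - c ^ 2 - x ^ 2) * (1 - c ^ 2) := by
      have a := mul_le_mul_of_nonneg_right hPle huv.le
      have b := mul_le_mul_of_nonneg_left (add_le_add_left hPle (1 - u * v))
        (hP0.le.trans hPle)
      have : u * v = c ^ 2 - x ^ 2 := by rw [hu, hv]; ring
      nlinarith
    nlinarith [mul_le_mul_of_nonneg_left h1 hP0.le]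

end Sc3

open Sc3 in
/-- The one-point inequality. -/
theorem one_point {c d : ℝ} (hc : 0 ≤ c) (hd : 0 ≤ d) (h : c + d < 1) :
    2 * (hr c - (hr (c + d) + hr (c - d)) / 2) + EP (pA c) ((hr (c + d) + hr (c - d)) / 2) ≤
      d * (Ar (c + d) - Ar (c - d)) / 2 := by
  have hL : 0 < log 2 := log_pos (by norm_num)
  have hcpos : 0 < hr c := hr_pos (by linarith) (by linarith)
  have hgam : 0 ≤ gam := by
    unfold gam
    rw [sub_nonneg, div_le_one (by positivity)]; linarith [log_two_gt_d9]
  have hpAg : 1 - c ^ 2 ≤ pA c := by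
    unfold pA
    nlinarith [mul_nonneg (by nlinarith : (0:ℝ) ≤ 1 - c ^ 2) (mul_nonneg hgam (sq_nonneg c))]
  have hpA : 0 < pA c := lt_of_lt_of_le (by nlinarith) hpAg
  have hple := log_two_mul_pA_le_hr (a := c) (by linarith) (by linarith)
  set p := hr c / log 2 with hp
  have hp0 : 0 < p := div_pos hcpos hL
  have hpAp : pA c ≤ p := by rw [hp, le_div_iff₀ hL]; linarith
  set H := fun x => (hr (c + x) + hr (c - x)) / 2 with hH
  set B := fun x => (Ar (c + x) - Ar (c - x)) / 2 with hB
  have hHpos : ∀ x ∈ Icc 0 d, 0 < H x := fun x hx => by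
    have := hr_pos (r := c + x) (by linarith [hx.1]) (by linarith [hx.2])
    have := hr_pos (r := c - x) (by linarith [hx.2]) (by linarith [hx.1])
    simp only [hH]; linarith
  have hdH : ∀ x ∈ Icc 0 d, HasDerivAt H (-B x) x := by
    intro x hx
    refine ((((hasDerivAt_hr (r := c + x) (by linarith [hx.1]) (by linarith [hx.2])).comp x
      ((hasDerivAt_id' x).const_add c)).add
      ((hasDerivAt_hr (r := c - x) (by linarith [hx.2]) (by linarith [hx.1])).comp x
      ((hasDerivAt_id' x).const_sub c))).div_const 2).congr_deriv ?_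
    simp only [hB]; ring
  set av := fun x => (1 / (1 - (c + x) ^ 2) + 1 / (1 - (c - x) ^ 2)) / 2 with hav
  have hdB : ∀ x ∈ Icc 0 d, HasDerivAt B (av x) x := by
    intro x hx
    refine ((((hasDerivAt_Ar (r := c + x) (by linarith [hx.1]) (by linarith [hx.2])).comp x
      ((hasDerivAt_id' x).const_add c)).sub
      ((hasDerivAt_Ar (r := c - x) (by linarith [hx.2]) (by linarith [hx.1])).comp x
      ((hasDerivAt_id' x).const_sub c))).div_const 2).congr_deriv ?_
    simp only [hav]; ring
  have hB0 : ∀ x ∈ Icc 0 d, 0 ≤ B x := by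
    intro x hx
    have := monotoneOn_Ar (a := c - x) ⟨by linarith [hx.2], by linarith [hx.1]⟩
      (b := c + x) ⟨by linarith [hx.1], by linarith [hx.2]⟩ (by linarith [hx.1])
    simp only [hB]; linarith
  -- step (i)
  have hi : ∀ x ∈ Icc 0 d, hr c * hr (tanh (B x)) ≤ log 2 * H x := by
    intro x hx
    have hdd : ∀ y ∈ Icc 0 d, HasDerivAt (fun y => log 2 * H y - hr c * hr (tanh (B y)))
        (B y * (hr c * (av y * (1 - tanh (B y) ^ 2)) - log 2)) y := by
      intro y hy
      refine (((hdH y hy).const_mul (log 2)).sub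
        (((Sc.hasDerivAt_hr_tanh (B y)).comp y (hdB y hy)).const_mul (hr c))).congr_deriv ?_
      rw [Sc.one_sub_tanh_sq]; ring
    have hm : MonotoneOn (fun y => log 2 * H y - hr c * hr (tanh (B y))) (Icc 0 d) := by
      refine monotoneOn_of_hasDerivWithinAt_nonneg (convex_Icc 0 d)
        (fun y hy => (hdd y hy).continuousAt.continuousWithinAt)
        (fun y hy => (hdd y (interior_subset hy)).hasDerivWithinAt) fun y hy => ?_
      have hy := interior_subset hy
      refine mul_nonneg (hB0 y hy) (sub_nonneg.2 ?_)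
      have f := (r0_facts hc hy.1 (by linarith [hy.2])).2
      calc log 2 ≤ hr c * (1 / (1 - c ^ 2)) := by
            rw [mul_one_div, le_div_iff₀ (by nlinarith)]
            nlinarith [mul_le_mul_of_nonneg_left hpAg hL.le]
        _ ≤ _ := mul_le_mul_of_nonneg_left f hcpos.le
    have := hm ⟨le_rfl, hd⟩ hx hx.1
    simp [hH, hB] at this ⊢
    linarith
  -- step (iii)
  set N := fun x => x * B x - 2 * (hr c - H x) - H x * EP (p / H x) 1 with hN
  have hdN : ∀ x ∈ Icc 0 d, HasDerivAt N
      (x * av x - (1 + betaR (rinv (H x / p))) * B x) x := by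
    intro x hx
    have hh := hHpos x hx
    have hq : HasDerivAt (fun y => p / H y) (p * B x / H x ^ 2) x := by
      refine ((hasDerivAt_const x p).div (hdH x hx) hh.ne').congr_deriv ?_
      ring
    have hE := (hasDerivAt_EP (p := p / H x) (H := 1) (div_pos hp0 hh) one_pos).comp x hq
    have hval := EP_rinv (p := p / H x) (H := 1) (div_pos hp0 hh) one_pos
    rw [one_div_div] at hE hval
    refine ((((hasDerivAt_id' x).mul (hdB x hx)).sub (((hdH x hx).const_sub (hr c)).const_mul 2)).sub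
      ((hdH x hx).mul hE)).congr_deriv ?_
    simp only [Function.comp]
    rw [hval]
    field_simp
    ring
  have hm : MonotoneOn N (Icc 0 d) := by
    refine monotoneOn_of_hasDerivWithinAt_nonneg (convex_Icc 0 d)
      (fun y hy => (hdN y hy).continuousAt.continuousWithinAt)
      (fun y hy => (hdN y (interior_subset hy)).hasDerivWithinAt) fun y hy => ?_
    rw [interior_Icc] at hy
    have hy' : y ∈ Icc 0 d := ⟨hy.1.le, hy.2.le⟩
    have hh := hHpos y hy'
    set r0 := tanh (B y) with hr0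
    have hB0' := hB0 y hy'
    have r00 : 0 ≤ r0 := by
      rw [hr0, Sc.tanh_eq_y]
      exact div_nonneg (sub_nonneg.2 (exp_le_one_iff.2 (by linarith))) (by positivity)
    have r01 : r0 < 1 := tanh_lt_one _
    have hle : hr r0 ≤ H y / p := by
      rw [le_div_iff₀ hp0, hp, mul_div_assoc', div_le_iff₀ hL]
      linarith [hi y hy']
    have hri := rinv_antitone (hr_pos (by linarith) r01) hle
    rw [rinv_eq r00 r01.le] at hri
    obtain ⟨a0, a1, -⟩ := rinv_spec (div_pos hh hp0)
    have hb := monotoneOn_betaR ⟨a0, a1⟩ ⟨r00, r01⟩ hri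
    have f := (r0_facts hc hy.1.le (by linarith [hy.2])).1
    have key : (1 + betaR r0) * B y ≤ y * av y := by
      rcases r00.eq_or_lt with h0 | h0
      · rw [← h0] at hr0
        have : B y = 0 := by
          have := Sc.Ar_tanh (B y)
          rw [← hr0, Ar_zero] at this
          exact this.symm
        rw [this, mul_zero]
        simp only [hav]
        have : c + y < 1 := by linarith [hy.2]
        have : 0 < 1 - (c + y) ^ 2 := by nlinarith [hy.1]
        have : 0 < 1 - (c - y) ^ 2 := by nlinarith [hy.1]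
        have := hy.1
        positivity
      · refine le_trans (le_of_eq ?_) f
        change (1 + betaR r0) * B y = r0 / (1 - r0 ^ 2)
        rw [betaR, if_neg h0.ne', show Ar r0 = B y from Sc.Ar_tanh _]
        have : B y ≠ 0 := by
          intro h'
          rw [hr0, h'] at h0
          simp at h0
        have : (1:ℝ) - r0 ^ 2 ≠ 0 := by nlinarith
        field_simp
        ring
    nlinarith [mul_le_mul_of_nonneg_right hb hB0']
  have h0 := hm ⟨le_rfl, hd⟩ ⟨hd, le_rfl⟩ hd
  have hH0 : H 0 = hr c := by simp [hH]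
  have hN0 : N 0 = 0 := by
    simp only [hN, hH0, zero_mul, sub_self, mul_zero]
    rw [EP_eq_zero (div_pos hp0 hcpos) (by rw [hp]; field_simp; exact le_rfl)]
    simp
  rw [hN0] at h0
  have hh := hHpos d ⟨hd, le_rfl⟩
  have hE : EP (pA c) (H d) ≤ H d * EP (p / H d) 1 := by
    rw [← EP_homog hh (div_pos hp0 hh) one_pos, mul_one, mul_div_cancel₀ _ hh.ne']
    refine csSup_le ⟨_, 0, ⟨le_rfl, zero_lt_one⟩, rfl⟩ ?_
    rintro _ ⟨s, hs, rfl⟩
    refine le_trans ?_ (le_EP hp0 hh hs.1 hs.2)
    simp only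
    nlinarith [mul_le_mul_of_nonneg_left hpAp (PiR_nonneg hs.1 hs.2)]
  simp only [hN, hH, hB] at h0 hE
  linarith

end Vale.Agent.P322
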