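import Vale.Agent.P322.Inverse
import Vale.Agent.P322.Scalar1
import Vale.Agent.P322.Scalar2
import Vale.Agent.P322.Scalar3

/-!
The two monotone paths that reduce the two-point inequality to one pair.
-/

namespace Vale.Agent.P322

open Real Set

theorem gam_bounds : (0.27:ℝ) < gam ∧ gam < 0.28 := by
  have h1 := log_two_gt_d9
  have h2 := log_two_lt_d9
  constructor
  · rw [gam, lt_sub_iff_add_lt, ← lt_sub_iff_add_lt', div_lt_iff₀ (by linarith)]
    nlinarith
  · rw [gam, sub_lt_iff_lt_add, ← sub_lt_iff_lt_add', lt_div_iff₀ (by linarith)]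
    nlinarith

theorem kap_pos : 0 < kap := by
  have := log_two_pos; unfold kap; positivity

theorem pA_neg (a : ℝ) : pA (-a) = pA a := by unfold pA; ring

theorem pA_pos {a : ℝ} (h1 : -1 < a) (h2 : a < 1) : 0 < pA a := by
  have h3 := gam_bounds.1
  have h4 : 0 < 1 - a ^ 2 := by nlinarith
  unfold pA
  refine mul_pos h4 ?_
  nlinarith [sq_nonneg a]

theorem hr_eq_binEntropy (q : ℝ) : hr (1 - 2 * q) = binEntropy q := by
  unfold hr; congr 1; ring

theorem lgo_eq {q : ℝ} (h0 : 0 < q) (h1 : q < 1) : lgo q = 2 * Ar (1 - 2 * q) := by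
  unfold lgo Ar
  rw [show 1 + (1 - 2 * q) = 2 * (1 - q) by ring, show 1 - (1 - 2 * q) = 2 * q by ring,
    log_mul (by norm_num) (by linarith), log_mul (by norm_num) h0.ne']
  ring

theorem hasDerivAt_pA (a : ℝ) :
    HasDerivAt pA (-(2 * (1 - gam) * a + 4 * gam * a ^ 3)) a := by
  refine (((hasDerivAt_pow 2 a).const_sub 1).mul
    (((hasDerivAt_pow 2 a).const_mul gam).const_add 1)).congr_deriv ?_
  push_cast
  ring

theorem PiR_diff {p pb H : ℝ} (hpb : 0 < pb) (hle : pb ≤ p) (hH : 0 < H) :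
    PiR (rinv (H / p)) - PiR (rinv (H / pb)) ≤ kap * log (p / pb) := by
  have hp : 0 < p := hpb.trans_le hle
  have hk : 0 < H / p := div_pos hH hp
  have hk' : 0 < H / pb := div_pos hH hpb
  obtain ⟨a0, a1, a⟩ := rinv_spec hk
  obtain ⟨b0, -, b⟩ := rinv_spec hk'
  have hkk : H / p ≤ H / pb := div_le_div_of_nonneg_left hH.le hpb hle
  refine (kap_log b0 (rinv_antitone hk hkk) a1).trans (mul_le_mul_of_nonneg_left ?_ kap_pos.le)
  rw [a, b]
  have e : log (p / pb) = log (H / pb) - log (H / p) := by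
    rw [log_div hp.ne' hpb.ne', log_div hH.ne' hpb.ne', log_div hH.ne' hp.ne']; ring
  rw [e]
  rcases le_total (H / p) (log 2) with h | h
  · rw [min_eq_left h]
    linarith [log_le_log (lt_min hk' log_two_pos) (min_le_left (H / pb) (log 2))]
  · rw [min_eq_right h, min_eq_right (h.trans hkk), sub_self, sub_nonneg]
    exact log_le_log hk hkk

theorem pA_avg_le {a b : ℝ} : (pA (a + b) + pA (a - b)) / 2 ≤ pA a := by
  have hg := gam_bounds
  have e : pA a - (pA (a + b) + pA (a - b)) / 2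
      = b ^ 2 * ((1 - gam) + 6 * gam * a ^ 2 + gam * b ^ 2) := by unfold pA; ring
  have : 0 ≤ b ^ 2 * ((1 - gam) + 6 * gam * a ^ 2 + gam * b ^ 2) := by
    refine mul_nonneg (sq_nonneg b) ?_
    nlinarith [sq_nonneg a, sq_nonneg b]
  linarith

/-- The first path: varying the mean at fixed difference and entropy. -/
theorem path_mean {a₀ a₁ b H : ℝ} (ha₀ : 0 ≤ a₀) (h01 : a₀ ≤ a₁) (hb : 0 ≤ b) (h1 : a₁ + b < 1)
    (hH : 0 < H) :
    (hr (a₁ + b) + hr (a₁ - b)) - 2 * hr a₁
        + EP ((pA (a₁ + b) + pA (a₁ - b)) / 2) H - EP (pA a₁) H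
      ≤ (hr (a₀ + b) + hr (a₀ - b)) - 2 * hr a₀
        + EP ((pA (a₀ + b) + pA (a₀ - b)) / 2) H - EP (pA a₀) H := by
  set g := fun a => (hr (a + b) + hr (a - b)) - 2 * hr a
    + EP ((pA (a + b) + pA (a - b)) / 2) H - EP (pA a) H with hg
  have hd : ∀ a ∈ Icc a₀ a₁, ∃ D, HasDerivAt g D a ∧ D ≤ 0 := by
    intro a ha
    have ha0 : 0 ≤ a := ha₀.trans ha.1
    have hab : a + b < 1 := by linarith [ha.2]
    have hp := pA_pos (show -1 < a + b by linarith) hab
    have hm := pA_pos (show -1 < a - b by linarith) (show a - b < 1 by linarith)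
    have h0 := pA_pos (show -1 < a by linarith) (show a < 1 by linarith)
    have hpb : 0 < (pA (a + b) + pA (a - b)) / 2 := by linarith
    have d1 := (hasDerivAt_hr (show -1 < a + b by linarith) hab).comp a
      ((hasDerivAt_id a).add_const b)
    have d2 := (hasDerivAt_hr (show -1 < a - b by linarith) (by linarith)).comp a
      ((hasDerivAt_id a).sub_const b)
    have d3 := (hasDerivAt_hr (show -1 < a by linarith) (by linarith)).const_mul 2
    have e1 := (hasDerivAt_pA (a + b)).comp a ((hasDerivAt_id a).add_const b)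
    have e2 := (hasDerivAt_pA (a - b)).comp a ((hasDerivAt_id a).sub_const b)
    have d4 := (hasDerivAt_EP hpb hH).comp a ((e1.add e2).div_const 2)
    have d5 := (hasDerivAt_EP h0 hH).comp a (hasDerivAt_pA a)
    refine ⟨_, (((d1.add d2).sub d3).add d4).sub d5, ?_⟩
    have hB := B1 ha0 hb hab
    have hle : (pA (a + b) + pA (a - b)) / 2 ≤ pA a := pA_avg_le
    have hP := PiR_diff hpb hle hH
    obtain ⟨b0, b1, -⟩ := rinv_spec (div_pos hH hpb)
    have hPb := PiR_nonneg b0 b1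
    have hc : 0 ≤ 2 * (1 - gam) * a + 4 * gam * a ^ 3 := by
      have := gam_bounds
      have : 0 ≤ a ^ 3 := pow_nonneg ha0 3
      nlinarith
    have hg0 : 0 ≤ gam * a * b ^ 2 := by
      have := gam_bounds; exact mul_nonneg (mul_nonneg (by linarith) ha0) (sq_nonneg b)
    have := mul_le_mul_of_nonneg_left hP hc
    have := mul_nonneg hPb hg0
    nlinarith
  refine antitoneOn_of_deriv_nonpos (f := g) (convex_Icc a₀ a₁) ?_ ?_ ?_
    ⟨le_rfl, h01⟩ ⟨h01, le_rfl⟩ h01
  · intro a ha; obtain ⟨D, hD, -⟩ := hd a ha; exact hD.continuousAt.continuousWithinAt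
  · intro a ha; obtain ⟨D, hD, -⟩ := hd a (interior_subset ha)
    exact hD.differentiableAt.differentiableWithinAt
  · intro a ha; obtain ⟨D, hD, hD0⟩ := hd a (interior_subset ha); rw [hD.deriv]; exact hD0

/-- Perspective derivative of the binary entropy. -/
theorem hasDerivAt_persp_bin {x t : ℝ} (ht : 0 < t) (h0 : 0 < x / t) (h1 : x / t < 1) :
    HasDerivAt (fun s => s * binEntropy (x / s)) (- log (1 - x / t)) t := by
  have hx : HasDerivAt (fun s : ℝ => x / s) (-x / t ^ 2) t := by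
    refine ((hasDerivAt_const t x).div (hasDerivAt_id t) ht.ne').congr_deriv ?_
    simp
  refine ((hasDerivAt_id t).mul ((hasDerivAt_binEntropy h0.ne' h1.ne).comp t hx)).congr_deriv ?_
  simp only [id, Function.comp_apply]
  generalize hy : x / t = y at *
  have e : t * ((log (1 - y) - log y) * (-x / t ^ 2)) = - y * (log (1 - y) - log y) := by
    rw [← hy]; field_simp
  rw [e, binEntropy, log_inv, log_inv]
  ring

/-- Perspective derivative of `pA`. -/
theorem hasDerivAt_persp_pA {x t : ℝ} (ht : 0 < t) :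
    HasDerivAt (fun s => s * pA (1 - 2 * (x / s)))
      ((2 * (x / t)) ^ 2 * (1 + 2 * gam * (1 - 2 * (x / t))
        + 3 * gam * (1 - 2 * (x / t)) ^ 2)) t := by
  have hx : HasDerivAt (fun s : ℝ => 1 - 2 * (x / s)) (2 * (x / t ^ 2)) t := by
    refine ((((hasDerivAt_const t x).div (hasDerivAt_id t) ht.ne').const_mul 2).const_sub 1).congr_deriv ?_
    simp only [id]; ring
  refine ((hasDerivAt_id t).mul ((hasDerivAt_pA _).comp t hx)).congr_deriv ?_
  simp only [id, Function.comp_apply]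
  rw [show t * (-(2 * (1 - gam) * (1 - 2 * (x / t)) + 4 * gam * (1 - 2 * (x / t)) ^ 3)
      * (2 * (x / t ^ 2))) = (-(2 * (1 - gam) * (1 - 2 * (x / t))
        + 4 * gam * (1 - 2 * (x / t)) ^ 3)) * (2 * (x / t)) by field_simp]
  generalize x / t = y
  unfold pA
  ring

/-- The sign of the derivative along the ray. -/
theorem ray_ineq {a b P Pb : ℝ} (ha : 0 ≤ a) (hb : 0 ≤ b) (hab : a + b < 1) (hPb : 0 ≤ Pb)
    (hP : P - Pb ≤ kap * log (pA a / ((pA (a + b) + pA (a - b)) / 2))) :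
    P * ((1 - a) ^ 2 * (1 + 2 * gam * a + 3 * gam * a ^ 2))
      ≤ Pb * (((1 - a - b) ^ 2 * (1 + 2 * gam * (a + b) + 3 * gam * (a + b) ^ 2)
          + (1 - a + b) ^ 2 * (1 + 2 * gam * (a - b) + 3 * gam * (a - b) ^ 2)) / 2)
        + - log (1 - b ^ 2 / (1 + a) ^ 2) := by
  have hg := gam_bounds
  have hB := B2 ha hb hab
  have hg0 : 0 ≤ gam := by linarith
  have hxi : 0 ≤ (1 - a) ^ 2 * (1 + 2 * gam * a + 3 * gam * a ^ 2) := by
    refine mul_nonneg (sq_nonneg _) ?_
    have := mul_nonneg hg0 ha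
    have := mul_nonneg hg0 (sq_nonneg a)
    linarith
  have hq : 0 ≤ 18 * gam * a ^ 2 - 12 * gam * a + (1 - gam) := by
    have := mul_nonneg hg0 (sq_nonneg (3 * a - 1))
    linarith
  have hconv : (1 - a) ^ 2 * (1 + 2 * gam * a + 3 * gam * a ^ 2)
      ≤ ((1 - a - b) ^ 2 * (1 + 2 * gam * (a + b) + 3 * gam * (a + b) ^ 2)
          + (1 - a + b) ^ 2 * (1 + 2 * gam * (a - b) + 3 * gam * (a - b) ^ 2)) / 2 := by
    have := mul_nonneg hq (sq_nonneg b)
    have := mul_nonneg hg0 (sq_nonneg (b ^ 2))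
    linarith
  have h1 := mul_le_mul_of_nonneg_left hP hxi
  have h2 := mul_le_mul_of_nonneg_left hconv hPb
  linarith

/-- The second path: the ray towards the single pair. -/
theorem path_ray {x₀ x₁ h t : ℝ} (h0 : 0 < x₀) (h01 : x₀ ≤ x₁) (hsum : x₀ + x₁ ≤ 1) (hh : 0 < h)
    (hx1 : x₁ < 1) (ht : 1 ≤ t) :
    2 * ((binEntropy x₀ + binEntropy x₁) / 2 - binEntropy ((x₀ + x₁) / 2))
        + EP ((pA (1 - 2 * x₀) + pA (1 - 2 * x₁)) / 2) h - EP (pA (1 - 2 * ((x₀ + x₁) / 2))) h
      ≤ 2 * ((t * binEntropy (x₀ / t) + t * binEntropy (x₁ / t)) / 2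
          - t * binEntropy ((x₀ + x₁) / 2 / t))
        + EP ((t * pA (1 - 2 * (x₀ / t)) + t * pA (1 - 2 * (x₁ / t))) / 2) h
        - EP (t * pA (1 - 2 * ((x₀ + x₁) / 2 / t))) h := by
  set g := fun s => 2 * ((s * binEntropy (x₀ / s) + s * binEntropy (x₁ / s)) / 2
          - s * binEntropy ((x₀ + x₁) / 2 / s))
        + EP ((s * pA (1 - 2 * (x₀ / s)) + s * pA (1 - 2 * (x₁ / s))) / 2) h
        - EP (s * pA (1 - 2 * ((x₀ + x₁) / 2 / s))) h with hg
  have hd : ∀ s ∈ Icc 1 t, ∃ D, HasDerivAt g D s ∧ 0 ≤ D := by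
    intro s hs
    have hs0 : 0 < s := one_pos.trans_le hs.1
    have q0p : 0 < x₀ / s := div_pos h0 hs0
    have q1p : 0 < x₁ / s := div_pos (h0.trans_le h01) hs0
    have qmp : 0 < (x₀ + x₁) / 2 / s := div_pos (by linarith) hs0
    have q0l : x₀ / s < 1 := by rw [div_lt_one hs0]; linarith [hs.1]
    have q1l : x₁ / s < 1 := by rw [div_lt_one hs0]; linarith [hs.1]
    have qml : (x₀ + x₁) / 2 / s ≤ 1 / 2 := by rw [div_le_iff₀ hs0]; linarith [hs.1]
    have p0 := pA_pos (a := 1 - 2 * (x₀ / s)) (by linarith) (by linarith)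
    have p1 := pA_pos (a := 1 - 2 * (x₁ / s)) (by linarith) (by linarith)
    have pm := pA_pos (a := 1 - 2 * ((x₀ + x₁) / 2 / s)) (by linarith) (by linarith)
    have hP0 : 0 < s * pA (1 - 2 * ((x₀ + x₁) / 2 / s)) := mul_pos hs0 pm
    have hPb : 0 < (s * pA (1 - 2 * (x₀ / s)) + s * pA (1 - 2 * (x₁ / s))) / 2 := by
      have := mul_pos hs0 p0; have := mul_pos hs0 p1; linarith
    have d1 := ((((hasDerivAt_persp_bin hs0 q0p q0l).add (hasDerivAt_persp_bin hs0 q1p q1l)).div_const 2).sub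
      (hasDerivAt_persp_bin hs0 qmp (by linarith))).const_mul 2
    have d2 := (hasDerivAt_EP hPb hh).comp s
      (((hasDerivAt_persp_pA hs0 (x := x₀)).add (hasDerivAt_persp_pA hs0 (x := x₁))).div_const 2)
    have d3 := (hasDerivAt_EP hP0 hh).comp s (hasDerivAt_persp_pA hs0 (x := (x₀ + x₁) / 2))
    refine ⟨_, (d1.add d2).sub d3, ?_⟩
    set a := 1 - 2 * ((x₀ + x₁) / 2 / s) with ha
    set b := x₁ / s - x₀ / s with hb
    have ea : (x₀ + x₁) / 2 / s = (x₀ / s + x₁ / s) / 2 := by ring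
    have hab1 : 1 - 2 * (x₀ / s) = a + b := by rw [ha, hb, ea]; ring
    have hab2 : 1 - 2 * (x₁ / s) = a - b := by rw [ha, hb, ea]; ring
    have ha0 : 0 ≤ a := by linarith
    have hb0 : 0 ≤ b := by rw [hb, sub_nonneg]; exact div_le_div_of_nonneg_right h01 hs0.le
    have hab : a + b < 1 := by linarith
    have hle : (s * pA (1 - 2 * (x₀ / s)) + s * pA (1 - 2 * (x₁ / s))) / 2 ≤ s * pA a := by
      rw [hab1, hab2]
      nlinarith [mul_le_mul_of_nonneg_left (pA_avg_le (a := a) (b := b)) hs0.le]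
    have hP := PiR_diff hPb hle hh
    have elog : s * pA a / ((s * pA (1 - 2 * (x₀ / s)) + s * pA (1 - 2 * (x₁ / s))) / 2)
        = pA a / ((pA (a + b) + pA (a - b)) / 2) := by
      rw [hab1, hab2,
        show (s * pA (a + b) + s * pA (a - b)) / 2 = s * ((pA (a + b) + pA (a - b)) / 2) by ring,
        mul_div_mul_left _ _ hs0.ne']
    rw [elog] at hP
    have eT : - log (1 - b ^ 2 / (1 + a) ^ 2)
        = - log (1 - x₀ / s) - log (1 - x₁ / s) + 2 * log (1 - (x₀ + x₁) / 2 / s) := by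
      have h1a : 0 < 1 + a := by linarith
      rw [show 1 - x₀ / s = (1 + a + b) / 2 by linarith [hab1],
        show 1 - x₁ / s = (1 + a - b) / 2 by linarith [hab2],
        show 1 - (x₀ + x₁) / 2 / s = (1 + a) / 2 by rw [ha]; ring,
        show 1 - b ^ 2 / (1 + a) ^ 2 = ((1 + a + b) / 2 * ((1 + a - b) / 2)) / (((1 + a) / 2) ^ 2) by
          field_simp; ring,
        log_div (mul_ne_zero (by linarith) (by linarith)) (by positivity),
        log_mul (by linarith) (by linarith), log_pow]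
      push_cast; ring
    obtain ⟨b0, b1, -⟩ := rinv_spec (div_pos hh hPb)
    have hPn := PiR_nonneg b0 b1
    have exi : (2 * ((x₀ + x₁) / 2 / s)) ^ 2 = (1 - a) ^ 2 := by rw [ha]; ring
    have hfin := ray_ineq ha0 hb0 hab hPn hP
    rw [eT] at hfin
    rw [show 1 - a - b = 2 * (x₀ / s) by linarith [hab1],
      show 1 - a + b = 2 * (x₁ / s) by linarith [hab2], ← hab1, ← hab2] at hfin
    rw [exi]
    linarith
  have key := monotoneOn_of_deriv_nonneg (f := g) (convex_Icc 1 t)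
    (fun s hs => by obtain ⟨D, hD, -⟩ := hd s hs; exact hD.continuousAt.continuousWithinAt)
    (fun s hs => by
      obtain ⟨D, hD, -⟩ := hd s (interior_subset hs)
      exact hD.differentiableAt.differentiableWithinAt)
    (fun s hs => by obtain ⟨D, hD, hD0⟩ := hd s (interior_subset hs); rw [hD.deriv]; exact hD0)
    ⟨le_rfl, ht⟩ ⟨ht, le_rfl⟩ ht
  simpa [hg] using key

end Vale.Agent.P322
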