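import Vale.Agent.P322.Basics

/-!
The envelope lemma: every admissible pair `(q₀, q₁)` carries a supporting plane for
`D1` against mean, absolute difference and entropy.
-/

namespace Vale.Agent.P322

open Real Set

/-- `cosh σ + cosh ζ`. -/
noncomputable def cc (σ ζ : ℝ) : ℝ := cosh σ + cosh ζ

/-- `log (2 cc) - σ`. -/
noncomputable def LQ (σ ζ : ℝ) : ℝ := log (2 * cc σ ζ) - σ

/-- Entropy over difference, in log-odds coordinates. -/
noncomputable def NN (σ ζ : ℝ) : ℝ :=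
  (cc σ ζ * log (2 * cc σ ζ) - σ * sinh σ) / sinh ζ - ζ

/-- Mean over difference, in log-odds coordinates. -/
noncomputable def VV (σ ζ : ℝ) : ℝ := (exp (-σ) + cosh ζ) / sinh ζ

/-- The stationarity function in `σ`. -/
noncomputable def MM (σ ζ : ℝ) : ℝ := exp σ * (sinh σ * log (2 * cc σ ζ) - σ * cosh σ)

/-- Minus the derivative along the stationary curve. -/
noncomputable def UU (σ ζ : ℝ) : ℝ := exp σ * cc σ ζ * LQ σ ζ / sinh ζ ^ 2

theorem cc_pos (σ ζ : ℝ) : 0 < cc σ ζ := add_pos (cosh_pos σ) (cosh_pos ζ)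

theorem two_cc_eq (σ ζ : ℝ) :
    2 * cc σ ζ = exp σ * (1 + 2 * cosh ζ * exp (-σ) + exp (-σ) ^ 2) := by
  rw [cc, cosh_eq σ, exp_neg]
  have := exp_pos σ
  field_simp
  ring

theorem LQ_eq (σ ζ : ℝ) :
    LQ σ ζ = log (1 + 2 * cosh ζ * exp (-σ) + exp (-σ) ^ 2) := by
  have : 0 < cosh ζ := cosh_pos ζ
  rw [LQ, two_cc_eq, log_mul (exp_ne_zero _) (by positivity), log_exp]
  ring

theorem lgo_strictAnti {u v : ℝ} (hu : 0 < u) (hv : v < 1) (huv : u < v) : lgo v < lgo u := by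
  have a : log (1 - v) < log (1 - u) := log_lt_log (by linarith) (by linarith)
  have b : log u < log v := log_lt_log hu huv
  unfold lgo; linarith

theorem D1_comm (u v : ℝ) : D1 u v = D1 v u := by unfold D1; ring

theorem D1_self (u : ℝ) : D1 u u = 0 := by simp [D1]

theorem D1_nonneg {u v : ℝ} (hu0 : 0 < u) (hu1 : u < 1) (hv0 : 0 < v) (hv1 : v < 1) :
    0 ≤ D1 u v := by
  rcases lt_trichotomy u v with h | rfl | h
  · have := lgo_strictAnti hu0 hv1 h
    unfold D1; nlinarith [mul_nonneg (by linarith : 0 ≤ v - u) (by linarith : 0 ≤ lgo u - lgo v)]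
  · simp [D1_self]
  · have := lgo_strictAnti hv0 hu1 h
    unfold D1; nlinarith [mul_nonneg (by linarith : 0 ≤ u - v) (by linarith : 0 ≤ lgo v - lgo u)]

theorem pair_coords {u v : ℝ} (hu : 0 < u) (hv : v < 1) (huv : u < v) :
    let σ := (lgo u + lgo v) / 2
    let ζ := (lgo u - lgo v) / 2
    0 < ζ ∧ D1 u v = (v - u) * ζ / 2 ∧ binEntropy u + binEntropy v = (v - u) * NN σ ζ ∧
      u + v = (v - u) * VV σ ζ := by
  intro σ ζ
  have hζ : 0 < ζ := by simp only [ζ]; linarith [lgo_strictAnti hu hv huv]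
  refine ⟨hζ, by simp only [D1, ζ]; ring, ?_⟩
  set E := exp σ with hE
  set Z := exp ζ with hZ
  have hE0 : 0 < E := exp_pos _
  have hZ0 : 0 < Z := exp_pos _
  have hZ1 : 1 < Z := one_lt_exp_iff.2 hζ
  have hu1 : u < 1 := by linarith
  have hv0 : 0 < v := by linarith
  have eu : E * Z = (1 - u) / u := by
    rw [hE, hZ, ← exp_add, show σ + ζ = lgo u by simp only [σ, ζ]; ring, lgo,
      ← log_div (by linarith) hu.ne', exp_log (div_pos (by linarith) hu)]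
  have ev : E / Z = (1 - v) / v := by
    rw [hE, hZ, ← exp_sub, show σ - ζ = lgo v by simp only [σ, ζ]; ring, lgo,
      ← log_div (by linarith) hv0.ne', exp_log (div_pos (by linarith) hv0)]
  have du : u = 1 / (1 + E * Z) := by rw [eu]; field_simp; ring
  have dv : v = 1 / (1 + E / Z) := by rw [ev]; field_simp; ring
  have hcs : cosh σ = (E + 1 / E) / 2 := by rw [cosh_eq, exp_neg, hE, one_div]
  have hss : sinh σ = (E - 1 / E) / 2 := by rw [sinh_eq, exp_neg, hE, one_div]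
  have hcz : cosh ζ = (Z + 1 / Z) / 2 := by rw [cosh_eq, exp_neg, hZ, one_div]
  have hsz : sinh ζ = (Z - 1 / Z) / 2 := by rw [sinh_eq, exp_neg, hZ, one_div]
  have hexp : exp (-σ) = 1 / E := by rw [exp_neg, hE, one_div]
  have hsz0 : Z - 1 / Z ≠ 0 := by
    have : 1 / Z < 1 := by rw [div_lt_one hZ0]; exact hZ1
    intro hc; linarith
  have hlog : log (2 * cc σ ζ) = - log u - log v - σ := by
    have h1 : exp σ * (2 * cc σ ζ) = u⁻¹ * v⁻¹ := by
      rw [du, dv, cc, hcs, hcz, ← hE]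
      simp only [one_div, inv_inv]
      field_simp
      ring
    have h2 := congrArg log h1
    rw [log_mul (exp_ne_zero _) (mul_pos two_pos (cc_pos _ _)).ne', log_exp,
      log_mul (inv_ne_zero hu.ne') (inv_ne_zero hv0.ne'), log_inv, log_inv] at h2
    linarith
  constructor
  · have hb : binEntropy u + binEntropy v
        = σ + log (2 * cc σ ζ) - (1 - u) * (σ + ζ) - (1 - v) * (σ - ζ) := by
      rw [hlog, show σ + ζ = lgo u by simp only [σ, ζ]; ring,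
        show σ - ζ = lgo v by simp only [σ, ζ]; ring]
      simp only [binEntropy, lgo, log_inv]
      ring
    rw [hb, NN]
    generalize log (2 * cc σ ζ) = l
    rw [cc, hcs, hss, hcz, hsz]
    rw [du, dv]
    have a1 : 1 + E * Z ≠ 0 := by positivity
    have a2 : 1 + E / Z ≠ 0 := by positivity
    have a3 : Z ^ 2 - 1 ≠ 0 := by nlinarith
    field_simp
    ring
  · rw [VV, hexp, hcz, hsz, du, dv]
    have a1 : 1 + E * Z ≠ 0 := by positivity
    have a2 : 1 + E / Z ≠ 0 := by positivity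
    have a3 : Z ^ 2 - 1 ≠ 0 := by nlinarith
    field_simp
    ring

theorem hasDerivAt_two_cc_log {σf ζf : ℝ → ℝ} {σ' ζ' t : ℝ}
    (hσ : HasDerivAt σf σ' t) (hζ : HasDerivAt ζf ζ' t) :
    HasDerivAt (fun x => log (2 * cc (σf x) (ζf x)))
      ((sinh (σf t) * σ' + sinh (ζf t) * ζ') / cc (σf t) (ζf t)) t := by
  have h := ((hσ.cosh.add hζ.cosh).const_mul 2).log (mul_pos two_pos (cc_pos (σf t) (ζf t))).ne'
  refine h.congr_deriv ?_
  have := cc_pos (σf t) (ζf t)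
  simp only [cc, Pi.add_apply] at *
  field_simp

theorem hasDerivAt_NN_VV {σf ζf : ℝ → ℝ} {σ' ζ' t : ℝ}
    (hσ : HasDerivAt σf σ' t) (hζ : HasDerivAt ζf ζ' t) (hz : 0 < ζf t) (ε : ℝ) :
    HasDerivAt (fun x => NN (σf x) (ζf x) + ε * VV (σf x) (ζf x))
      ((MM (σf t) (ζf t) - ε) * exp (-σf t) / sinh (ζf t) * σ'
        + (log (2 * cc (σf t) (ζf t))
            - cosh (ζf t) * (cc (σf t) (ζf t) * log (2 * cc (σf t) (ζf t)) - σf t * sinh (σf t))
              / sinh (ζf t) ^ 2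
            - ε * (exp (-σf t) * cosh (ζf t) + 1) / sinh (ζf t) ^ 2) * ζ') t := by
  have hs : sinh (ζf t) ≠ 0 := (sinh_pos_iff.2 hz).ne'
  have hcc := cc_pos (σf t) (ζf t)
  have hl := hasDerivAt_two_cc_log hσ hζ
  have h1 := (((hσ.cosh.add hζ.cosh).mul hl).sub (hσ.mul hσ.sinh)).div hζ.sinh hs
  have h2 := (hσ.neg.exp.add hζ.cosh).div hζ.sinh hs
  have h := (h1.sub hζ).add (h2.const_mul ε)
  refine h.congr_deriv ?_
  simp only [Pi.add_apply, Pi.sub_apply, Pi.mul_apply, Pi.neg_apply, MM, cc] at *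
  rw [show exp (σf t) = (exp (-σf t))⁻¹ by rw [exp_neg, inv_inv]]
  have := exp_pos (-σf t)
  field_simp
  linear_combination (-(ζ' * ε)) * cosh_sq (ζf t)

theorem stationary_eq {σ ζ ε : ℝ} (hz : 0 < ζ) (h : MM σ ζ = ε) :
    log (2 * cc σ ζ) - cosh ζ * (cc σ ζ * log (2 * cc σ ζ) - σ * sinh σ) / sinh ζ ^ 2
      - ε * (exp (-σ) * cosh ζ + 1) / sinh ζ ^ 2 = - UU σ ζ := by
  subst h
  have hs : sinh ζ ≠ 0 := (sinh_pos_iff.2 hz).ne'
  rw [UU, LQ, MM]
  generalize log (2 * cc σ ζ) = l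
  rw [cc, exp_neg, cosh_eq σ, sinh_eq σ, exp_neg]
  have := exp_pos σ
  field_simp
  rw [sinh_sq]
  ring

theorem MM_eq (σ ζ : ℝ) : MM σ ζ = (exp (2 * σ) - 1) / 2 * LQ σ ζ - σ := by
  rw [MM, LQ, sinh_eq, cosh_eq, exp_neg, show 2 * σ = σ + σ by ring, exp_add]
  have := exp_pos σ
  field_simp
  ring

theorem MM_neg (σ ζ : ℝ) : MM (-σ) ζ = - exp (-σ) ^ 2 * MM σ ζ := by
  simp only [MM, cc, cosh_neg, sinh_neg]
  have : exp (-σ) * exp σ = 1 := by rw [← exp_add]; simp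
  linear_combination
    (-exp (-σ) * (σ * cosh σ - sinh σ * log (2 * (cosh σ + cosh ζ)))) * this

@[simp] theorem MM_zero (ζ : ℝ) : MM 0 ζ = 0 := by simp [MM]

theorem gpos {v Q : ℝ} (hv : 0 < v) (hv1 : v ≤ 1) (hQ : (1 + v) ^ 2 ≤ Q) :
    0 < log Q - v ^ 2 - (1 - v ^ 2) * (Q - 1 + v ^ 2) / (2 * Q) := by
  have h0 : 0 < (1 + v) ^ 2 := by positivity
  have hQ0 : 0 < Q := by linarith
  have hl := le_log_one_add_of_nonneg hv.le
  have h2 : log ((1 + v) ^ 2) = 2 * log (1 + v) := by rw [log_pow]; norm_num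
  have h3 : (Q - (1 + v) ^ 2) / Q ≤ log Q - log ((1 + v) ^ 2) := by
    have := one_sub_inv_le_log_of_pos (div_pos hQ0 h0)
    rw [log_div hQ0.ne' h0.ne', inv_div] at this
    rw [sub_div, div_self hQ0.ne']
    exact this
  have h4 : v < 4 * v / (v + 2) := by rw [lt_div_iff₀ (by linarith)]; nlinarith
  have h5 : (1 - v ^ 2) * (Q - 1 + v ^ 2) / (2 * Q)
      ≤ (1 - v ^ 2) / 2 - (1 - v) ^ 2 / 2 + (Q - (1 + v) ^ 2) / Q := by
    have e : (1 - v ^ 2) * (Q - 1 + v ^ 2) / (2 * Q)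
        = (1 - v ^ 2) / 2 - (1 - v) ^ 2 / 2
          + (1 - v) ^ 2 / 2 * ((Q - (1 + v) ^ 2) / Q) := by field_simp; ring
    rw [e]
    have : (1 - v) ^ 2 / 2 ≤ 1 := by nlinarith
    nlinarith [mul_le_mul_of_nonneg_right this (div_nonneg (by linarith : (0:ℝ) ≤ Q - (1+v)^2)
      hQ0.le)]
  have h6 : 2 * (2 * v / (v + 2)) = 4 * v / (v + 2) := by ring
  nlinarith

theorem MM_strictMono (ζ : ℝ) : StrictMonoOn (fun σ => MM σ ζ) (Ici 0) := by
  have hd : ∀ σ, HasDerivAt (fun σ => MM σ ζ)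
      (exp (2 * σ) * (LQ σ ζ - exp (-σ) ^ 2 - (1 - exp (-σ) ^ 2)
        * ((1 + 2 * cosh ζ * exp (-σ) + exp (-σ) ^ 2) - 1 + exp (-σ) ^ 2)
        / (2 * (1 + 2 * cosh ζ * exp (-σ) + exp (-σ) ^ 2)))) σ := by
    intro σ
    have hQ : 0 < 1 + 2 * cosh ζ * exp (-σ) + exp (-σ) ^ 2 := by
      have := cosh_pos ζ; positivity
    have he := (hasDerivAt_neg σ).exp
    have hl := ((((he.const_mul (2 * cosh ζ)).const_add 1).add (he.pow 2)).log hQ.ne')
    have h := ((((hasDerivAt_id σ).const_mul 2).exp.sub_const 1).div_const 2).mul hl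
      |>.sub (hasDerivAt_id σ)
    have hfun : (fun σ => MM σ ζ) = _ := funext fun x => by rw [MM_eq, LQ_eq]
    rw [hfun]
    refine h.congr_deriv ?_
    simp only [id, Pi.add_apply, Pi.pow_apply]
    rw [LQ_eq]
    have e2 : exp (2 * σ) = (exp (-σ) ^ 2)⁻¹ := by
      rw [← exp_nat_mul, ← exp_neg]; congr 1; push_cast; ring
    rw [e2]
    generalize log (1 + 2 * cosh ζ * exp (-σ) + exp (-σ) ^ 2) = l
    have := exp_pos (-σ)
    push_cast
    field_simp
    ring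
  refine strictMonoOn_of_hasDerivWithinAt_pos (convex_Ici 0)
    (fun σ _ => (hd σ).continuousAt.continuousWithinAt) (fun σ _ => (hd σ).hasDerivWithinAt) ?_
  intro σ hσ
  rw [interior_Ici] at hσ
  refine mul_pos (exp_pos _) ?_
  have hv : exp (-σ) ≤ 1 := exp_le_one_iff.2 (neg_nonpos.2 (le_of_lt hσ))
  have hQ : (1 + exp (-σ)) ^ 2 ≤ 1 + 2 * cosh ζ * exp (-σ) + exp (-σ) ^ 2 := by
    nlinarith [one_le_cosh ζ, exp_pos (-σ)]
  rw [LQ_eq]
  exact gpos (exp_pos _) hv hQ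

theorem MM_nonneg {σ : ℝ} (ζ : ℝ) (hσ : 0 ≤ σ) : 0 ≤ MM σ ζ := by
  simpa using (MM_strictMono ζ).monotoneOn (mem_Ici.2 le_rfl) (mem_Ici.2 hσ) hσ

theorem MM_nonpos {σ : ℝ} (ζ : ℝ) (hσ : σ ≤ 0) : MM σ ζ ≤ 0 := by
  have h := MM_neg (-σ) ζ
  rw [neg_neg] at h
  rw [h]
  have := MM_nonneg ζ (neg_nonneg.2 hσ)
  nlinarith [sq_nonneg (exp σ), mul_nonneg (sq_nonneg (exp σ)) this]

theorem continuous_MM (ζ : ℝ) : Continuous (fun σ => MM σ ζ) := by
  unfold MM cc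
  refine continuous_exp.mul ((continuous_sinh.mul ?_).sub (continuous_id.mul continuous_cosh))
  refine (continuous_const.mul (continuous_cosh.add continuous_const)).log fun σ => ?_
  exact (mul_pos two_pos (cc_pos σ ζ)).ne'

theorem exists_MM {ε : ℝ} (hε : 0 ≤ ε) (ζ : ℝ) : ∃ σ, 0 ≤ σ ∧ MM σ ζ = ε := by
  set S := 4 + 6 * ε with hS
  have hS0 : 4 ≤ S := by linarith
  have hv1 : exp (-S) ≤ 1 := exp_le_one_iff.2 (by linarith)
  have hv0 := exp_pos (-S)
  have hc := one_le_cosh ζ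
  have hL : 2 * exp (-S) / 3 ≤ LQ S ζ := by
    rw [LQ_eq]
    have hQ : 1 + 2 * exp (-S) ≤ 1 + 2 * cosh ζ * exp (-S) + exp (-S) ^ 2 := by nlinarith
    refine le_trans ?_ (log_le_log (by positivity) hQ)
    refine le_trans ?_ (one_sub_inv_le_log_of_pos (by positivity))
    rw [show 1 - (1 + 2 * exp (-S))⁻¹ = 2 * exp (-S) / (1 + 2 * exp (-S)) by field_simp; ring]
    gcongr
    linarith
  have hE : 0 ≤ exp (2 * S) - 1 := by linarith [one_le_exp (show 0 ≤ 2 * S by linarith)]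
  have hbig : ε ≤ MM S ζ := by
    rw [MM_eq]
    have h1 := mul_le_mul_of_nonneg_left hL (div_nonneg hE two_pos.le)
    have h2 : (exp (2 * S) - 1) / 2 * (2 * exp (-S) / 3) = (exp S - exp (-S)) / 3 := by
      have e2 : exp (2 * S) = exp S * exp S := by rw [← exp_add]; congr 1; ring
      have e3 : exp (-S) * exp S = 1 := by rw [← exp_add]; simp
      rw [e2]
      linear_combination (exp S / 3) * e3
    have h3 := quadratic_le_exp_of_nonneg (show (0:ℝ) ≤ S by linarith)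
    nlinarith [mul_le_mul_of_nonneg_right hS0 hε]
  obtain ⟨σ, hσ, h⟩ := intermediate_value_Icc (show (0:ℝ) ≤ S by linarith)
    (continuous_MM ζ).continuousOn (show ε ∈ Icc (MM 0 ζ) (MM S ζ) by simp [hε, hbig])
  exact ⟨σ, hσ.1, h⟩

/-- Minimisation in `σ`. -/
theorem sigma_min {ν ε ζ s : ℝ} (hν : 0 ≤ ν) (hε : 0 ≤ ε) (hz : 0 < ζ) (hs : 0 ≤ s)
    (hM : MM s ζ = ε) (σ : ℝ) :
    NN s ζ * ν + ν * ε * VV s ζ ≤ NN σ ζ * ν + ν * ε * VV σ ζ := by
  suffices h : NN s ζ + ε * VV s ζ ≤ NN σ ζ + ε * VV σ ζ by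
    nlinarith [mul_le_mul_of_nonneg_left h hν]
  have hd : ∀ x, HasDerivAt (fun x => NN x ζ + ε * VV x ζ)
      ((MM x ζ - ε) * exp (-x) / sinh ζ) x := fun x =>
    (hasDerivAt_NN_VV (σf := id) (ζf := fun _ => ζ) (hasDerivAt_id x) (hasDerivAt_const x ζ)
      hz ε).congr_deriv (by simp)
  have hsz : 0 < sinh ζ := sinh_pos_iff.2 hz
  rcases le_total σ s with h | h
  · refine antitoneOn_of_hasDerivWithinAt_nonpos (f := fun x => NN x ζ + ε * VV x ζ)
      (convex_Iic s) (fun x _ => (hd x).continuousAt.continuousWithinAt)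
      (fun x _ => (hd x).hasDerivWithinAt) ?_ (mem_Iic.2 h) (mem_Iic.2 le_rfl) h
    intro x hx
    rw [interior_Iic] at hx
    refine div_nonpos_of_nonpos_of_nonneg (mul_nonpos_of_nonpos_of_nonneg ?_ (exp_pos _).le) hsz.le
    rcases le_total x 0 with h0 | h0
    · linarith [MM_nonpos ζ h0]
    · have := (MM_strictMono ζ).monotoneOn (mem_Ici.2 h0) (mem_Ici.2 hs) (le_of_lt hx)
      linarith
  · refine monotoneOn_of_hasDerivWithinAt_nonneg (f := fun x => NN x ζ + ε * VV x ζ)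
      (convex_Ici s) (fun x _ => (hd x).continuousAt.continuousWithinAt)
      (fun x _ => (hd x).hasDerivWithinAt) ?_ (mem_Ici.2 le_rfl) (mem_Ici.2 h) h
    intro x hx
    rw [interior_Ici] at hx
    refine div_nonneg (mul_nonneg ?_ (exp_pos _).le) hsz.le
    have := (MM_strictMono ζ).monotoneOn (mem_Ici.2 hs)
      (mem_Ici.2 (hs.trans (le_of_lt hx))) (le_of_lt hx)
    linarith

theorem key {v Q : ℝ} (hv : 0 < v) (hv1 : v < 1) (hQ : (1 + v) ^ 2 < Q) :
    0 < (log Q - v ^ 2) * (log Q * (Q ^ 2 - (1 - v ^ 2) ^ 2) - ((Q - 1 - v ^ 2) ^ 2 - 4 * v ^ 2))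
      - 2 * log Q * v ^ 2 * (1 - v ^ 2) * (Q + 1 - v ^ 2) := by
  obtain ⟨d, hd, rfl⟩ : ∃ d, 0 < d ∧ Q = (1 + v) ^ 2 + d :=
    ⟨Q - (1 + v) ^ 2, by linarith, by ring⟩
  set Q := (1 + v) ^ 2 + d with hQd
  have hQ0 : 0 < (1 + v) ^ 2 := by positivity
  have hl := le_log_one_add_of_nonneg hv.le
  have hL : 4 * v / (v + 2) + d / Q ≤ log Q := by
    have := one_sub_inv_le_log_of_pos (div_pos (by positivity : 0 < Q) hQ0)
    rw [log_div (by positivity) hQ0.ne', inv_div, log_pow] at this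
    have e : d / Q = 1 - (1 + v) ^ 2 / Q := by
      have : Q ≠ 0 := by linarith
      field_simp
      rw [hQd]; ring
    have e2 : 4 * v / (v + 2) = 2 * (2 * v / (v + 2)) := by ring
    push_cast at this
    linarith
  set A := 4 * v / (v + 2) - v ^ 2 with hA
  have hA1 : v * (1 - v) ≤ (1 + v) * (4 / (v + 2) - v) := by
    rw [div_sub' (by linarith), mul_div_assoc', le_div_iff₀ (by linarith)]
    nlinarith
  have hA0 : A = v * (4 / (v + 2) - v) := by rw [hA]; ring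
  have hc1 : v ^ 2 * (1 - v ^ 2) ≤ (1 + v) ^ 2 * A := by
    rw [hA0]; nlinarith [mul_le_mul_of_nonneg_left hA1 (mul_nonneg hv.le (by linarith : 0 ≤ 1 + v))]
  have h4v : 1 ≤ 4 / (v + 2) := by rw [le_div_iff₀ (by linarith)]; linarith
  have hc0 : 2 * v ^ 2 * (1 - v ^ 2) ≤ A * (2 * v + 2 * v ^ 2) := by
    rw [hA0]; nlinarith [mul_le_mul_of_nonneg_left h4v (by positivity : 0 ≤ v ^ 2 * (1 + v))]
  have hApos : 0 < A := by
    rw [hA0]; exact mul_pos hv (by linarith)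
  have hQm : 0 < Q ^ 2 - (1 - v ^ 2) ^ 2 := by
    rw [hQd]; nlinarith [mul_pos hd hQ0, mul_pos hv hv]
  have hK : 0 ≤ (log Q - v ^ 2) * (Q ^ 2 - (1 - v ^ 2) ^ 2) - ((Q - 1 - v ^ 2) ^ 2 - 4 * v ^ 2)
      - 2 * v ^ 2 * (1 - v ^ 2) * (Q + (1 - v ^ 2)) := by
    have h1 := mul_le_mul_of_nonneg_right hL hQm.le
    have h2 : d * (Q - (1 - v) ^ 2) ≤ d / Q * (Q ^ 2 - (1 - v ^ 2) ^ 2) := by
      rw [div_mul_eq_mul_div, le_div_iff₀ (by positivity)]
      rw [hQd]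
      nlinarith [mul_nonneg (mul_nonneg hd.le hd.le) (sq_nonneg (1 - v))]
    have h3 : (Q + (1 - v ^ 2)) = (2 + 2 * v) + d := by rw [hQd]; ring
    have h4 : (Q ^ 2 - (1 - v ^ 2) ^ 2) = (2 * v + 2 * v ^ 2) * (2 + 2 * v)
        + 2 * (1 + v) ^ 2 * d + d ^ 2 := by rw [hQd]; ring
    have h5 : (Q - 1 - v ^ 2) ^ 2 - 4 * v ^ 2 = d ^ 2 + 4 * v * d := by rw [hQd]; ring
    have h6 : d * (Q - (1 - v) ^ 2) = d ^ 2 + 4 * v * d := by rw [hQd]; ring
    rw [h3, h5]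
    rw [h6] at h2
    have h7 : A * (Q ^ 2 - (1 - v ^ 2) ^ 2) + d / Q * (Q ^ 2 - (1 - v ^ 2) ^ 2)
        ≤ (log Q - v ^ 2) * (Q ^ 2 - (1 - v ^ 2) ^ 2) := by rw [hA]; linarith
    rw [h4] at h7 h2 ⊢
    nlinarith [mul_le_mul_of_nonneg_right hc0 (by linarith : 0 ≤ 2 + 2 * v),
      mul_le_mul_of_nonneg_right hc1 hd.le, mul_nonneg hApos.le (sq_nonneg d)]
  have hN : 0 < (Q - 1 - v ^ 2) ^ 2 - 4 * v ^ 2 := by rw [hQd]; nlinarith
  have hlq : 0 ≤ log Q := log_nonneg (by nlinarith)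
  nlinarith [mul_nonneg hlq hK, mul_pos (pow_pos hv 2) hN]

theorem LQ_pos (σ ζ : ℝ) : 0 < LQ σ ζ := by
  rw [LQ_eq]
  refine log_pos ?_
  nlinarith [mul_pos (cosh_pos ζ) (exp_pos (-σ)), exp_pos (-σ)]

theorem UU_pos {σ ζ : ℝ} (hz : 0 < ζ) : 0 < UU σ ζ :=
  div_pos (mul_pos (mul_pos (exp_pos _) (cc_pos _ _)) (LQ_pos σ ζ))
    (pow_pos (sinh_pos_iff.2 hz) 2)

theorem curve_zero {ν ζ₀ ζ : ℝ} (hν : ν * UU 0 ζ₀ = 1) (hz₀ : 0 < ζ₀) (hz : 0 < ζ) :
    ζ₀ + ν * NN 0 ζ₀ ≤ ζ + ν * NN 0 ζ := by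
  have hν0 : 0 < ν := by
    have := UU_pos (σ := 0) hz₀; by_contra h; nlinarith [not_lt.1 h]
  have hanti : AntitoneOn (fun z => UU 0 z) (Ioi 0) := by
    intro x hx y hy hxy
    have hcx : 1 < cosh x := one_lt_cosh.2 (ne_of_gt hx)
    have hcy : 1 < cosh y := one_lt_cosh.2 (ne_of_gt hy)
    have hle : cosh x ≤ cosh y := cosh_le_cosh.2 (by
      rw [abs_of_pos hx, abs_of_pos hy]; exact hxy)
    have e : ∀ z, 1 < cosh z → UU 0 z = log (2 + 2 * cosh z) / (cosh z - 1) := by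
      intro z hzc
      rw [UU, LQ, cc, sinh_sq, cosh_zero, exp_zero,
        show 2 * (1 + cosh z) = 2 + 2 * cosh z by ring, sub_zero, one_mul,
        show cosh z ^ 2 - 1 = (1 + cosh z) * (cosh z - 1) by ring]
      rw [mul_div_mul_left _ _ (by linarith)]
    simp only [e x hcx, e y hcy]
    rw [div_le_div_iff₀ (by linarith) (by linarith)]
    have hL1 : 1 ≤ log (2 + 2 * cosh x) := by
      rw [le_log_iff_exp_le (by linarith)]
      linarith [exp_one_lt_d9]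
    have hstep : log (2 + 2 * cosh y) ≤ log (2 + 2 * cosh x) + (cosh y - cosh x) / (1 + cosh x) := by
      have := log_le_sub_one_of_pos
        (show 0 < (2 + 2 * cosh y) / (2 + 2 * cosh x) by positivity)
      rw [log_div (by linarith) (by linarith)] at this
      have e2 : (2 + 2 * cosh y) / (2 + 2 * cosh x) - 1 = (cosh y - cosh x) / (1 + cosh x) := by
        field_simp; ring
      linarith
    have hfrac : (cosh x - 1) * ((cosh y - cosh x) / (1 + cosh x)) ≤ cosh y - cosh x := by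
      rw [mul_div_assoc', div_le_iff₀ (by linarith)]
      nlinarith
    nlinarith [mul_le_mul_of_nonneg_left hstep (by linarith : 0 ≤ cosh x - 1),
      mul_le_mul_of_nonneg_left hL1 (by linarith : 0 ≤ cosh y - cosh x)]
  have hd : ∀ z, 0 < z → HasDerivAt (fun z => z + ν * NN 0 z) (1 - ν * UU 0 z) z := fun z hz => by
    have h := hasDerivAt_NN_VV (σf := fun _ => (0:ℝ)) (ζf := id)
      (hasDerivAt_const z 0) (hasDerivAt_id z) hz 0
    have hst := stationary_eq (ε := 0) hz (MM_zero z)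
    simp only [id, zero_mul, add_zero, mul_one, zero_add, mul_zero, zero_div, sub_zero] at h hst
    rw [hst] at h
    exact ((hasDerivAt_id z).add (h.const_mul ν)).congr_deriv (by ring)
  rcases le_total ζ ζ₀ with h | h
  · refine antitoneOn_of_hasDerivWithinAt_nonpos (f := fun z => z + ν * NN 0 z)
      (convex_Icc ζ ζ₀) (fun x hx => (hd x (hz.trans_le hx.1)).continuousAt.continuousWithinAt)
      (fun x hx => (hd x (by rw [interior_Icc] at hx; exact hz.trans hx.1)).hasDerivWithinAt)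
      ?_ ⟨le_rfl, h⟩ ⟨h, le_rfl⟩ h
    intro x hx
    rw [interior_Icc] at hx
    have := hanti (mem_Ioi.2 (hz.trans hx.1)) (mem_Ioi.2 hz₀) hx.2.le
    simp only at this
    nlinarith [mul_le_mul_of_nonneg_left this hν0.le]
  · refine monotoneOn_of_hasDerivWithinAt_nonneg (f := fun z => z + ν * NN 0 z)
      (convex_Icc ζ₀ ζ) (fun x hx => (hd x (hz₀.trans_le hx.1)).continuousAt.continuousWithinAt)
      (fun x hx => (hd x (by rw [interior_Icc] at hx; exact hz₀.trans hx.1)).hasDerivWithinAt)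
      ?_ ⟨le_rfl, h⟩ ⟨h, le_rfl⟩ h
    intro x hx
    rw [interior_Icc] at hx
    have := hanti (mem_Ioi.2 hz₀) (mem_Ioi.2 (hz₀.trans hx.1)) hx.1.le
    simp only at this
    nlinarith [mul_le_mul_of_nonneg_left this hν0.le]

end Vale.Agent.P322
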