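import Vale.Agent.P322.Envelope
import Vale.Agent.P322.Paths

/-!
The two-point inequality.
-/

namespace Vale.Agent.P322

open Real Set

theorem D1_eq_Ar {u v : ℝ} (hu0 : 0 < u) (hu1 : u < 1) (hv0 : 0 < v) (hv1 : v < 1) :
    D1 u v = (v - u) * (Ar (1 - 2 * u) - Ar (1 - 2 * v)) / 2 := by
  rw [D1, lgo_eq hu0 hu1, lgo_eq hv0 hv1]; ring

/-- The end of both paths: a saturated pair. -/
theorem ray_end {x₀ x₁ β : ℝ} (h0 : 0 < x₀) (h01 : x₀ < x₁) (hsum : x₀ + x₁ ≤ 1)
    (hβ0 : 0 < β) (hβ1 : β ≤ 1) :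
    0 ≤ β * D1 x₀ x₁
      + 2 * ((binEntropy (β * x₀) + binEntropy (β * x₁)) / 2 - binEntropy (β * ((x₀ + x₁) / 2)))
      + EP ((pA (1 - 2 * (β * x₀)) + pA (1 - 2 * (β * x₁))) / 2)
          (β * ((binEntropy x₀ + binEntropy x₁) / 2))
      - EP (pA (1 - 2 * (β * ((x₀ + x₁) / 2)))) (β * ((binEntropy x₀ + binEntropy x₁) / 2)) := by
  have hx1 : x₁ < 1 := by linarith
  set h := (binEntropy x₀ + binEntropy x₁) / 2 with hh
  have hh0 : 0 < h := by
    have := binEntropy_pos h0 (by linarith : x₀ < 1)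
    have := binEntropy_pos (h0.trans h01) hx1
    rw [hh]; linarith
  have key := path_ray (t := 1 / β) h0 h01.le hsum hh0 hx1 (by rw [le_div_iff₀ hβ0]; linarith)
  have e : ∀ x : ℝ, x / (1 / β) = β * x := fun x => by field_simp
  simp only [e] at key
  set c := 1 - (x₀ + x₁) with hc
  set d := x₁ - x₀ with hd
  have e0 : 1 - 2 * x₀ = c + d := by rw [hc, hd]; ring
  have e1 : 1 - 2 * x₁ = c - d := by rw [hc, hd]; ring
  have em : 1 - 2 * ((x₀ + x₁) / 2) = c := by rw [hc]; ring
  have op := one_point (c := c) (d := d) (by linarith) (by linarith) (by linarith)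
  rw [← e0, ← e1, ← em, hr_eq_binEntropy, hr_eq_binEntropy, hr_eq_binEntropy] at op
  have eD : D1 x₀ x₁ = d * (Ar (1 - 2 * x₀) - Ar (1 - 2 * x₁)) / 2 :=
    D1_eq_Ar h0 (by linarith) (h0.trans h01) hx1
  rw [← eD] at op
  have p0 := pA_pos (a := 1 - 2 * x₀) (by linarith) (by linarith)
  have p1 := pA_pos (a := 1 - 2 * x₁) (by linarith) (by linarith)
  have hnn := EP_nonneg (p := (pA (1 - 2 * x₀) + pA (1 - 2 * x₁)) / 2) (by linarith) hh0
  have hβx : ∀ x, 0 < x → x < 1 → 0 < pA (1 - 2 * (β * x)) := fun x hx hx' =>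
    pA_pos (by nlinarith) (by nlinarith [mul_pos hβ0 hx])
  have q0 := hβx _ h0 (by linarith)
  have q1 := hβx _ (h0.trans h01) hx1
  have qm := hβx ((x₀ + x₁) / 2) (by linarith) (by linarith)
  have s0 := EP_homog (t := β) (p := (1 / β * pA (1 - 2 * (β * x₀))
      + 1 / β * pA (1 - 2 * (β * x₁))) / 2) hβ0 (by positivity) hh0
  have s1 := EP_homog (t := β) (p := 1 / β * pA (1 - 2 * (β * ((x₀ + x₁) / 2)))) hβ0
    (by positivity) hh0
  rw [show β * ((1 / β * pA (1 - 2 * (β * x₀)) + 1 / β * pA (1 - 2 * (β * x₁))) / 2)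
      = (pA (1 - 2 * (β * x₀)) + pA (1 - 2 * (β * x₁))) / 2 by field_simp] at s0
  rw [show β * (1 / β * pA (1 - 2 * (β * ((x₀ + x₁) / 2))))
      = pA (1 - 2 * (β * ((x₀ + x₁) / 2))) by field_simp] at s1
  rw [s0, s1]
  have k2 := mul_le_mul_of_nonneg_left key hβ0.le
  have op' := mul_le_mul_of_nonneg_left op hβ0.le
  have hnn' := mul_nonneg hβ0.le hnn
  have c1 : ∀ z : ℝ, β * (1 / β * z) = z := fun z => by field_simp
  have e4 : β * (2 * ((1 / β * binEntropy (β * x₀) + 1 / β * binEntropy (β * x₁)) / 2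
        - 1 / β * binEntropy (β * ((x₀ + x₁) / 2))))
      = 2 * ((binEntropy (β * x₀) + binEntropy (β * x₁)) / 2
        - binEntropy (β * ((x₀ + x₁) / 2))) := by
    linear_combination c1 (binEntropy (β * x₀)) + c1 (binEntropy (β * x₁))
      - 2 * c1 (binEntropy (β * ((x₀ + x₁) / 2)))
  linarith

/-- The two-point inequality in terms of the five statistics. -/
theorem two_point_stats {Q₀ Q₁ H E : ℝ} (h0 : 0 < Q₀) (h01 : Q₀ ≤ Q₁) (h1 : Q₁ < 1)
    (hsum : Q₀ + Q₁ ≤ 1) (hH0 : 0 < H) (hH : H ≤ (binEntropy Q₀ + binEntropy Q₁) / 2)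
    (hplane : ∀ θ ν κ : ℝ, 0 ≤ ν → 0 ≤ κ → (∀ u v : ℝ, 0 < u → u < 1 → 0 < v → v < 1 →
        θ * (v - u) ≤ D1 u v + ν * ((binEntropy u + binEntropy v) / 2) + κ * ((u + v) / 2)) →
      θ * (Q₁ - Q₀) ≤ E + ν * H + κ * ((Q₀ + Q₁) / 2)) :
    0 ≤ E + 2 * ((binEntropy Q₀ + binEntropy Q₁) / 2 - binEntropy ((Q₀ + Q₁) / 2))
      + EP ((pA (1 - 2 * Q₀) + pA (1 - 2 * Q₁)) / 2) H
      - EP (pA (1 - 2 * ((Q₀ + Q₁) / 2))) H := by
  rcases h01.eq_or_lt with h | hlt
  · subst h
    have := hplane 0 0 0 le_rfl le_rfl (fun u v a b c d => by simpa using D1_nonneg a b c d)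
    simp only [zero_mul, add_zero] at this
    rw [show (Q₀ + Q₀) / 2 = Q₀ by ring,
      show (pA (1 - 2 * Q₀) + pA (1 - 2 * Q₀)) / 2 = pA (1 - 2 * Q₀) by ring]
    linarith
  set b := Q₁ - Q₀ with hb
  set T := Q₀ + Q₁ with hT
  have hb0 : 0 < b := by linarith
  have hT0 : 0 < T := by linarith
  have hr0b : b / T < 1 := by rw [div_lt_one hT0]; linarith
  have hr0p : 0 < b / T := div_pos hb0 hT0
  rcases le_or_gt H (T * hr (b / T)) with hcase | hcase
  · obtain ⟨r, ⟨hr1, hr2⟩, hre⟩ := intermediate_value_Icc' hr0b.le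
      (((continuous_const (y := b)).mul continuous_hr).sub
        ((continuous_const (y := H)).mul continuous_id)).continuousOn
      (show (0:ℝ) ∈ Icc (b * hr 1 - H * 1) (b * hr (b / T) - H * (b / T)) by
        constructor
        · simp; linarith
        · have := mul_le_mul_of_nonneg_left hcase hr0p.le
          have : b / T * (T * hr (b / T)) = b * hr (b / T) := by field_simp
          linarith)
    simp only [Pi.sub_apply, Pi.mul_apply, id] at hre
    have hr0 : 0 < r := hr0p.trans_le hr1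
    have hrl : r < 1 := by
      refine lt_of_le_of_ne hr2 ?_
      rintro rfl
      simp at hre; linarith
    set β := b / r with hβ
    have hβ0 : 0 < β := div_pos hb0 hr0
    have hβT : β ≤ T := by
      rw [hβ, div_le_iff₀ hr0]
      rw [div_le_iff₀ hT0] at hr1
      linarith
    have hbr : b = β * r := by rw [hβ]; field_simp
    have hHr : H = β * hr r := by
      rw [hβ]; field_simp; linarith
    obtain ⟨θ, ν, κ, -, hν, hκ, hk0, heq, hpl⟩ := plane (q₀ := (1 - r) / 2) (q₁ := (1 + r) / 2)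
      (by linarith) (by linarith) (by linarith)
    have hk : κ = 0 := hk0 (by ring)
    have hE := hplane θ ν κ hν hκ hpl
    have ex0 : binEntropy ((1 - r) / 2) = hr r := rfl
    have ex1 : binEntropy ((1 + r) / 2) = hr r := by
      rw [← hr_eq_binEntropy, show 1 - 2 * ((1 + r) / 2) = -r by ring, hr_neg]
    rw [hk, ex0, ex1] at heq
    rw [hk] at hE
    have hED : β * D1 ((1 - r) / 2) ((1 + r) / 2) ≤ E := by
      have e1 : θ * (Q₁ - Q₀) = β * (θ * ((1 + r) / 2 - (1 - r) / 2)) := by
        rw [← hb, hbr]; ring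
      have e2 : ν * H = β * (ν * ((hr r + hr r) / 2)) := by rw [hHr]; ring
      rw [← heq] at e1
      linarith
    have hend := ray_end (x₀ := (1 - r) / 2) (x₁ := (1 + r) / 2) (β := β) (by linarith)
      (by linarith) (by linarith) hβ0 (by linarith)
    rw [ex0, ex1] at hend
    set a₀ := 1 - T with ha₀
    set a₁ := 1 - β with ha₁
    have hab : a₁ + b < 1 := by
      rw [ha₁, hbr]; nlinarith [mul_lt_mul_of_pos_left hrl hβ0]
    have hp := path_mean (a₀ := a₀) (a₁ := a₁) (b := b) (by linarith) (by linarith) hb0.le hab hH0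
    rw [show a₁ + b = 1 - 2 * (β * ((1 - r) / 2)) by rw [ha₁, hbr]; ring,
      show a₁ - b = 1 - 2 * (β * ((1 + r) / 2)) by rw [ha₁, hbr]; ring,
      show a₁ = 1 - 2 * (β * (((1 - r) / 2 + (1 + r) / 2) / 2)) by rw [ha₁]; ring,
      show a₀ + b = 1 - 2 * Q₀ by rw [ha₀, hb, hT]; ring,
      show a₀ - b = 1 - 2 * Q₁ by rw [ha₀, hb, hT]; ring,
      show a₀ = 1 - 2 * (T / 2) by rw [ha₀]; ring] at hp
    simp only [hr_eq_binEntropy] at hp
    rw [show β * ((hr r + hr r) / 2) = H by rw [hHr]; ring] at hend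
    linarith
  · obtain ⟨β, ⟨hβ1, hβ2⟩, hβe⟩ := intermediate_value_Icc hsum
      (f := fun β => β * ((binEntropy (Q₀ / β) + binEntropy (Q₁ / β)) / 2))
      (by
        have hd : ∀ c : ℝ, ContinuousOn (fun β : ℝ => binEntropy (c / β)) (Icc T 1) := fun c =>
          binEntropy_continuous.comp_continuousOn
            (continuousOn_const.div continuousOn_id fun x hx => (hT0.trans_le hx.1).ne')
        exact continuousOn_id.mul (((hd Q₀).add (hd Q₁)).div_const 2))
      (show H ∈ Icc _ _ by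
        constructor
        · have e1 : binEntropy (Q₀ / T) = hr (b / T) := by
            rw [← hr_eq_binEntropy]; congr 1; rw [sub_eq_iff_eq_add]; field_simp; rw [hb, hT]; ring
          have e2 : binEntropy (Q₁ / T) = hr (b / T) := by
            rw [← hr_eq_binEntropy, ← hr_neg (b / T)]; congr 1; rw [sub_eq_iff_eq_add]; field_simp; rw [hb, hT]; ring
          simp only [e1, e2]; linarith
        · simpa using hH)
    simp only at hβe
    have hβ0 : 0 < β := hT0.trans_le hβ1
    obtain ⟨θ, ν, κ, -, hν, hκ, -, heq, hpl⟩ := plane (q₀ := Q₀ / β) (q₁ := Q₁ / β)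
      (div_pos h0 hβ0) ((div_lt_div_iff_of_pos_right hβ0).2 hlt)
      (by rw [← add_div, div_le_one hβ0]; exact hβ1)
    have hE := hplane θ ν κ hν hκ hpl
    have hx1 : Q₁ / β < 1 := by rw [div_lt_one hβ0]; linarith
    have c0 : β * (Q₀ / β) = Q₀ := by field_simp
    have c1 : β * (Q₁ / β) = Q₁ := by field_simp
    have hED : β * D1 (Q₀ / β) (Q₁ / β) ≤ E := by
      have := congrArg (fun z => β * z) heq
      have e1 : β * (θ * (Q₁ / β - Q₀ / β)) = θ * (Q₁ - Q₀) := by field_simp
      have e2 : β * (ν * ((binEntropy (Q₀ / β) + binEntropy (Q₁ / β)) / 2)) = ν * H := by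
        rw [← hβe]; ring
      have e3 : β * (κ * ((Q₀ / β + Q₁ / β) / 2)) = κ * ((Q₀ + Q₁) / 2) := by field_simp
      simp only [mul_add] at this
      linarith
    have hend := ray_end (β := β) (div_pos h0 hβ0) ((div_lt_div_iff_of_pos_right hβ0).2 hlt)
      (by rw [← add_div, div_le_one hβ0]; exact hβ1) hβ0 hβ2
    rw [hβe, c0, c1, show β * ((Q₀ / β + Q₁ / β) / 2) = T / 2 by field_simp; rw [hT]] at hend
    linarith

variable {ι : Type*} [Fintype ι] [Nonempty ι]

/-- Average over a finite type. -/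
noncomputable def av (f : ι → ℝ) : ℝ := (∑ i, f i) / Fintype.card ι

theorem av_congr {f g : ι → ℝ} (h : ∀ i, f i = g i) : av f = av g := by
  unfold av; rw [Finset.sum_congr rfl fun i _ => h i]

theorem av_add (f g : ι → ℝ) : av (fun i => f i + g i) = av f + av g := by
  unfold av; rw [Finset.sum_add_distrib, add_div]

theorem av_sub (f g : ι → ℝ) : av (fun i => f i - g i) = av f - av g := by
  unfold av; rw [Finset.sum_sub_distrib, sub_div]

theorem av_const_mul (c : ℝ) (f : ι → ℝ) : av (fun i => c * f i) = c * av f := by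
  unfold av; rw [← Finset.mul_sum, mul_div_assoc]

theorem av_const (c : ℝ) : av (fun _ : ι => c) = c := by
  unfold av; simp

theorem av_mono {f g : ι → ℝ} (h : ∀ i, f i ≤ g i) : av f ≤ av g :=
  div_le_div_of_nonneg_right (Finset.sum_le_sum fun i _ => h i) (Nat.cast_nonneg _)

theorem av_lt {f g : ι → ℝ} (h : ∀ i, f i < g i) : av f < av g :=
  div_lt_div_of_pos_right (Finset.sum_lt_sum_of_nonempty Finset.univ_nonempty fun i _ => h i)
    (Nat.cast_pos.2 Fintype.card_pos)

theorem av_pos {f : ι → ℝ} (h : ∀ i, 0 < f i) : 0 < av f := by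
  simpa [av_const] using av_lt (f := fun _ => (0:ℝ)) h

theorem av_binEntropy_le {u : ι → ℝ} (hu : ∀ i, u i ∈ Icc (0:ℝ) 1) :
    av (fun i => binEntropy (u i)) ≤ binEntropy (av u) := by
  have h := strictConcave_binEntropy.concaveOn.le_map_sum (t := (Finset.univ : Finset ι))
    (w := fun _ => ((Fintype.card ι : ℝ))⁻¹) (p := u) (fun i _ => by positivity)
    (by simp) (fun i _ => hu i)
  simp only [smul_eq_mul, ← Finset.mul_sum] at h
  unfold av
  rwa [div_eq_inv_mul, div_eq_inv_mul]

theorem FF_one_sub (Q H : ℝ) : FF (1 - Q) H = FF Q H := by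
  unfold FF
  rw [binEntropy_one_sub, show 1 - 2 * (1 - Q) = -(1 - 2 * Q) by ring, pA_neg]

theorem D1_one_sub (u v : ℝ) : D1 (1 - u) (1 - v) = D1 u v := by
  simp only [D1, lgo, sub_sub_cancel]; ring

theorem two_point_sorted {u v : ι → ℝ} (hu : ∀ i, u i ∈ Ioo (0:ℝ) 1) (hv : ∀ i, v i ∈ Ioo (0:ℝ) 1)
    (h01 : av u ≤ av v) (hsum : av u + av v ≤ 1) :
    FF ((av u + av v) / 2)
        ((av (fun i => binEntropy (u i)) + av (fun i => binEntropy (v i))) / 2)
      ≤ (FF (av u) (av fun i => binEntropy (u i)) + FF (av v) (av fun i => binEntropy (v i))) / 2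
        + av (fun i => D1 (u i) (v i)) := by
  have hu0 : 0 < av u := av_pos fun i => (hu i).1
  have hv0 : 0 < av v := av_pos fun i => (hv i).1
  have hv1 : av v < 1 := by simpa [av_const] using av_lt (g := fun _ => (1:ℝ)) fun i => (hv i).2
  have hu1 : av u < 1 := lt_of_le_of_lt h01 hv1
  have hH0 : 0 < av (fun i => binEntropy (u i)) := av_pos fun i => binEntropy_pos (hu i).1 (hu i).2
  have hH1 : 0 < av (fun i => binEntropy (v i)) := av_pos fun i => binEntropy_pos (hv i).1 (hv i).2
  have j0 := av_binEntropy_le fun i => Ioo_subset_Icc_self (hu i)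
  have j1 := av_binEntropy_le fun i => Ioo_subset_Icc_self (hv i)
  have key := two_point_stats (E := av fun i => D1 (u i) (v i))
    (H := (av (fun i => binEntropy (u i)) + av (fun i => binEntropy (v i))) / 2)
    hu0 h01 hv1 hsum (by linarith) (by linarith) (by
      intro θ ν κ _ _ hp
      have h := av_mono fun i => hp (u i) (v i) (hu i).1 (hu i).2 (hv i).1 (hv i).2
      have l1 : av (fun i => θ * (v i - u i)) = θ * (av v - av u) := by
        rw [av_const_mul, av_sub]
      have l2 : av (fun i => D1 (u i) (v i) + ν * ((binEntropy (u i) + binEntropy (v i)) / 2)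
            + κ * ((u i + v i) / 2))
          = av (fun i => D1 (u i) (v i))
            + ν * ((av (fun i => binEntropy (u i)) + av (fun i => binEntropy (v i))) / 2)
            + κ * ((av u + av v) / 2) := by
        rw [av_add, av_add, av_const_mul, av_const_mul]
        simp only [div_eq_inv_mul, av_const_mul, av_add]
      rwa [l1, l2] at h)
  have p0 := pA_pos (a := 1 - 2 * av u) (by linarith) (by linarith)
  have p1 := pA_pos (a := 1 - 2 * av v) (by linarith) (by linarith)
  have hc := EP_avg p0 p1 hH0 hH1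
  unfold FF
  linarith

/-- The two-point inequality. -/
theorem two_point {u v : ι → ℝ} (hu : ∀ i, u i ∈ Ioo (0:ℝ) 1) (hv : ∀ i, v i ∈ Ioo (0:ℝ) 1) :
    FF ((av u + av v) / 2)
        ((av (fun i => binEntropy (u i)) + av (fun i => binEntropy (v i))) / 2)
      ≤ (FF (av u) (av fun i => binEntropy (u i)) + FF (av v) (av fun i => binEntropy (v i))) / 2
        + av (fun i => D1 (u i) (v i)) := by
  have hu' : ∀ i, 1 - u i ∈ Ioo (0:ℝ) 1 := fun i =>
    ⟨by linarith [(hu i).2], by linarith [(hu i).1]⟩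
  have hv' : ∀ i, 1 - v i ∈ Ioo (0:ℝ) 1 := fun i =>
    ⟨by linarith [(hv i).2], by linarith [(hv i).1]⟩
  have eu : av (fun i => 1 - u i) = 1 - av u := by rw [av_sub, av_const]
  have ev : av (fun i => 1 - v i) = 1 - av v := by rw [av_sub, av_const]
  have esymm : av (fun i => D1 (v i) (u i)) = av (fun i => D1 (u i) (v i)) :=
    av_congr fun i => D1_comm _ _
  rcases le_total (av u + av v) 1 with hs | hs
  · rcases le_total (av u) (av v) with h | h
    · exact two_point_sorted hu hv h hs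
    · have := two_point_sorted hv hu h (by linarith)
      rw [esymm, add_comm (av v) (av u),
        add_comm (av fun i => binEntropy (v i)) (av fun i => binEntropy (u i)),
        add_comm (FF (av v) _) (FF (av u) _)] at this
      exact this
  · rcases le_total (av u) (av v) with h | h
    · have := two_point_sorted hv' hu' (by linarith) (by linarith)
      simp only [binEntropy_one_sub, D1_one_sub, eu, ev, esymm, FF_one_sub] at this
      rw [show (1 - av v + (1 - av u)) / 2 = 1 - (av u + av v) / 2 by ring, FF_one_sub,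
        add_comm (av fun i => binEntropy (v i)) (av fun i => binEntropy (u i)),
        add_comm (FF (av v) _) (FF (av u) _)] at this
      exact this
    · have := two_point_sorted hu' hv' (by linarith) (by linarith)
      simp only [binEntropy_one_sub, D1_one_sub, eu, ev, FF_one_sub] at this
      rw [show (1 - av u + (1 - av v)) / 2 = 1 - (av u + av v) / 2 by ring, FF_one_sub] at this
      exact this

end Vale.Agent.P322
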